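import Crest.Agent.R230.Defs

set_option autoImplicit false
open MeasureTheory Filter Topology
open scoped ENNReal RealInnerProductSpace Pointwise

namespace Crest.Agent.R230

variable {n : ℕ}

/-! Basic facts on the uniform measure `sph n`. -/

namespace SphereAux

open Set Metric

theorem nontriv (hn : 1 ≤ n) : Nontrivial (E n) :=
  Module.nontrivial_of_finrank_pos (R := ℝ) (by simp only [finrank_euclideanSpace, Fintype.card_fin]; exact hn)

theorem kap_pos' (n : ℕ) : 0 < kap n :=
  ENNReal.toReal_pos (measure_ball_pos _ _ one_pos).ne' measure_ball_lt_top.ne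

theorem mass (n : ℕ) :
    (volume : Measure (E n)).toSphere univ = ENNReal.ofReal (n * kap n) := by
  rw [Measure.toSphere_apply_univ, ENNReal.ofReal_mul (Nat.cast_nonneg n), ENNReal.ofReal_natCast,
    kap, ENNReal.ofReal_toReal measure_ball_lt_top.ne, finrank_euclideanSpace, Fintype.card_fin]

theorem mass_ne (hn : 1 ≤ n) : ENNReal.ofReal (n * kap n) ≠ 0 :=
  (ENNReal.ofReal_pos.2 (mul_pos (Nat.cast_pos.2 hn) (kap_pos' n))).ne'

theorem sph_zero : sph 0 = 0 := by
  rw [sph, (Measure.toSphere_eq_zero_iff_finrank _).2 (by simp)]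
  simp

theorem sph_apply {A : Set (E n)} (hA : MeasurableSet A) :
    sph n A = ((volume : Measure (E n)).toSphere univ)⁻¹ *
      (Module.finrank ℝ (E n) * volume (Ioo (0 : ℝ) 1 • (A ∩ sphere 0 1))) := by
  rw [sph, Measure.smul_apply, Measure.map_apply measurable_subtype_coe hA, smul_eq_mul,
    Measure.toSphere_apply' _ (measurable_subtype_coe hA), Subtype.image_preimage_coe, inter_comm]

theorem measurable_inner {f : E n → ℝ≥0∞} (hf : Measurable f) : Measurable fun p : E n =>
    ∫⁻ r in Ioi (0 : ℝ), ENNReal.ofReal (r ^ (n - 1)) * f (r • p) :=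
  Measurable.lintegral_prod_right' (f := fun z : E n × ℝ =>
    ENNReal.ofReal (z.2 ^ (n - 1)) * f (z.2 • z.1))
    (Measurable.mul (by fun_prop) (hf.comp (by fun_prop)))

theorem polar (hn : 1 ≤ n) {f : E n → ℝ≥0∞} (hf : Measurable f) :
    ∫⁻ x, f x = ENNReal.ofReal (n * kap n) *
      ∫⁻ p, (∫⁻ r in Set.Ioi (0 : ℝ), ENNReal.ofReal (r ^ (n - 1)) * f (r • p)) ∂sph n := by
  have := nontriv hn
  let G : sphere (0 : E n) 1 × Ioi (0 : ℝ) → ℝ≥0∞ := fun y => f (y.2.1 • y.1.1)
  have hG : Measurable G := hf.comp (by fun_prop)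
  have h1 := (volume : Measure (E n)).measurePreserving_homeomorphUnitSphereProd.lintegral_comp hG
  have h0 : ∫⁻ x, f x = ∫⁻ x : ({0}ᶜ : Set (E n)), f x ∂(Measure.comap Subtype.val volume) := by
    rw [lintegral_subtype_comap (measurableSet_singleton _).compl, restrict_compl_singleton]
  have h2 : ∀ x : ({0}ᶜ : Set (E n)), f x = G (homeomorphUnitSphereProd _ x) := fun x => by
    have hx : ‖x.1‖ ≠ 0 := norm_ne_zero_iff.2 x.2
    simp [G, smul_smul, hx]
  rw [h0]
  simp only [h2]
  rw [h1, lintegral_prod _ hG.aemeasurable, sph, lintegral_smul_measure,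
    lintegral_map (measurable_inner hf) measurable_subtype_coe, mass, smul_eq_mul, ← mul_assoc,
    ENNReal.mul_inv_cancel (mass_ne hn) ENNReal.ofReal_ne_top, one_mul]
  refine lintegral_congr fun ω => ?_
  have hω : Measurable fun r => G (ω, r) := hG.comp measurable_prodMk_left
  rw [Measure.volumeIoiPow, lintegral_withDensity_eq_lintegral_mul _ (by fun_prop) hω,
    finrank_euclideanSpace, Fintype.card_fin]
  exact lintegral_subtype_comap measurableSet_Ioi fun r : ℝ =>
    ENNReal.ofReal (r ^ (n - 1)) * f (r • ω.1)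

theorem radial (hn : 1 ≤ n) {a : ℝ} (ha : 0 ≤ a) :
    ∫⁻ r in Ioc (0 : ℝ) a, ENNReal.ofReal (r ^ (n - 1)) = ENNReal.ofReal (a ^ n / n) := by
  obtain ⟨m, rfl⟩ : ∃ m, n = m + 1 := ⟨n - 1, by omega⟩
  rw [← ofReal_integral_eq_lintegral_ofReal
    ((continuous_pow _).integrableOn_Icc.mono_set Ioc_subset_Icc_self)
    ((ae_restrict_mem measurableSet_Ioc).mono fun r hr => pow_nonneg hr.1.le _),
    ← intervalIntegral.integral_of_le ha, integral_pow]
  simp

end SphereAux

theorem kap_pos (n : ℕ) : 0 < kap n := SphereAux.kap_pos' n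

theorem sph_prob (hn : 1 ≤ n) : IsProbabilityMeasure (sph n) := by
  constructor
  rw [sph, Measure.smul_apply, Measure.map_apply measurable_subtype_coe MeasurableSet.univ,
    Set.preimage_univ, smul_eq_mul, SphereAux.mass,
    ENNReal.inv_mul_cancel (SphereAux.mass_ne hn) ENNReal.ofReal_ne_top]

theorem ae_norm : ∀ᵐ p ∂sph n, ‖p‖ = 1 := by
  refine Measure.ae_smul_measure ?_ _
  rw [ae_map_iff measurable_subtype_coe.aemeasurable
    (isClosed_eq continuous_norm continuous_const).measurableSet]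
  exact Eventually.of_forall fun s => by simp

theorem sph_preserving (R : E n ≃ₗᵢ[ℝ] E n) : MeasurePreserving R (sph n) (sph n) := by
  have hf : Measurable R := R.continuous.measurable
  refine ⟨hf, ?_⟩
  ext A hA
  rw [Measure.map_apply hf hA, SphereAux.sph_apply hA, SphereAux.sph_apply (hf hA)]
  congr 2
  rw [← R.measurePreserving.measure_preimage_emb R.toHomeomorph.measurableEmbedding
    (Set.Ioo (0 : ℝ) 1 • (A ∩ Metric.sphere 0 1))]
  congr 1
  ext y
  constructor
  · rintro ⟨t, ht, a, ⟨ha, ha1⟩, rfl⟩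
    refine ⟨t, ht, R a, ⟨ha, by simpa using ha1⟩, by simp⟩
  · rintro ⟨t, ht, a, ⟨ha, ha1⟩, h⟩
    refine ⟨t, ht, R.symm a, ⟨by simpa using ha, by simpa using ha1⟩, ?_⟩
    apply R.injective
    simpa using h

theorem integral_comp_iso {F : Type*} [NormedAddCommGroup F] [NormedSpace ℝ F]
    (R : E n ≃ₗᵢ[ℝ] E n) (f : E n → F) : ∫ p, f (R p) ∂sph n = ∫ p, f p ∂sph n :=
  (sph_preserving R).integral_comp R.toHomeomorph.measurableEmbedding f

theorem integral_comp_neg {F : Type*} [NormedAddCommGroup F] [NormedSpace ℝ F]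
    (f : E n → F) : ∫ p, f (-p) ∂sph n = ∫ p, f p ∂sph n :=
  integral_comp_iso (LinearIsometryEquiv.neg ℝ) f

/-- a property that holds Lebesgue-a.e. and passes from `t • x` to `x` holds `sph`-a.e. -/
theorem ae_of_cone {P : E n → Prop} (hP : ∀ᵐ x ∂(volume : Measure (E n)), P x)
    (hc : ∀ (x : E n) (t : ℝ), 0 < t → P (t • x) → P x) : ∀ᵐ p ∂sph n, P p := by
  rcases Nat.eq_zero_or_pos n with rfl | hn
  · simp [SphereAux.sph_zero]
  obtain ⟨T, hT, hTm, hT0⟩ := exists_measurable_superset_of_null (ae_iff.1 hP)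
  have hf : Measurable (T.indicator (1 : E n → ℝ≥0∞)) := measurable_one.indicator hTm
  have h := SphereAux.polar hn hf
  rw [lintegral_indicator_one hTm, hT0, eq_comm, mul_eq_zero] at h
  have h1 := (lintegral_eq_zero_iff (SphereAux.measurable_inner hf)).1
    (h.resolve_left (SphereAux.mass_ne hn))
  filter_upwards [h1] with p hp
  have h2 := (lintegral_eq_zero_iff (Measurable.mul (by fun_prop) (hf.comp (by fun_prop)))).1 hp
  have : (ae (volume.restrict (Set.Ioi (0 : ℝ)))).NeBot := ae_neBot.2 (by simp)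
  obtain ⟨r, hr, hr0⟩ := (h2.and (ae_restrict_mem measurableSet_Ioi)).exists
  refine hc p r hr0 (by_contra fun hn' => ?_)
  have h3 : r • p ∈ T := hT hn'
  simp only [Pi.mul_apply, Function.comp_apply, Set.indicator_of_mem h3, Pi.one_apply, mul_one,
    Pi.zero_apply, ENNReal.ofReal_eq_zero] at hr
  exact (pow_pos (show 0 < r from hr0) _).not_ge hr

theorem ae_inner_ne {q : E n} (hq : q ≠ 0) : ∀ᵐ p ∂sph n, ⟪p, q⟫ ≠ 0 := by
  refine ae_of_cone ?_ fun x t _ h h' => h (by rw [real_inner_smul_left, h', mul_zero])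
  have h := Measure.addHaar_submodule (volume : Measure (E n)) (ℝ ∙ q)ᗮ fun h => hq <| by
    have : q ∈ (ℝ ∙ q)ᗮ := h ▸ Submodule.mem_top
    exact inner_self_eq_zero.1 (Submodule.mem_orthogonal_singleton_iff_inner_left.1 this)
  rw [ae_iff]
  convert h using 2
  ext x
  simp [Submodule.mem_orthogonal_singleton_iff_inner_left]

theorem memLp_of_bdd {F : Type*} [NormedAddCommGroup F] {f : E n → F}
    (hf : AEStronglyMeasurable f (sph n)) {C : ℝ} (hC : ∀ᵐ p ∂sph n, ‖f p‖ ≤ C) (r : ℝ≥0∞) :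
    MemLp f r (sph n) := MemLp.of_bound hf C hC

/-- a function continuous away from the origin is bounded on the sphere, hence in every `L^r` -/
theorem memLp_of_continuousOn {F : Type*} [NormedAddCommGroup F] [SecondCountableTopology F]
    {f : E n → F} (hf : ContinuousOn f {0}ᶜ) (r : ℝ≥0∞) : MemLp f r (sph n) := by
  have h0 : ∀ p : E n, ‖p‖ = 1 → p ∈ ({0}ᶜ : Set (E n)) := by
    rintro p hp rfl
    simp at hp
  obtain ⟨C, hC⟩ := (isCompact_sphere (0 : E n) 1).exists_bound_of_continuousOn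
    (hf.mono fun p hp => h0 p (by simpa using hp))
  refine memLp_of_bdd (C := C) ?_ (ae_norm.mono fun p hp => hC p (by simpa using hp)) r
  rw [← Measure.restrict_eq_self_of_ae_mem (ae_norm.mono h0)]
  exact hf.aestronglyMeasurable (measurableSet_singleton _).compl

theorem memLp_of_continuous {F : Type*} [NormedAddCommGroup F] [SecondCountableTopology F]
    {f : E n → F} (hf : Continuous f) (r : ℝ≥0∞) : MemLp f r (sph n) :=
  memLp_of_continuousOn hf.continuousOn r

theorem integrable_of_continuous {F : Type*} [NormedAddCommGroup F] [SecondCountableTopology F]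
    {f : E n → F} (hf : Continuous f) : Integrable f (sph n) :=
  memLp_one_iff_integrable.1 (memLp_of_continuous hf 1)

theorem integrable_of_continuousOn {F : Type*} [NormedAddCommGroup F] [SecondCountableTopology F]
    {f : E n → F} (hf : ContinuousOn f {0}ᶜ) : Integrable f (sph n) :=
  memLp_one_iff_integrable.1 (memLp_of_continuousOn hf 1)

/-- `sph n` has full support on the sphere -/
theorem eq_on_sphere {f : E n → ℝ} (hf : ContinuousOn f {0}ᶜ) {c : ℝ}
    (h : ∀ᵐ p ∂sph n, f p = c) {p : E n} (hp : ‖p‖ = 1) : f p = c := by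
  rw [sph, Measure.ae_ennreal_smul_measure_iff (ENNReal.inv_ne_zero.2 (measure_ne_top _ _))] at h
  have h1 := ae_of_ae_map measurable_subtype_coe.aemeasurable h
  have h2 : Continuous fun ω : Metric.sphere (0 : E n) 1 => f ω :=
    hf.comp_continuous continuous_subtype_val fun ω h0 => by
      have := ω.2
      rw [Set.mem_singleton_iff.1 h0] at this
      simp at this
  exact congrFun (Measure.eq_of_ae_eq h1 h2 continuous_const) ⟨p, by simpa using hp⟩

/-- polar coordinates -/
theorem lintegral_polar (hn : 1 ≤ n) {f : E n → ℝ≥0∞} (hf : Measurable f) :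
    ∫⁻ x, f x = ENNReal.ofReal (n * kap n) *
      ∫⁻ p, (∫⁻ r in Set.Ioi (0 : ℝ), ENNReal.ofReal (r ^ (n - 1)) * f (r • p)) ∂sph n :=
  SphereAux.polar hn hf

/-- volume of the unit ball of a norm -/
theorem volume_normBall (hn : 1 ≤ n) (N : Seminorm ℝ (E n)) (hN : Pos N) :
    volume {x : E n | N x ≤ 1} = ENNReal.ofReal (kap n * vr N) := by
  have hc : Continuous N := continuousOn_univ.1 (N.convexOn.continuousOn isOpen_univ)
  have hm : MeasurableSet {x : E n | N x ≤ 1} := (isClosed_le hc continuous_const).measurableSet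
  have hn' : (0 : ℝ) < n := Nat.cast_pos.2 hn
  have h1 : ∀ᵐ p ∂sph n, ∫⁻ r in Set.Ioi (0 : ℝ), ENNReal.ofReal (r ^ (n - 1)) *
      {x : E n | N x ≤ 1}.indicator 1 (r • p) = ENNReal.ofReal ((N p)⁻¹ ^ n / n) := by
    filter_upwards [ae_norm] with p hp
    have hp0 : 0 < N p := (apply_nonneg N p).lt_of_ne' fun h => by simp [hN p h] at hp
    rw [← SphereAux.radial hn (inv_pos.2 hp0).le, ← Set.Ioi_inter_Iic, Set.inter_comm,
      ← Measure.restrict_restrict measurableSet_Iic, ← lintegral_indicator measurableSet_Iic]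
    refine setLIntegral_congr_fun measurableSet_Ioi fun r hr => ?_
    have h2 : r • p ∈ {x : E n | N x ≤ 1} ↔ r ∈ Set.Iic (N p)⁻¹ := by
      rw [Set.mem_ofPred_eq, map_smul_eq_mul, Real.norm_of_nonneg (le_of_lt hr), Set.mem_Iic,
        ← one_div, le_div_iff₀ hp0]
    by_cases h : r ∈ Set.Iic (N p)⁻¹
    · simp only [Set.indicator_of_mem h, Set.indicator_of_mem (h2.2 h), Pi.one_apply, mul_one]
    · simp only [Set.indicator_of_notMem h, Set.indicator_of_notMem (h2.not.2 h), mul_zero]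
  have h3 : Integrable (fun p => (N p)⁻¹ ^ n / n) (sph n) :=
    (integrable_of_continuousOn ((hc.continuousOn.inv₀ (s := {0}ᶜ)
      fun p hp h => hp (hN p h)).pow n)).div_const _
  rw [← lintegral_indicator_one hm, lintegral_polar hn (measurable_one.indicator hm),
    lintegral_congr_ae h1, ← ofReal_integral_eq_lintegral_ofReal h3
      (Eventually.of_forall fun p => by positivity), integral_div,
    ← ENNReal.ofReal_mul (mul_pos hn' (kap_pos n)).le, vr]
  congr 1
  field_simp

/-- rotation by the angle `θ` in the plane spanned by the orthonormal vectors `u`, `v` -/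
theorem exists_rot {u v : E n} (hu : ‖u‖ = 1) (hv : ‖v‖ = 1) (huv : ⟪u, v⟫ = 0) :
    ∃ R : ℝ → (E n ≃ₗᵢ[ℝ] E n), ∀ (θ : ℝ) (x : E n),
      R θ x = x + (Real.cos θ - 1) • (⟪u, x⟫ • u + ⟪v, x⟫ • v) +
        Real.sin θ • (⟪u, x⟫ • v - ⟪v, x⟫ • u) := by
  let L : ℝ → E n →L[ℝ] E n := fun θ => ContinuousLinearMap.id ℝ (E n) +
    (Real.cos θ - 1) • ((innerSL ℝ u).smulRight u + (innerSL ℝ v).smulRight v) +
      Real.sin θ • ((innerSL ℝ u).smulRight v - (innerSL ℝ v).smulRight u)
  have hL : ∀ θ x, L θ x = x + (Real.cos θ - 1) • (⟪u, x⟫ • u + ⟪v, x⟫ • v) +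
      Real.sin θ • (⟪u, x⟫ • v - ⟪v, x⟫ • u) := fun θ x => rfl
  have huu : ⟪u, u⟫ = 1 := by rw [real_inner_self_eq_norm_sq, hu, one_pow]
  have hvv : ⟪v, v⟫ = 1 := by rw [real_inner_self_eq_norm_sq, hv, one_pow]
  have hvu : ⟪v, u⟫ = 0 := by rw [real_inner_comm, huv]
  have hn : ∀ θ x, ‖L θ x‖ = ‖x‖ := fun θ x => by
    rw [← sq_eq_sq₀ (norm_nonneg _) (norm_nonneg _), ← real_inner_self_eq_norm_sq,
      ← real_inner_self_eq_norm_sq, hL]
    simp only [inner_add_left, inner_add_right, inner_sub_left, inner_sub_right,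
      real_inner_smul_left, real_inner_smul_right, huu, hvv, huv, hvu, real_inner_comm u x,
      real_inner_comm v x]
    linear_combination (⟪u, x⟫ ^ 2 + ⟪v, x⟫ ^ 2) * Real.cos_sq_add_sin_sq θ
  exact ⟨fun θ => LinearIsometry.toLinearIsometryEquiv ⟨(L θ).toLinearMap, hn θ⟩ rfl, hL⟩

/-- the orthogonal group is transitive on spheres -/
theorem exists_iso_map {u v : E n} (h : ‖u‖ = ‖v‖) : ∃ R : E n ≃ₗᵢ[ℝ] E n, R u = v :=
  ⟨(ℝ ∙ (u - v))ᗮ.reflection, Submodule.reflection_sub h⟩

end Crest.Agent.R230
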