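import Crest.Agent.R230.Defs

set_option autoImplicit false
open MeasureTheory Filter Topology
open scoped ENNReal RealInnerProductSpace Pointwise

namespace Crest.Agent.R230

variable {n : ℕ}

/-! Polynomial functions and harmonic polynomials (no measure theory here). -/

open MvPolynomial

@[simp] theorem ev_C (c : ℝ) (x : E n) : ev (C c) x = c := by simp [ev]
@[simp] theorem ev_X (i : Fin n) (x : E n) : ev (X i) x = x i := by simp [ev]
@[simp] theorem ev_zero (x : E n) : ev 0 x = 0 := by simp [ev]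
@[simp] theorem ev_one (x : E n) : ev 1 x = 1 := by simp [ev]
@[simp] theorem ev_add (Y Z : MP n) (x : E n) : ev (Y + Z) x = ev Y x + ev Z x := by simp [ev]
@[simp] theorem ev_sub (Y Z : MP n) (x : E n) : ev (Y - Z) x = ev Y x - ev Z x := by simp [ev]
@[simp] theorem ev_neg (Y : MP n) (x : E n) : ev (-Y) x = -ev Y x := by simp [ev]
@[simp] theorem ev_mul (Y Z : MP n) (x : E n) : ev (Y * Z) x = ev Y x * ev Z x := by simp [ev]
@[simp] theorem ev_pow (Y : MP n) (k : ℕ) (x : E n) : ev (Y ^ k) x = ev Y x ^ k := by simp [ev]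
@[simp] theorem ev_smul (c : ℝ) (Y : MP n) (x : E n) : ev (c • Y) x = c * ev Y x := by
  simp [ev, smul_eq_C_mul]
theorem ev_sum {ι : Type*} (s : Finset ι) (Y : ι → MP n) (x : E n) :
    ev (∑ i ∈ s, Y i) x = ∑ i ∈ s, ev (Y i) x := by simp [ev]

theorem ev_r2 (x : E n) : ev (r2 n) x = ‖x‖ ^ 2 := by
  simp [r2, ev_sum, EuclideanSpace.real_norm_sq_eq]

theorem contDiff_ev (Y : MP n) {m : WithTop ℕ∞} : ContDiff ℝ m (ev Y) := by
  induction Y using MvPolynomial.induction_on with
  | C c => exact (funext (ev_C c) : ev (C c : MP n) = fun _ => c) ▸ contDiff_const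
  | add p q hp hq => exact (funext (ev_add p q) : ev (p + q) = _) ▸ hp.add hq
  | mul_X p i hp =>
    have e : ev (p * X i) = fun x => ev p x * x i := funext fun x => by simp
    rw [e]
    exact hp.mul (EuclideanSpace.proj (𝕜 := ℝ) i).contDiff

theorem continuous_ev (Y : MP n) : Continuous (ev Y) := (contDiff_ev Y (m := 0)).continuous

theorem differentiableAt_ev (Y : MP n) (x : E n) : DifferentiableAt ℝ (ev Y) x :=
  (contDiff_ev Y (m := 1)).differentiable one_ne_zero x

namespace PolyAux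

theorem fderiv_ev (Y : MP n) (x q : E n) :
    fderiv ℝ (ev Y) x q = ∑ i, q i * ev (pderiv i Y) x := by
  induction Y using MvPolynomial.induction_on with
  | C c =>
    rw [(funext (ev_C c) : ev (C c : MP n) = fun _ => c)]
    simp
  | add p r hp hr =>
    rw [(funext (ev_add p r) : ev (p + r) = _),
      fderiv_fun_add (differentiableAt_ev p x) (differentiableAt_ev r x),
      add_apply, hp, hr, ← Finset.sum_add_distrib]
    simp [mul_add]
  | mul_X p i hp =>
    have e : ev (p * X i) = fun x => ev p x * EuclideanSpace.proj (𝕜 := ℝ) i x :=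
      funext fun x => by simp
    rw [e, fderiv_fun_mul (differentiableAt_ev p x) (EuclideanSpace.proj (𝕜 := ℝ) i).differentiableAt,
      ContinuousLinearMap.fderiv, add_apply, smul_apply,
      smul_apply, hp]
    have e2 : ∀ j, ev (pderiv j (p * X i)) x =
        ev (pderiv j p) x * x i + if i = j then ev p x else 0 := by
      intro j
      rw [pderiv_mul, pderiv_X, Pi.single_apply]
      split_ifs <;> simp
    simp only [e2, mul_add, Finset.sum_add_distrib, mul_ite, mul_zero, Finset.sum_ite_eq,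
      Finset.mem_univ, if_true, smul_eq_mul, Finset.mul_sum, PiLp.proj_apply]
    rw [add_comm, mul_comm]
    congr 1
    exact Finset.sum_congr rfl fun j _ => by ring

theorem inner_grad (Y : MP n) (x q : E n) :
    ⟪gradient (ev Y) x, q⟫ = ∑ i, q i * ev (pderiv i Y) x := by
  rw [gradient, InnerProductSpace.toDual_symm_apply, fderiv_ev]

theorem pderiv_comm (i j : Fin n) (Y : MP n) : pderiv i (pderiv j Y) = pderiv j (pderiv i Y) := by
  induction Y using MvPolynomial.induction_on with
  | C c => simp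
  | add p r hp hr => simp only [map_add, hp, hr]
  | mul_X p k hp =>
    have e : ∀ a b : Fin n, pderiv a (pderiv b (X k : MP n)) = 0 := by
      intro a b
      rw [pderiv_X, Pi.single_apply]
      split_ifs <;> simp
    simp only [pderiv_mul, map_add, hp, e]
    ring

theorem lap_pderiv (i : Fin n) (Y : MP n) : lap (pderiv i Y) = pderiv i (lap Y) := by
  simp only [lap, map_sum, pderiv_comm i]

theorem lap_mul (A B : MP n) :
    lap (A * B) = lap A * B + 2 * ∑ i, pderiv i A * pderiv i B + A * lap B := by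
  simp only [lap, pderiv_mul, map_add, Finset.sum_mul, Finset.mul_sum, ← Finset.sum_add_distrib]
  exact Finset.sum_congr rfl fun i _ => by ring

theorem lap_sub (A B : MP n) : lap (A - B) = lap A - lap B := by
  simp [lap]

theorem lap_C_mul (c : ℝ) (A : MP n) : lap (C c * A) = C c * lap A := by
  simp only [lap, pderiv_C_mul, Finset.mul_sum]

theorem lap_X (i : Fin n) : lap (X i : MP n) = 0 :=
  Finset.sum_eq_zero fun j _ => by
    rw [pderiv_X, Pi.single_apply]
    split_ifs <;> simp

theorem lap_X_mul (i : Fin n) (Y : MP n) : lap (X i * Y) = 2 * pderiv i Y + X i * lap Y := by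
  rw [lap_mul, lap_X, zero_mul, zero_add]
  simp [pderiv_X, Pi.single_apply]

theorem pderiv_r2 (i : Fin n) : pderiv i (r2 n) = 2 * X i := by
  simp [r2, pderiv_X, Pi.single_apply]

theorem lap_r2 : lap (r2 n) = 2 * n := by
  have e : ∀ i, pderiv i (2 * X i : MP n) = 2 := fun i => by
    rw [two_mul, map_add, pderiv_X_self, one_add_one_eq_two]
  simp only [lap, pderiv_r2, e]
  simp [mul_comm]

theorem lap_r2_mul {k : ℕ} {Z : MP n} (hZ : Z ∈ Harm n k) :
    lap (r2 n * Z) = 2 * (n + 2 * k) * Z := by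
  have h := hZ.1.sum_X_mul_pderiv
  rw [nsmul_eq_mul] at h
  simp only [lap_mul, lap_r2, hZ.2, pderiv_r2, mul_assoc, ← Finset.mul_sum, h]
  ring

theorem hom_r2 : (r2 n).IsHomogeneous 2 :=
  IsHomogeneous.sum _ _ _ fun i _ => isHomogeneous_X_pow i 2

end PolyAux

theorem gradient_ev_apply (Y : MP n) (x : E n) (i : Fin n) :
    gradient (ev Y) x i = ev (pderiv i Y) x := by
  have h := PolyAux.inner_grad Y x (EuclideanSpace.single i 1)
  rw [EuclideanSpace.inner_single_right] at h
  simpa [Pi.single_apply] using h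

theorem continuous_gradient_ev (Y : MP n) : Continuous (gradient (ev Y)) := by
  have e : gradient (ev Y) = fun x => WithLp.toLp 2 fun i => ev (pderiv i Y) x := by
    funext x
    ext i
    exact gradient_ev_apply Y x i
  rw [e]
  exact (PiLp.continuous_toLp 2 _).comp (continuous_pi fun i => continuous_ev _)

theorem continuous_tg_ev (Y : MP n) : Continuous (tg (ev Y)) := by
  have h := continuous_gradient_ev Y
  exact h.sub ((h.inner (𝕜 := ℝ) continuous_id).smul continuous_id)

theorem inner_gradient_ev (Y : MP n) (x q : E n) : ⟪gradient (ev Y) x, q⟫ = ev (dd q Y) x := by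
  simp [PolyAux.fderiv_ev, dd, ev_sum]

/-- Euler's identity -/
theorem inner_gradient_ev_self {Y : MP n} {k : ℕ} (hY : Y.IsHomogeneous k) (x : E n) :
    ⟪gradient (ev Y) x, x⟫ = k * ev Y x := by
  have h := congrArg (fun Z => ev Z x) hY.sum_X_mul_pderiv
  rw [← Nat.cast_smul_eq_nsmul ℝ] at h
  simpa [PolyAux.fderiv_ev, ev_sum] using h

theorem ev_dd_self {Y : MP n} {k : ℕ} (hY : Y.IsHomogeneous k) (q : E n) :
    ev (dd q Y) q = k * ev Y q := by
  rw [← inner_gradient_ev, inner_gradient_ev_self hY]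

theorem ev_neg_arg {Y : MP n} {k : ℕ} (hY : Y.IsHomogeneous k) (x : E n) :
    ev Y (-x) = (-1) ^ k * ev Y x := by
  simp only [ev, eval_eq', Finset.mul_sum]
  refine Finset.sum_congr rfl fun d hd => ?_
  have h : ∑ i, d i = k := by
    rw [← Finsupp.degree_eq_sum]
    by_contra hne
    exact mem_support_iff.1 hd (hY.coeff_eq_zero hne)
  have e : ∀ i, (-x).ofLp i ^ d i = (-1) ^ d i * x.ofLp i ^ d i := fun i => by
    rw [PiLp.neg_apply, neg_pow]
  simp only [e, Finset.prod_mul_distrib, Finset.prod_pow_eq_pow_sum, h]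
  ring

theorem pderiv_mem_Harm {k : ℕ} {Y : MP n} (hY : Y ∈ Harm n k) (i : Fin n) :
    pderiv i Y ∈ Harm n (k - 1) := by
  exact ⟨hY.1.pderiv, by rw [PolyAux.lap_pderiv, hY.2, map_zero]⟩

theorem dd_mem_Harm {k : ℕ} {Y : MP n} (hY : Y ∈ Harm n k) (q : E n) :
    dd q Y ∈ Harm n (k - 1) := by
  refine Submodule.sum_mem _ fun i _ => ?_
  rw [← smul_eq_C_mul]
  exact Submodule.smul_mem _ _ (pderiv_mem_Harm hY i)

theorem C_mem_Harm (c : ℝ) : (C c : MP n) ∈ Harm n 0 := by
  exact ⟨isHomogeneous_C _ c, by simp [lap]⟩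

theorem eq_C_of_mem_Harm {Y : MP n} (hY : Y ∈ Harm n 0) : ∃ c : ℝ, Y = C c := by
  exact ⟨_, totalDegree_eq_zero_iff_eq_C.1 ((totalDegree_zero_iff_isHomogeneous _).2 hY.1)⟩

/-- harmonic quadratic forms are the traceless ones -/
theorem exists_of_mem_Harm_two {Y : MP n} (hY : Y ∈ Harm n 2) :
    ∃ a : Fin n → Fin n → ℝ, ∑ i, a i i = 0 ∧ ∀ x : E n, ev Y x = ∑ i, ∑ j, a i j * (x i * x j) := by
  choose c hc using fun i j => eq_C_of_mem_Harm (pderiv_mem_Harm (pderiv_mem_Harm hY i) j)
  refine ⟨fun i j => c i j / 2, ?_, fun x => ?_⟩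
  · have h := congrArg (fun Z => ev Z 0) hY.2
    simp only [lap, hc, ev_sum, ev_C, ev_zero] at h
    rw [← Finset.sum_div, h, zero_div]
  · have h1 := inner_gradient_ev_self hY.1 x
    have h2 : ∀ i, ev (pderiv i Y) x = ∑ j, x j * c i j := fun i => by
      have := inner_gradient_ev_self (pderiv_mem_Harm hY i).1 x
      simpa [PolyAux.fderiv_ev, hc] using this.symm
    simp only [PolyAux.inner_grad, h2, Finset.mul_sum] at h1
    have h3 : ∑ i, ∑ j, c i j / 2 * (x i * x j) = (∑ i, ∑ j, x i * (x j * c i j)) / 2 := by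
      simp only [Finset.sum_div]
      exact Finset.sum_congr rfl fun i _ => Finset.sum_congr rfl fun j _ => by ring
    rw [h3, h1]
    push_cast
    ring

/-- harmonic part of `xᵢ Y` -/
theorem raise_mem_Harm (hn : 1 ≤ n) {k : ℕ} {Y : MP n} (hY : Y ∈ Harm n (k + 1)) (i : Fin n) :
    X i * Y - C ((n : ℝ) + 2 * k)⁻¹ * (r2 n * pderiv i Y) ∈ Harm n (k + 2) := by
  have hZ : pderiv i Y ∈ Harm n k := pderiv_mem_Harm hY i
  refine ⟨IsHomogeneous.sub ?_ (IsHomogeneous.C_mul ?_ _), ?_⟩
  · have := (isHomogeneous_X ℝ i).mul hY.1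
    rwa [show 1 + (k + 1) = k + 2 by ring] at this
  · have := PolyAux.hom_r2.mul hZ.1
    rwa [add_comm] at this
  · have h0 : (n : ℝ) + 2 * k ≠ 0 := by
      have : (1 : ℝ) ≤ n := by exact_mod_cast hn
      positivity
    have e : (C ((n : ℝ) + 2 * k)⁻¹ : MP n) * (n + 2 * k) = 1 := by
      have : ((n : MP n) + 2 * (k : MP n)) = C ((n : ℝ) + 2 * k) := by simp [map_ofNat]
      rw [this, ← C_mul, inv_mul_cancel₀ h0, C_1]
    rw [PolyAux.lap_sub, PolyAux.lap_C_mul, PolyAux.lap_X_mul, PolyAux.lap_r2_mul hZ, hY.2]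
    linear_combination (-2 * pderiv i Y) * e

/-- every polynomial is a sum of spherical harmonics on the sphere -/
theorem exists_harm_decomp (hn : 1 ≤ n) (W : MP n) :
    ∃ (J : ℕ) (Y : ℕ → MP n), (∀ k, Y k ∈ Harm n k) ∧
      ∀ p : E n, ‖p‖ = 1 → ev W p = ∑ k ∈ Finset.range J, ev (Y k) p := by
  let P : (E n → ℝ) → Prop := fun f => ∃ (J : ℕ) (Y : ℕ → MP n), (∀ k, Y k ∈ Harm n k) ∧
    ∀ p : E n, ‖p‖ = 1 → f p = ∑ k ∈ Finset.range J, ev (Y k) p
  have hcongr : ∀ f g, P g → (∀ p : E n, ‖p‖ = 1 → f p = g p) → P f := by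
    rintro f g ⟨J, Y, h1, h2⟩ h
    exact ⟨J, Y, h1, fun p hp => (h p hp).trans (h2 p hp)⟩
  have hharm : ∀ k, ∀ Y ∈ Harm n k, P (ev Y) := by
    intro k Y hY
    refine ⟨k + 1, fun j => if j = k then Y else 0, fun j => ?_, fun p _ => ?_⟩
    · dsimp only
      split_ifs with h
      · exact h ▸ hY
      · exact zero_mem _
    · simp [apply_ite (fun Z => ev Z p)]
  have hadd : ∀ f g, P f → P g → P fun p => f p + g p := by
    rintro f g ⟨J, Y, h1, h2⟩ ⟨J', Y', h1', h2'⟩
    have pad : ∀ (a b : ℕ) (Y : ℕ → MP n) (p : E n), a ≤ b → ∑ k ∈ Finset.range a, ev (Y k) p =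
        ∑ k ∈ Finset.range b, ev (if k < a then Y k else 0) p := by
      intro a b Y p hab
      refine Finset.sum_subset_zero_on_sdiff (Finset.range_subset_range.2 hab) (fun k hk => ?_)
        fun k hk => ?_
      · rw [if_neg (by simpa using (Finset.mem_sdiff.1 hk).2), ev_zero]
      · rw [if_pos (Finset.mem_range.1 hk)]
    refine ⟨J + J', fun k => (if k < J then Y k else 0) + if k < J' then Y' k else 0,
      fun k => add_mem ?_ ?_, fun p hp => ?_⟩
    · split_ifs
      exacts [h1 k, zero_mem _]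
    · split_ifs
      exacts [h1' k, zero_mem _]
    · simp only [ev_add, Finset.sum_add_distrib]
      rw [h2 p hp, h2' p hp, pad J (J + J') Y p (by omega), pad J' (J + J') Y' p (by omega)]
  have hsum : ∀ (J : ℕ) (f : ℕ → E n → ℝ), (∀ k, P (f k)) →
      P fun p => ∑ k ∈ Finset.range J, f k p := by
    intro J f hf
    induction J with
    | zero => exact ⟨0, fun _ => 0, fun _ => zero_mem _, fun _ _ => by simp⟩
    | succ J ih => simpa only [Finset.sum_range_succ] using hadd _ _ ih (hf J)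
  have hX : ∀ (i : Fin n) k, ∀ Y ∈ Harm n k, P fun p => ev Y p * p i := by
    intro i k Y hY
    cases k with
    | zero =>
      obtain ⟨c, rfl⟩ := eq_C_of_mem_Harm hY
      exact hcongr _ _ (hharm 1 (C c * X i) ⟨(isHomogeneous_X ℝ i).C_mul c, by
        rw [PolyAux.lap_C_mul, PolyAux.lap_X, mul_zero]⟩) fun p _ => by simp
    | succ k =>
      refine hcongr _ _ (hadd _ _ (hharm _ _ (raise_mem_Harm hn hY i)) (hharm _ _
        (Submodule.smul_mem _ ((n : ℝ) + 2 * k)⁻¹ (pderiv_mem_Harm hY i)))) fun p hp => ?_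
      simp only [ev_sub, ev_mul, ev_X, ev_C, ev_r2, ev_smul, hp]
      ring
  show P (ev W)
  induction W using MvPolynomial.induction_on with
  | C c => exact hharm 0 _ (C_mem_Harm c)
  | add p q hp hq => exact hcongr _ _ (hadd _ _ hp hq) fun x _ => ev_add p q x
  | mul_X q i hq =>
    obtain ⟨J, Y, h1, h2⟩ := hq
    refine hcongr _ _ (hsum J _ fun k => hX i k _ (h1 k)) fun p hp => ?_
    rw [ev_mul, ev_X, h2 p hp, Finset.sum_mul]

instance finite_Harm (n k : ℕ) : Module.Finite ℝ (Harm n k) := by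
  have : Module.Finite ℝ (homogeneousSubmodule (Fin n) ℝ k) :=
    Module.Finite.iff_fg.2 (homogeneousSubmodule_fg _ _ k)
  exact Submodule.finiteDimensional_of_le (S₂ := homogeneousSubmodule (Fin n) ℝ k) fun Y hY => hY.1

end Crest.Agent.R230
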