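import Crest.Agent.R230.Stein
import Crest.Agent.R230.Poly

set_option autoImplicit false
open MeasureTheory Filter Topology
open scoped ENNReal RealInnerProductSpace Pointwise

namespace Crest.Agent.R230

variable {n : ℕ}

/-! Green's formula and orthogonality of spherical harmonics. -/

theorem good_ev (Y : MP n) : Good (ev Y) := good_of_contDiff (contDiff_ev Y)

namespace GreenAux

open MvPolynomial

lemma inner_sum (x y : E n) : ⟪x, y⟫ = ∑ i, x i * y i := by
  rw [PiLp.inner_apply]
  refine Finset.sum_congr rfl fun i _ => ?_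
  simp [mul_comm]

lemma inner_single (x : E n) (i : Fin n) : ⟪x, EuclideanSpace.single i (1 : ℝ)⟫ = x i := by
  simp [EuclideanSpace.inner_single_right]

lemma tg_apply (f : E n → ℝ) (p : E n) (i : Fin n) :
    tg f p i = gradient f p i - ⟪gradient f p, p⟫ * p i := by
  simp [tg]

lemma continuous_coord (i : Fin n) : Continuous fun p : E n => p i := by fun_prop

lemma memLp_tg_apply {f : E n → ℝ} (hf : Good f) (i : Fin n) (r : ℝ≥0∞) :
    MemLp (fun p => tg f p i) r (sph n) :=
  (EuclideanSpace.proj (𝕜 := ℝ) i).comp_memLp' (hf.memLp_tg r)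

lemma integrable_mul_tg {f g : E n → ℝ} (hf : Good f) (hg : Continuous g) (i : Fin n) :
    Integrable (fun p => g p * tg f p i) (sph n) :=
  MemLp.integrable_mul (p := 2) (q := 2) (memLp_of_continuous hg 2) (memLp_tg_apply hf i 2)

lemma continuous_tg_apply (W : MP n) (i : Fin n) : Continuous fun p => tg (ev W) p i :=
  (continuous_coord i).comp (continuous_tg_ev W)

/-- integration by parts for one tangential derivative -/
lemma adj {f : E n → ℝ} (hf : Good f) (W : MP n) (i : Fin n) :
    ∫ p, ev W p * tg f p i ∂sph n =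
      ∫ p, f p * (((n : ℝ) - 1) * (p i * ev W p) - tg (ev W) p i) ∂sph n := by
  have h := stein (hf.mul (good_ev W)) (EuclideanSpace.single i (1 : ℝ))
  have h1 : ∫ p, ⟪tg (fun x => f x * ev W x) p, EuclideanSpace.single i (1 : ℝ)⟫ ∂sph n =
      ∫ p, (f p * tg (ev W) p i + ev W p * tg f p i) ∂sph n := by
    refine integral_congr_ae ?_
    filter_upwards [hf.diff] with p hp
    rw [inner_single, tg_mul hp (differentiableAt_ev W p)]
    simp
  have i1 : Integrable (fun p => f p * tg (ev W) p i) (sph n) :=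
    integrable_of_continuous (hf.continuous.mul (continuous_tg_apply W i))
  have i2 : Integrable (fun p => ev W p * tg f p i) (sph n) :=
    integrable_mul_tg hf (continuous_ev W) i
  have i3 : Integrable (fun p : E n => ((n : ℝ) - 1) * (p i * (f p * ev W p))) (sph n) :=
    integrable_of_continuous (continuous_const.mul ((continuous_coord i).mul
      (hf.continuous.mul (continuous_ev W))))
  rw [h1, integral_add i1 i2, ← integral_const_mul] at h
  simp only [inner_single] at h
  have h2 : ∫ p, f p * (((n : ℝ) - 1) * (p i * ev W p) - tg (ev W) p i) ∂sph n =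
      ∫ p, (((n : ℝ) - 1) * (p i * (f p * ev W p)) - f p * tg (ev W) p i) ∂sph n := by
    refine integral_congr_ae (Eventually.of_forall fun p => ?_)
    ring
  rw [h2, integral_sub i3 i1]
  linarith

lemma euler {Y : MP n} {k : ℕ} (hY : Y.IsHomogeneous k) (p : E n) :
    ∑ i, p i * ev (pderiv i Y) p = k * ev Y p := by
  rw [← inner_gradient_ev_self hY, inner_sum]
  refine Finset.sum_congr rfl fun i _ => ?_
  rw [gradient_ev_apply, mul_comm]

lemma sum_tg {Y : MP n} {k : ℕ} (hY : Y ∈ Harm n k) (p : E n) :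
    ∑ i, (((n : ℝ) - 1) * (p i * ev (pderiv i Y) p) - tg (ev (pderiv i Y)) p i) =
      lam n k * ev Y p := by
  have hh := (mem_Harm.1 hY).1
  have hl : ∑ i, ev (pderiv i (pderiv i Y)) p = 0 := by
    rw [← ev_sum]
    have := (mem_Harm.1 hY).2
    unfold lap at this
    rw [this, ev_zero]
  have h1 : ∀ i, tg (ev (pderiv i Y)) p i =
      ev (pderiv i (pderiv i Y)) p - ((k - 1 : ℕ) : ℝ) * (p i * ev (pderiv i Y) p) := by
    intro i
    rw [tg_apply, gradient_ev_apply,
      inner_gradient_ev_self (mem_Harm.1 (pderiv_mem_Harm hY i)).1]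
    ring
  simp only [h1]
  rw [Finset.sum_sub_distrib, Finset.sum_sub_distrib, ← Finset.mul_sum, ← Finset.mul_sum,
    euler hh, hl]
  unfold lam
  cases k with
  | zero => simp
  | succ k => simp only [Nat.add_sub_cancel]; push_cast; ring

lemma lam_lt (hn : 2 ≤ n) {k l : ℕ} (h : k < l) : lam n k < lam n l := by
  unfold lam
  have h1 : (2 : ℝ) ≤ n := by exact_mod_cast hn
  have h2 : (k : ℝ) < l := by exact_mod_cast h
  have h3 : (0 : ℝ) ≤ k := Nat.cast_nonneg k
  nlinarith

end GreenAux

open GreenAux MvPolynomial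

theorem green {f : E n → ℝ} (hf : Good f) {k : ℕ} {Y : MP n} (hY : Y ∈ Harm n k) :
    ∫ p, ⟪tg f p, tg (ev Y) p⟫ ∂sph n = lam n k * ∫ p, f p * ev Y p ∂sph n := by
  have h1 : ∫ p, ⟪tg f p, tg (ev Y) p⟫ ∂sph n =
      ∫ p, ∑ i, ev (pderiv i Y) p * tg f p i ∂sph n := by
    refine integral_congr_ae ?_
    filter_upwards [ae_norm (n := n)] with p hp
    have : ⟪tg f p, tg (ev Y) p⟫ = ⟪tg f p, gradient (ev Y) p⟫ := by
      conv_lhs => rw [show tg (ev Y) p = gradient (ev Y) p - ⟪gradient (ev Y) p, p⟫ • p from rfl]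
      rw [inner_sub_right, real_inner_smul_right, inner_tg_self f hp, mul_zero, sub_zero]
    rw [this, GreenAux.inner_sum]
    refine Finset.sum_congr rfl fun i _ => ?_
    rw [gradient_ev_apply, mul_comm]
  rw [h1, integral_finsetSum _ fun i _ => integrable_mul_tg hf (continuous_ev _) i]
  simp only [adj hf]
  have hi : ∀ i ∈ (Finset.univ : Finset (Fin n)), Integrable (fun p : E n =>
      f p * (((n : ℝ) - 1) * (p i * ev (pderiv i Y) p) - tg (ev (pderiv i Y)) p i)) (sph n) :=
    fun i _ => integrable_of_continuous (hf.continuous.mul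
      ((continuous_const.mul ((continuous_coord i).mul (continuous_ev _))).sub
        (continuous_tg_apply _ i)))
  rw [← integral_finsetSum _ hi, ← integral_const_mul]
  refine integral_congr_ae (Eventually.of_forall fun p => ?_)
  show ∑ i, f p * (((n : ℝ) - 1) * (p i * ev (pderiv i Y) p) - tg (ev (pderiv i Y)) p i) = _
  rw [← Finset.mul_sum, sum_tg hY]
  ring

theorem harm_orth (hn : 2 ≤ n) {k l : ℕ} (hkl : k ≠ l) {Y Z : MP n} (hY : Y ∈ Harm n k)
    (hZ : Z ∈ Harm n l) : ∫ p, ev Y p * ev Z p ∂sph n = 0 := by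
  have h1 := green (good_ev Y) hZ
  have h2 := green (good_ev Z) hY
  have h3 : ∫ p, ⟪tg (ev Z) p, tg (ev Y) p⟫ ∂sph n = ∫ p, ⟪tg (ev Y) p, tg (ev Z) p⟫ ∂sph n := by
    simp only [real_inner_comm]
  have h4 : ∫ p, ev Z p * ev Y p ∂sph n = ∫ p, ev Y p * ev Z p ∂sph n := by
    simp only [mul_comm]
  rw [h3, h1, h4] at h2
  have h5 : lam n l - lam n k ≠ 0 := by
    rcases lt_or_gt_of_ne hkl with h | h
    · exact (sub_pos.2 (lam_lt hn h)).ne'
    · exact (sub_neg.2 (lam_lt hn h)).ne
  have h6 : (lam n l - lam n k) * ∫ p, ev Y p * ev Z p ∂sph n = 0 := by linarith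
  exact (mul_eq_zero.1 h6).resolve_left h5

/-- the adjoint of a tangential derivative maps polynomials to polynomials -/
theorem exists_adjoint (W : MP n) (i : Fin n) : ∃ W' : MP n, ∀ f : E n → ℝ, Good f →
    ∫ p, ev W p * tg f p i ∂sph n = ∫ p, f p * ev W' p ∂sph n := by
  refine ⟨C ((n : ℝ) - 1) * (X i * W) - (pderiv i W - (∑ j, pderiv j W * X j) * X i),
    fun f hf => ?_⟩
  rw [adj hf]
  refine integral_congr_ae (Eventually.of_forall fun p => ?_)
  simp only [ev_sub, ev_mul, ev_C, ev_X, ev_sum, tg_apply, GreenAux.inner_sum, gradient_ev_apply]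

theorem lam_nonneg (hn : 2 ≤ n) (k : ℕ) : 0 ≤ lam n k := by
  unfold lam
  have h1 : (2 : ℝ) ≤ n := by exact_mod_cast hn
  have h3 : (0 : ℝ) ≤ k := Nat.cast_nonneg k
  exact mul_nonneg h3 (by linarith)

theorem lam_mono (hn : 2 ≤ n) {k l : ℕ} (h : k ≤ l) : lam n k ≤ lam n l := by
  rcases h.eq_or_lt with h | h
  · rw [h]
  · exact (lam_lt hn h).le

end Crest.Agent.R230
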