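import Crest.Agent.R230.Green

set_option autoImplicit false
open MeasureTheory Filter Topology
open scoped ENNReal RealInnerProductSpace Pointwise

namespace Crest.Agent.R230

variable {n : ℕ}

namespace ProjAux

/-- polynomials as elements of `L²` -/
noncomputable def toL (n k : ℕ) : Harm n k →ₗ[ℝ] Lp ℝ 2 (sph n) where
  toFun Z := (memLp_of_continuous (continuous_ev Z.1) 2).toLp _
  map_add' Y Z := by
    rw [← MemLp.toLp_add]
    congr 1
    funext p
    exact ev_add _ _ _
  map_smul' c Y := by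
    rw [RingHom.id_apply, ← MemLp.toLp_const_smul]
    congr 1
    funext p
    exact ev_smul _ _ _

theorem inner_toLp {f g : E n → ℝ} (hf : MemLp f 2 (sph n)) (hg : MemLp g 2 (sph n)) :
    ⟪hf.toLp f, hg.toLp g⟫ = ∫ p, f p * g p ∂sph n := by
  rw [L2.inner_def]
  refine integral_congr_ae ?_
  filter_upwards [hf.coeFn_toLp, hg.coeFn_toLp] with p h1 h2
  rw [h1, h2, RCLike.inner_apply, conj_trivial, mul_comm]

theorem exists_proj (k : ℕ) {f : E n → ℝ} (hf : Continuous f) :
    ∃ Y ∈ Harm n k, ∀ Z ∈ Harm n k,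
      ∫ p, f p * ev Z p ∂sph n = ∫ p, ev Y p * ev Z p ∂sph n := by
  let K : Submodule ℝ (Lp ℝ 2 (sph n)) := LinearMap.range (toL n k)
  have : FiniteDimensional ℝ K := LinearMap.finiteDimensional_range _
  have : CompleteSpace K := FiniteDimensional.complete ℝ K
  let u := (memLp_of_continuous hf 2).toLp f
  obtain ⟨Y, hY⟩ : K.starProjection u ∈ LinearMap.range (toL n k) := K.starProjection_apply_mem u
  refine ⟨Y.1, Y.2, fun Z hZ => ?_⟩
  have h1 := (K.mem_orthogonal' _).1 (K.sub_starProjection_mem_orthogonal u) (toL n k ⟨Z, hZ⟩)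
    (LinearMap.mem_range_self _ _)
  rw [inner_sub_left, sub_eq_zero, ← hY] at h1
  rw [← inner_toLp (memLp_of_continuous hf 2) (memLp_of_continuous (continuous_ev Z) 2),
    ← inner_toLp (memLp_of_continuous (continuous_ev Y.1) 2)
      (memLp_of_continuous (continuous_ev Z) 2)]
  exact h1

theorem int_mul {f g : E n → ℝ} (hf : Continuous f) (hg : Continuous g) :
    Integrable (fun p => f p * g p) (sph n) := integrable_of_continuous (hf.mul hg)

end ProjAux

open ProjAux

/-! The projections `proj k` and the bilinear forms `ip k`. -/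

theorem proj_mem (k : ℕ) (f : E n → ℝ) : proj k f ∈ Harm n k := by
  unfold proj
  split_ifs with h
  · exact h.choose_spec.1
  · exact Submodule.zero_mem _

theorem proj_spec {k : ℕ} {f : E n → ℝ} (hf : Continuous f) {Z : MP n} (hZ : Z ∈ Harm n k) :
    ∫ p, f p * ev Z p ∂sph n = ∫ p, ev (proj k f) p * ev Z p ∂sph n := by
  have h := exists_proj k hf
  unfold proj
  rw [dif_pos h]
  exact h.choose_spec.2 Z hZ

theorem ip_eq {k : ℕ} {f : E n → ℝ} (hf : Continuous f) (g : E n → ℝ) :
    ip k f g = ∫ p, f p * ev (proj k g) p ∂sph n :=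
  (proj_spec hf (proj_mem k g)).symm

theorem ip_comm (k : ℕ) (f g : E n → ℝ) : ip k f g = ip k g f := by
  unfold ip
  simp only [mul_comm]

theorem ip_self_nonneg (k : ℕ) (f : E n → ℝ) : 0 ≤ ip k f f :=
  integral_nonneg fun _ => mul_self_nonneg _

theorem ip_sq_le (k : ℕ) (f g : E n → ℝ) : ip k f g ^ 2 ≤ ip k f f * ip k g g := by
  have hf := memLp_of_continuous (continuous_ev (proj k f)) 2
  have hg := memLp_of_continuous (continuous_ev (proj k g)) 2
  unfold ip
  rw [← inner_toLp hf hg, ← inner_toLp hf hf, ← inner_toLp hg hg, sq]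
  exact real_inner_mul_inner_self_le _ _

theorem ip_add_left {k : ℕ} {f g : E n → ℝ} (hf : Continuous f) (hg : Continuous g)
    (h : E n → ℝ) : ip k (fun p => f p + g p) h = ip k f h + ip k g h := by
  rw [ip_eq (f := fun p => f p + g p) (hf.add hg), ip_eq hf, ip_eq hg,
    ← integral_add (int_mul hf (continuous_ev _)) (int_mul hg (continuous_ev _))]
  simp only [add_mul]

theorem ip_smul_left {k : ℕ} {f : E n → ℝ} (hf : Continuous f) (c : ℝ) (h : E n → ℝ) :
    ip k (fun p => c * f p) h = c * ip k f h := by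
  rw [ip_eq (f := fun p => c * f p) (continuous_const.mul hf), ip_eq hf, ← integral_const_mul]
  simp only [mul_assoc]

theorem ip_zero (hn : 2 ≤ n) {f g : E n → ℝ} (hf : Continuous f) (hg : Continuous g) :
    ip 0 f g = (∫ p, f p ∂sph n) * ∫ p, g p ∂sph n := by
  have := sph_prob (n := n) (by omega)
  obtain ⟨c, hc⟩ := eq_C_of_mem_Harm (proj_mem 0 g)
  have h1 := proj_spec hg (C_mem_Harm (n := n) 1)
  rw [hc] at h1
  simp only [ev_C, mul_one, integral_const, probReal_univ, smul_eq_mul, one_mul] at h1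
  rw [ip_eq hf, hc, h1]
  simp only [ev_C]
  exact integral_mul_const c f

theorem ip_const_left (hn : 2 ≤ n) {k : ℕ} (hk : k ≠ 0) (c : ℝ) (g : E n → ℝ) :
    ip k (fun _ => c) g = 0 := by
  rw [ip_eq continuous_const]
  have := harm_orth hn hk.symm (C_mem_Harm (n := n) c) (proj_mem k g)
  simpa only [ev_C] using this

theorem ip_odd {k : ℕ} (hk : Odd k) {f : E n → ℝ} (hf : Continuous f) (he : ∀ p, f (-p) = f p)
    (g : E n → ℝ) : ip k f g = 0 := by
  rw [ip_eq hf]
  have h1 := integral_comp_neg (fun p => f p * ev (proj k g) p)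
  simp only [he, ev_neg_arg (proj_mem k g).1, hk.neg_one_pow, neg_mul, one_mul, mul_neg,
    integral_neg] at h1
  linarith

/-- the residual of the harmonic expansion is orthogonal to a given polynomial, eventually -/
theorem residual_orth (hn : 2 ≤ n) (W : MP n) : ∃ J₀ : ℕ, ∀ J, J₀ ≤ J → ∀ f : E n → ℝ,
    Continuous f →
    ∫ p, f p * ev W p ∂sph n = ∑ k ∈ Finset.range J, ∫ p, ev (proj k f) p * ev W p ∂sph n := by
  obtain ⟨J₀, Y, hY, hW⟩ := exists_harm_decomp (n := n) (by omega) W
  have key : ∀ g : E n → ℝ, Continuous g →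
      ∫ p, g p * ev W p ∂sph n = ∑ l ∈ Finset.range J₀, ∫ p, g p * ev (Y l) p ∂sph n := by
    intro g hg
    rw [← integral_finsetSum _ fun l _ => int_mul hg (continuous_ev (Y l))]
    refine integral_congr_ae ?_
    filter_upwards [ae_norm (n := n)] with p hp
    rw [hW p hp, Finset.mul_sum]
  refine ⟨J₀, fun J hJ f hf => ?_⟩
  rw [key f hf, Finset.sum_congr rfl fun k _ => key _ (continuous_ev (proj k f)), Finset.sum_comm]
  refine Finset.sum_congr rfl fun l hl => ?_
  rw [Finset.sum_eq_single l, proj_spec hf (hY l)]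
  · intro k _ hk
    exact harm_orth hn hk (proj_mem k f) (hY l)
  · intro h
    exact absurd (Finset.mem_range.2 (lt_of_lt_of_le (Finset.mem_range.1 hl) hJ)) h

end Crest.Agent.R230
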