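import Crest.Agent.R230.Proj

set_option autoImplicit false
open MeasureTheory Filter Topology
open scoped ENNReal RealInnerProductSpace Pointwise

namespace Crest.Agent.R230

variable {n : ℕ}

/-! Density of polynomials in `L²(sph n)` and Parseval's identity. -/

namespace DenseAux

theorem exists_unif {g : E n → ℝ} (hg : Continuous g) {ε : ℝ} (hε : 0 < ε) :
    ∃ W : MP n, ∀ p : E n, ‖p‖ = 1 → |ev W p - g p| < ε := by
  let c : Fin n → C(E n, ℝ) := fun i => ⟨fun x => x i, by fun_prop⟩
  let φ : MP n →ₐ[ℝ] C(E n, ℝ) := MvPolynomial.aeval c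
  have hφ : ∀ (W : MP n) (x : E n), φ W x = ev W x := by
    intro W x
    induction W using MvPolynomial.induction_on with
    | C a => simp [φ]
    | add Y Z hY hZ => simp [hY, hZ]
    | mul_X Y i hY =>
      rw [map_mul, ContinuousMap.mul_apply, hY, ev_mul, ev_X]
      simp [φ, c]
  have hsep : φ.range.SeparatesPoints := by
    intro x y hxy
    obtain ⟨i, hi⟩ : ∃ i, x i ≠ y i := by
      by_contra h
      push Not at h
      exact hxy (PiLp.ext h)
    refine ⟨_, ⟨φ (MvPolynomial.X i), ⟨_, rfl⟩, rfl⟩, ?_⟩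
    simpa [hφ] using hi
  obtain ⟨_, ⟨W, rfl⟩, hW⟩ :=
    ContinuousMap.exists_mem_subalgebra_near_continuous_of_isCompact_of_separatesPoints hsep
      ⟨g, hg⟩ (isCompact_sphere (0 : E n) 1) hε
  refine ⟨W, fun p hp => ?_⟩
  have := hW p (by simpa using hp)
  rwa [Real.norm_eq_abs, show (φ.toRingHom W : E n → ℝ) p = ev W p from hφ W p] at this

theorem real_univ_le : (sph n).real Set.univ ≤ 1 := by
  have : sph n Set.univ ≤ 1 := by
    unfold sph
    rw [Measure.smul_apply, Measure.map_apply measurable_subtype_coe MeasurableSet.univ,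
      Set.preimage_univ, smul_eq_mul]
    exact ENNReal.inv_mul_le_one _
  exact ENNReal.toReal_le_of_le_ofReal zero_le_one (by simpa using this)

theorem cauchy {a b : E n → ℝ} (ha : Continuous a) (hb : Continuous b) :
    (∫ p, a p * b p ∂sph n) ^ 2 ≤ (∫ p, a p ^ 2 ∂sph n) * ∫ p, b p ^ 2 ∂sph n := by
  have h : ∀ t : ℝ, 0 ≤ (∫ p, a p ^ 2 ∂sph n) * (t * t) + (2 * ∫ p, a p * b p ∂sph n) * t +
      ∫ p, b p ^ 2 ∂sph n := by
    intro t
    have h1 : Integrable (fun p => a p ^ 2 * (t * t)) (sph n) :=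
      integrable_of_continuous (by fun_prop)
    have h2 : Integrable (fun p => 2 * (a p * b p) * t) (sph n) :=
      integrable_of_continuous (by fun_prop)
    have h3 : Integrable (fun p => b p ^ 2) (sph n) := integrable_of_continuous (by fun_prop)
    rw [← integral_mul_const, ← integral_const_mul, ← integral_mul_const, ← integral_add h1 h2,
      ← integral_add (f := fun p => a p ^ 2 * (t * t) + 2 * (a p * b p) * t) (h1.add h2) h3]
    exact integral_nonneg fun p => by
      have := sq_nonneg (a p * t + b p)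
      simp only [Pi.zero_apply]
      nlinarith
  have := discrim_le_zero h
  unfold discrim at this
  nlinarith

/-- the residual -/
noncomputable def res (f : E n → ℝ) (J : ℕ) (p : E n) : ℝ :=
  f p - ∑ k ∈ Finset.range J, ev (proj k f) p

theorem continuous_res {f : E n → ℝ} (hf : Continuous f) (J : ℕ) : Continuous (res f J) :=
  hf.sub (continuous_finsetSum _ fun _ _ => continuous_ev _)

theorem integral_res_mul {f g : E n → ℝ} (hf : Continuous f) (hg : Continuous g) (J : ℕ) :
    ∫ p, res f J p * g p ∂sph n =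
      ∫ p, f p * g p ∂sph n - ∑ k ∈ Finset.range J, ∫ p, ev (proj k f) p * g p ∂sph n := by
  have h1 : ∀ k, Continuous fun p => ev (proj k f) p * g p := fun k => (continuous_ev _).mul hg
  have h2 : Continuous fun p => f p * g p := hf.mul hg
  rw [← integral_finsetSum _ fun k _ => integrable_of_continuous (h1 k),
    ← integral_sub (integrable_of_continuous h2) (integrable_of_continuous
      (continuous_finsetSum _ fun k _ => h1 k))]
  congr 1
  funext p
  rw [res, sub_mul, Finset.sum_mul]

theorem res_orth (hn : 2 ≤ n) {f : E n → ℝ} (hf : Continuous f) {J l : ℕ} (hl : l < J) :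
    ∫ p, res f J p * ev (proj l f) p ∂sph n = 0 := by
  rw [integral_res_mul hf (continuous_ev _), Finset.sum_eq_single l, proj_spec hf (proj_mem l f),
    sub_self]
  · intro k _ hk
    exact harm_orth hn hk (proj_mem k f) (proj_mem l f)
  · intro h
    exact absurd (Finset.mem_range.2 hl) h

theorem res_sq (hn : 2 ≤ n) {f : E n → ℝ} (hf : Continuous f) (J : ℕ) :
    ∫ p, res f J p ^ 2 ∂sph n = ∫ p, f p * res f J p ∂sph n := by
  have h := integral_res_mul hf (continuous_res hf J) J
  rw [Finset.sum_eq_zero, sub_zero] at h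
  · simpa only [sq] using h
  · intro k hk
    rw [← res_orth hn hf (Finset.mem_range.1 hk)]
    simp only [mul_comm]

theorem res_le (hn : 2 ≤ n) {f : E n → ℝ} (hf : Continuous f) (J : ℕ) {W : MP n}
    (hW : ∫ p, res f J p * ev W p ∂sph n = 0) :
    ∫ p, res f J p ^ 2 ∂sph n ≤ ∫ p, (f p - ev W p) ^ 2 ∂sph n := by
  have hr := continuous_res hf J
  have hw := continuous_ev W
  have h1 : Integrable (fun p => (f p - ev W p) ^ 2) (sph n) :=
    integrable_of_continuous (by fun_prop)
  have h2 : Integrable (fun p => res f J p ^ 2) (sph n) := integrable_of_continuous (by fun_prop)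
  have h3 : Integrable (fun p => f p * res f J p) (sph n) :=
    integrable_of_continuous (by fun_prop)
  have h4 : Integrable (fun p => res f J p * ev W p) (sph n) :=
    integrable_of_continuous (by fun_prop)
  have h5 : ∫ p, (2 * (f p * res f J p) - 2 * (res f J p * ev W p) - res f J p ^ 2) ∂sph n ≤
      ∫ p, (f p - ev W p) ^ 2 ∂sph n := by
    refine integral_mono (((h3.const_mul 2).sub (h4.const_mul 2)).sub h2) h1 fun p => ?_
    have := sq_nonneg (f p - ev W p - res f J p)
    simp only
    nlinarith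
  rw [integral_sub (f := fun p => 2 * (f p * res f J p) - 2 * (res f J p * ev W p))
    ((h3.const_mul 2).sub (h4.const_mul 2)) h2, integral_sub (h3.const_mul 2) (h4.const_mul 2),
    integral_const_mul, integral_const_mul, hW, ← res_sq hn hf] at h5
  linarith

end DenseAux

open DenseAux

theorem exists_poly_approx {f : E n → ℝ} (hf : MemLp f 2 (sph n)) {ε : ℝ} (hε : 0 < ε) :
    ∃ W : MP n, ∫ p, (f p - ev W p) ^ 2 ∂sph n ≤ ε := by
  have hf' : MemLp f (ENNReal.ofReal 2) (sph n) := by simpa using hf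
  obtain ⟨g, hg, -⟩ := hf'.exists_boundedContinuous_integral_rpow_sub_le two_pos
    (show 0 < ε / 4 by positivity)
  obtain ⟨W, hW⟩ := exists_unif g.continuous (Real.sqrt_pos.2 (show 0 < ε / 4 by positivity))
  refine ⟨W, ?_⟩
  have hg' : ∫ p, (f p - g p) ^ 2 ∂sph n ≤ ε / 4 := by
    simpa only [Real.rpow_two, Real.norm_eq_abs, sq_abs] using hg
  have h1 : Integrable (fun p => (f p - g p) ^ 2) (sph n) :=
    (hf.sub (memLp_of_continuous g.continuous 2)).integrable_sq
  have h2 : Integrable (fun p => (f p - ev W p) ^ 2) (sph n) :=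
    (hf.sub (memLp_of_continuous (continuous_ev W) 2)).integrable_sq
  have h3 : ∫ p, (f p - ev W p) ^ 2 ∂sph n ≤ ∫ p, (2 * (f p - g p) ^ 2 + ε / 2) ∂sph n := by
    refine integral_mono_ae h2 ((h1.const_mul 2).add (integrable_const _)) ?_
    filter_upwards [ae_norm] with p hp
    have h4 : (ev W p - g p) ^ 2 ≤ ε / 4 := by
      rw [← sq_abs, ← Real.sq_sqrt (show 0 ≤ ε / 4 by positivity)]
      exact pow_le_pow_left₀ (abs_nonneg _) (hW p hp).le 2
    nlinarith [sq_nonneg (f p - g p + (ev W p - g p))]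
  rw [integral_add (h1.const_mul 2) (integrable_const _), integral_const_mul, integral_const,
    smul_eq_mul] at h3
  have h5 := mul_le_mul_of_nonneg_right (real_univ_le (n := n)) (show 0 ≤ ε / 2 by positivity)
  linarith

theorem tendsto_residual (hn : 2 ≤ n) {f : E n → ℝ} (hf : Continuous f) :
    Tendsto (fun J => ∫ p, (f p - ∑ k ∈ Finset.range J, ev (proj k f) p) ^ 2 ∂sph n) atTop
      (𝓝 0) := by
  change Tendsto (fun J => ∫ p, res f J p ^ 2 ∂sph n) atTop (𝓝 0)
  refine tendsto_order.2 ⟨fun a ha => Eventually.of_forall fun J =>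
    ha.trans_le (integral_nonneg fun p => sq_nonneg _), fun ε hε => ?_⟩
  obtain ⟨W, hW⟩ := exists_poly_approx (memLp_of_continuous hf 2) (half_pos hε)
  obtain ⟨J₀, hJ₀⟩ := residual_orth hn W
  filter_upwards [eventually_ge_atTop J₀] with J hJ
  refine (res_le hn hf J (W := W) ?_).trans_lt (hW.trans_lt (half_lt_self hε))
  rw [integral_res_mul hf (continuous_ev W), hJ₀ J hJ f hf, sub_self]

theorem parseval (hn : 2 ≤ n) {f g : E n → ℝ} (hf : Continuous f) (hg : Continuous g) :
    Tendsto (fun J => ∑ k ∈ Finset.range J, ip k f g) atTop (𝓝 (∫ p, f p * g p ∂sph n)) := by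
  have h1 : Tendsto (fun J => ∫ p, res f J p * g p ∂sph n) atTop (𝓝 0) := by
    have h2 : Tendsto (fun J => √((∫ p, res f J p ^ 2 ∂sph n) * ∫ p, g p ^ 2 ∂sph n)) atTop
        (𝓝 0) := by
      have := ((tendsto_residual hn hf).mul_const (∫ p, g p ^ 2 ∂sph n)).sqrt
      rwa [zero_mul, Real.sqrt_zero] at this
    exact squeeze_zero_norm (fun J => Real.abs_le_sqrt (cauchy (continuous_res hf J) hg)) h2
  have h3 := h1.const_sub (∫ p, f p * g p ∂sph n)
  rw [sub_zero] at h3
  refine h3.congr fun J => ?_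
  rw [integral_res_mul hf hg, sub_sub_cancel]
  refine Finset.sum_congr rfl fun k _ => ?_
  rw [ip_comm, ip_eq hg]
  simp only [mul_comm]

theorem tendsto_tail (hn : 2 ≤ n) {f : E n → ℝ} (hf : Continuous f) :
    Tendsto (fun J => ∑ k ∈ Finset.Ico 4 J, ip k f f) atTop (𝓝 (tail f)) := by
  have h := (parseval hn hf hf).sub_const (∑ k ∈ Finset.range 4, ip k f f)
  simp only [← sq] at h
  refine h.congr' ?_
  filter_upwards [eventually_ge_atTop 4] with J hJ
  rw [Finset.sum_Ico_eq_sub _ hJ]

theorem sum_le_tail (hn : 2 ≤ n) {f : E n → ℝ} (hf : Continuous f) (J : ℕ) :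
    ∑ k ∈ Finset.Ico 4 J, ip k f f ≤ tail f := by
  refine ge_of_tendsto (tendsto_tail hn hf) ?_
  filter_upwards [eventually_ge_atTop J] with J' hJ
  exact Finset.sum_le_sum_of_subset_of_nonneg (Finset.Ico_subset_Ico_right hJ)
    fun k _ _ => ip_self_nonneg k f

theorem tail_nonneg (hn : 2 ≤ n) {f : E n → ℝ} (hf : Continuous f) : 0 ≤ tail f := by
  simpa using sum_le_tail hn hf 0

end Crest.Agent.R230
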