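import Mathlib

/-!
# Row 230 (Petty projection inequality): definitions

`sph n` is the uniform probability on the unit sphere (as a measure on `E n`), `tg f` the tangential
gradient, `Harm n k` the homogeneous harmonic polynomials of degree `k`, `proj k f` the `L²(sph n)`
projection of `f` on `Harm n k`, `ip k f g` the inner product of the projections.
-/

set_option autoImplicit false
open MeasureTheory
open scoped ENNReal RealInnerProductSpace Pointwise

namespace Crest.Agent.R230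

abbrev E (n : ℕ) := EuclideanSpace ℝ (Fin n)

abbrev MP (n : ℕ) := MvPolynomial (Fin n) ℝ

/-- volume of the unit ball -/
noncomputable def kap (n : ℕ) : ℝ := (volume (Metric.ball (0 : E n) 1)).toReal

/-- uniform probability measure on the unit sphere, as a measure on `E n` -/
noncomputable def sph (n : ℕ) : Measure (E n) :=
  ((volume : Measure (E n)).toSphere Set.univ)⁻¹ •
    ((volume : Measure (E n)).toSphere.map Subtype.val)

instance sph_finite (n : ℕ) : IsFiniteMeasure (sph n) := by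
  constructor
  unfold sph
  rw [Measure.smul_apply, Measure.map_apply measurable_subtype_coe MeasurableSet.univ,
    Set.preimage_univ, smul_eq_mul]
  exact lt_of_le_of_lt (ENNReal.inv_mul_le_one _) ENNReal.one_lt_top

/-- the mean of `|⟪p, u⟫|` over the sphere for a unit vector `u` -/
noncomputable def s1 (n : ℕ) : ℝ := 2 * kap (n - 1) / (n * kap n)

/-- sign function -/
noncomputable def sg (t : ℝ) : ℝ := if 0 < t then 1 else if t < 0 then -1 else 0

lemma measurable_sg : Measurable sg := by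
  unfold sg
  refine Measurable.ite measurableSet_Ioi measurable_const ?_
  exact Measurable.ite measurableSet_Iio measurable_const measurable_const

lemma abs_sg_le (t : ℝ) : |sg t| ≤ 1 := by
  unfold sg; split_ifs <;> simp

lemma sg_mul_self (t : ℝ) : sg t * t = |t| := by
  unfold sg
  split_ifs with h1 h2
  · rw [abs_of_pos h1, one_mul]
  · rw [abs_of_neg h2]; ring
  · have : t = 0 := le_antisymm (not_lt.1 h1) (not_lt.1 h2)
    simp [this]

lemma sg_neg (t : ℝ) : sg (-t) = -sg t := by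
  unfold sg
  rcases lt_trichotomy t 0 with h | h | h
  · simp [h, h.not_gt]
  · simp [h]
  · simp [h, h.not_gt]

lemma sg_of_pos {t : ℝ} (h : 0 < t) : sg t = 1 := by simp [sg, h]

lemma sg_of_neg {t : ℝ} (h : t < 0) : sg t = -1 := by simp [sg, h, h.not_gt]

variable {n : ℕ}

/-- functions on which one can integrate by parts on the sphere -/
structure Good (f : E n → ℝ) : Prop where
  lip : LocallyLipschitz f
  diff : ∀ᵐ p ∂sph n, DifferentiableAt ℝ f p

/-- tangential gradient -/
noncomputable def tg (f : E n → ℝ) (p : E n) : E n := gradient f p - ⟪gradient f p, p⟫ • p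

/-- polynomial function -/
noncomputable def ev (Y : MP n) (x : E n) : ℝ := MvPolynomial.eval (fun i => x i) Y

/-- Laplacian of a polynomial -/
noncomputable def lap (Y : MP n) : MP n := ∑ i, MvPolynomial.pderiv i (MvPolynomial.pderiv i Y)

/-- directional derivative of a polynomial -/
noncomputable def dd (q : E n) (Y : MP n) : MP n :=
  ∑ i, MvPolynomial.C (q i) * MvPolynomial.pderiv i Y

/-- the polynomial `|x|²` -/
noncomputable def r2 (n : ℕ) : MP n := ∑ i, MvPolynomial.X i ^ 2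

/-- homogeneous harmonic polynomials of degree `k` -/
def Harm (n k : ℕ) : Submodule ℝ (MP n) where
  carrier := {Y | Y.IsHomogeneous k ∧ lap Y = 0}
  add_mem' := by
    rintro Y Z ⟨h1, h2⟩ ⟨h3, h4⟩
    refine ⟨h1.add h3, ?_⟩
    have : lap (Y + Z) = lap Y + lap Z := by simp [lap, Finset.sum_add_distrib]
    rw [this, h2, h4, add_zero]
  zero_mem' := ⟨MvPolynomial.isHomogeneous_zero _ _ _, by simp [lap]⟩
  smul_mem' := by
    rintro c Y ⟨h1, h2⟩
    refine ⟨(MvPolynomial.homogeneousSubmodule (Fin n) ℝ k).smul_mem c h1, ?_⟩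
    have : lap (c • Y) = c • lap Y := by simp [lap, Finset.smul_sum]
    rw [this, h2, smul_zero]

lemma mem_Harm {k : ℕ} {Y : MP n} : Y ∈ Harm n k ↔ Y.IsHomogeneous k ∧ lap Y = 0 := Iff.rfl

open Classical in
/-- `L²(sph n)`-projection of `f` on `Harm n k` -/
noncomputable def proj (k : ℕ) (f : E n → ℝ) : MP n :=
  if h : ∃ Y ∈ Harm n k, ∀ Z ∈ Harm n k,
      ∫ p, f p * ev Z p ∂sph n = ∫ p, ev Y p * ev Z p ∂sph n then h.choose else 0

/-- inner product of the degree `k` components -/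
noncomputable def ip (k : ℕ) (f g : E n → ℝ) : ℝ :=
  ∫ p, ev (proj k f) p * ev (proj k g) p ∂sph n

/-- squared norm of the components of degree `≥ 4` -/
noncomputable def tail (f : E n → ℝ) : ℝ :=
  ∫ p, f p ^ 2 ∂sph n - ∑ k ∈ Finset.range 4, ip k f f

/-- eigenvalues of the spherical Laplacian -/
noncomputable def lam (n k : ℕ) : ℝ := (k : ℝ) * ((k : ℝ) + n - 2)

/-- the critical constant `|T₄|` -/
noncomputable def cc (n : ℕ) : ℝ := (2 * (n : ℝ) + 3) ^ 2 / (((n : ℝ) + 1) * ((n : ℝ) + 3))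

/-- Funk-Hecke multipliers of the kernel `sg ⟪p, q⟫` -/
noncomputable def sm (n : ℕ) : ℕ → ℝ
  | 0 => 0
  | 1 => s1 n
  | (j + 2) => -(j : ℝ) / ((n : ℝ) + j) * sm n j

/-- multipliers of the bilinear form `∬ sg ⟪p, q⟫ ⟪D f q, D g p⟫` -/
noncomputable def tm (n : ℕ) : ℕ → ℝ
  | 0 => s1 n
  | (k + 1) => sm n k * ((n : ℝ) * ((k : ℝ) + 1) + (k : ℝ) ^ 2 / ((n : ℝ) + k))

/-- a seminorm that is a norm -/
def Pos (N : Seminorm ℝ (E n)) : Prop := ∀ x, N x = 0 → x = 0

/-- `vol {N ≤ 1} / vol ball` -/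
noncomputable def vr (N : Seminorm ℝ (E n)) : ℝ := ∫ p, (N p)⁻¹ ^ n ∂sph n

/-- mean over the sphere -/
noncomputable def mean (N : Seminorm ℝ (E n)) : ℝ := ∫ p, N p ∂sph n

/-- isotropic position: no component of degree two -/
def Iso (N : Seminorm ℝ (E n)) : Prop :=
  ∀ u : E n, ‖u‖ = 1 → ∫ p, N p * ⟪p, u⟫ ^ 2 ∂sph n = mean N / n

/-- the test point of the zonoid -/
noncomputable def zv (N : Seminorm ℝ (E n)) (q : E n) : E n :=
  ∫ p, sg ⟪p, q⟫ • gradient (fun x => N x) p ∂sph n

/-- the function `ψ` -/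
noncomputable def psi (r : ℕ) (s : ℝ) : ℝ := s - 1 - (1 - s⁻¹ ^ r) / r

/-- admissible parameters for the stability inequality -/
structure Par (n : ℕ) (a b L A : ℝ) : Prop where
  ha : cc n < a
  hb : 0 ≤ b
  hL : 0 ≤ L
  hq : (b - cc n) ^ 2 ≤ (a - cc n) * (L * (3 * (n : ℝ) + 9) / ((n : ℝ) - 1) - cc n)
  h2 : b ^ 2 ≤ a * (L * ((n : ℝ) + 1) / ((n : ℝ) - 1))
  hA : 2 * a ≤ A * ((n : ℝ) + 1)
  hK : ∀ G : ℝ, 0 ≤ G → (n : ℝ) * G ≤ 1 →
    0 ≤ A - L - (2 * b + L) * G + L * ((((n : ℝ) + 1) / 2 - n * G / 3) * G ^ 2)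
  hP : ∀ G : ℝ, 0 ≤ G → (n : ℝ) * G ≤ 1 →
    (a - L * (1 + G) * (((n : ℝ) + 1) / 2 - n * G / 3)) * (1 - (2 * (n : ℝ) + 1) / 3 * G) ≤
      ((n : ℝ) + 1) / 2 *
        (A - L - (2 * b + L) * G + L * ((((n : ℝ) + 1) / 2 - n * G / 3) * G ^ 2))

/-- convex body -/
structure Body (K : Set (E n)) : Prop where
  cpt : IsCompact K
  cvx : Convex ℝ K
  int : (interior K).Nonempty

/-- brightness: `(n-1)`-volume of the projection along the unit vector `u` -/
noncomputable def br (K : Set (E n)) (u : E n) : ℝ :=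
  ((μHE[n - 1] : Measure (E n)) ((fun y => y - inner ℝ y u • u) '' K)).toReal

/-- the set with "support function" `h` (given on unit vectors) -/
def Sup (h : E n → ℝ) : Set (E n) := ⋂ u ∈ Metric.sphere (0 : E n) 1, {x | inner ℝ x u ≤ h u}

lemma mem_Sup {h : E n → ℝ} {x : E n} : x ∈ Sup h ↔ ∀ u : E n, ‖u‖ = 1 → ⟪x, u⟫ ≤ h u := by
  simp [Sup]

/-- projection body -/
def PiB (K : Set (E n)) : Set (E n) := Sup (br K)

/-- homogeneous extension of the brightness -/
noncomputable def Pt (K : Set (E n)) (v : E n) : ℝ := ‖v‖ * br K (‖v‖⁻¹ • v)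

/-- block simplex: product of standard simplices, the blocks being the fibres of `β` -/
def Blk (β : Fin n → ℕ) : Set (E n) :=
  {x | (∀ i, 0 ≤ x i) ∧ ∀ j, ∑ i ∈ Finset.univ.filter (fun i => β i = j), x i ≤ 1}

/-- size of the block `j` -/
def bs (β : Fin n → ℕ) (j : ℕ) : ℕ := (Finset.univ.filter (fun i => β i = j)).card

/-- product of the zonotopes `[-1/2, 1/2]^a + [-1/2, 1/2] (1, ..., 1)` -/
def Zb (β : Fin n → ℕ) : Set (E n) :=
  {x | (∀ i, |x i| ≤ 1) ∧ ∀ i k, β i = β k → |x i - x k| ≤ 1}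

/-- normalised projection volume of the `a`-simplex -/
noncomputable def cs (a : ℕ) : ℝ := ((a : ℝ) + 1) * (a : ℝ) ^ a / (a.factorial : ℝ)

end Crest.Agent.R230
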