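import Crest.Agent.R230.Bright

set_option autoImplicit false
open MeasureTheory Filter Topology
open scoped ENNReal RealInnerProductSpace Pointwise

namespace Crest.Agent.R230

variable {n : ℕ}

/-! Affine covariance of the projection body; the projection body of a ball. -/

namespace AffineAux

/-- the affine map as a homeomorphism -/
noncomputable def hom (a : E n) (T : E n ≃ₗ[ℝ] E n) : E n ≃ₜ E n :=
  T.toContinuousLinearEquiv.toHomeomorph.trans (Homeomorph.addLeft a)

theorem convex_image {K : Set (E n)} (hc : Convex ℝ K) (a : E n) (T : E n ≃ₗ[ℝ] E n) :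
    Convex ℝ ((fun x => a + T x) '' K) := by
  have := (hc.linear_image (T : E n →ₗ[ℝ] E n)).translate a
  rwa [Set.image_image] at this

theorem image_add_segment (K : Set (E n)) (a : E n) (T : E n ≃ₗ[ℝ] E n) (v : E n) :
    (fun x => a + T x) '' K + segment ℝ 0 (T v) = (fun x => a + T x) '' (K + segment ℝ 0 v) := by
  have h : segment ℝ 0 (T v) = T '' segment ℝ 0 v := by
    simpa using (image_segment ℝ (T : E n →ₗ[ℝ] E n).toAffineMap 0 v).symm
  rw [h]
  ext x
  constructor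
  · rintro ⟨_, ⟨y, hy, rfl⟩, _, ⟨z, hz, rfl⟩, rfl⟩
    exact ⟨y + z, ⟨y, hy, z, hz, rfl⟩, by simp [add_assoc]⟩
  · rintro ⟨_, ⟨y, hy, z, hz, rfl⟩, rfl⟩
    exact ⟨_, ⟨y, hy, rfl⟩, _, ⟨z, hz, rfl⟩, by simp [add_assoc]⟩

theorem det_adjoint (T : E n →ₗ[ℝ] E n) : LinearMap.det (LinearMap.adjoint T) = LinearMap.det T := by
  let b := EuclideanSpace.basisFun (Fin n) ℝ
  rw [← LinearMap.det_toMatrix b.toBasis, LinearMap.toMatrix_adjoint, Matrix.det_conjTranspose,
    LinearMap.det_toMatrix, star_trivial]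

theorem abs_det_pos (T : E n ≃ₗ[ℝ] E n) : 0 < |LinearMap.det (T : E n →ₗ[ℝ] E n)| :=
  abs_pos.2 (LinearEquiv.isUnit_det' T).ne_zero

end AffineAux

open AffineAux

theorem Body.image {K : Set (E n)} (hK : Body K) (a : E n) (T : E n ≃ₗ[ℝ] E n) :
    Body ((fun x => a + T x) '' K) := by
  refine ⟨hK.cpt.image (hom a T).continuous, convex_image hK.cvx a T, ?_⟩
  have := (hom a T).image_interior K
  exact this ▸ hK.int.image _

theorem volume_image (K : Set (E n)) (a : E n) (T : E n ≃ₗ[ℝ] E n) :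
    volume ((fun x => a + T x) '' K) =
      ENNReal.ofReal |LinearMap.det (T : E n →ₗ[ℝ] E n)| * volume K := by
  rw [← Measure.addHaar_image_linearMap, ← Set.image_image (fun x => a + x), Set.image_add_left,
    measure_preimage_add]
  rfl

theorem Pt_image (hn : 1 ≤ n) {K : Set (E n)} (hK : IsCompact K) (hc : Convex ℝ K) (a : E n)
    (T : E n ≃ₗ[ℝ] E n) (v : E n) :
    Pt ((fun x => a + T x) '' K) (T v) = |LinearMap.det (T : E n →ₗ[ℝ] E n)| * Pt K v := by
  have h1 := volume_add_segment hn (hK.image (hom a T).continuous) (convex_image hc a T) (T v)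
  have h2 := volume_add_segment hn hK hc v
  have h3 : ∀ L : Set (E n), volume.real ((fun x => a + T x) '' L) =
      |LinearMap.det (T : E n →ₗ[ℝ] E n)| * volume.real L := fun L => by
    rw [Measure.real, volume_image, ENNReal.toReal_mul, ENNReal.toReal_ofReal (abs_nonneg _),
      Measure.real]
  change volume.real ((fun x => a + T x) '' K + segment ℝ 0 (T v)) =
    volume.real ((fun x => a + T x) '' K) + Pt ((fun x => a + T x) '' K) (T v) at h1
  rw [image_add_segment, h3, h3, h2] at h1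
  linarith

theorem mem_PiB {K : Set (E n)} {x : E n} : x ∈ PiB K ↔ ∀ v : E n, ⟪x, v⟫ ≤ Pt K v := by
  rw [PiB, mem_Sup]
  refine ⟨fun h v => ?_, fun h u hu => (h u).trans_eq (Pt_unit K hu)⟩
  rcases eq_or_ne v 0 with rfl | hv
  · simpa using Pt_nonneg K 0
  · have h0 := norm_pos_iff.2 hv
    have h1 := h (‖v‖⁻¹ • v) (norm_smul_inv_norm hv)
    rwa [inner_smul_right, inv_mul_le_iff₀ h0] at h1

/-- `Π (a + T K) = |det T| T⁻* Π K` -/
theorem mem_PiB_image (hn : 1 ≤ n) {K : Set (E n)} (hK : IsCompact K) (hc : Convex ℝ K) (a : E n)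
    (T : E n ≃ₗ[ℝ] E n) (x : E n) :
    x ∈ PiB ((fun x => a + T x) '' K) ↔
      |LinearMap.det (T : E n →ₗ[ℝ] E n)|⁻¹ • LinearMap.adjoint (T : E n →ₗ[ℝ] E n) x ∈ PiB K := by
  rw [mem_PiB, mem_PiB, T.surjective.forall]
  refine forall_congr' fun v => ?_
  rw [Pt_image hn hK hc, real_inner_smul_left, LinearMap.adjoint_inner_left,
    inv_mul_le_iff₀ (abs_det_pos T)]
  rfl

theorem volume_PiB_image (hn : 1 ≤ n) {K : Set (E n)} (hK : IsCompact K) (hc : Convex ℝ K)
    (a : E n) (T : E n ≃ₗ[ℝ] E n) :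
    volume (PiB ((fun x => a + T x) '' K)) =
      ENNReal.ofReal |LinearMap.det (T : E n →ₗ[ℝ] E n)| ^ (n - 1) * volume (PiB K) := by
  have hd := abs_det_pos T
  have h1 : PiB ((fun x => a + T x) '' K) = (|LinearMap.det (T : E n →ₗ[ℝ] E n)|⁻¹ •
      LinearMap.adjoint (T : E n →ₗ[ℝ] E n)) ⁻¹' PiB K := Set.ext fun x => mem_PiB_image hn hK hc a T x
  have h2 : |(LinearMap.det (|LinearMap.det (T : E n →ₗ[ℝ] E n)|⁻¹ •
      LinearMap.adjoint (T : E n →ₗ[ℝ] E n)))⁻¹| =
      |LinearMap.det (T : E n →ₗ[ℝ] E n)| ^ (n - 1) := by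
    rw [LinearMap.det_smul, det_adjoint, finrank_euclideanSpace_fin, abs_inv, abs_mul, abs_pow,
      abs_inv, abs_abs, pow_sub₀ _ hd.ne' hn, inv_pow, mul_inv, inv_inv, pow_one]
  rw [h1, Measure.addHaar_preimage_linearMap, h2, ENNReal.ofReal_pow hd.le]
  intro h
  rw [h, inv_zero, abs_zero] at h2
  exact (pow_pos hd _).ne h2

theorem PiB_closedBall (hn : 1 ≤ n) :
    PiB (Metric.closedBall (0 : E n) 1) = Metric.closedBall 0 (kap (n - 1)) := by
  ext x
  have hk : 0 ≤ kap (n - 1) := ENNReal.toReal_nonneg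
  rw [PiB, mem_Sup, mem_closedBall_zero_iff]
  refine ⟨fun h => ?_, fun h u hu => ?_⟩
  · rcases eq_or_ne x 0 with rfl | hx
    · simpa using hk
    · have h0 := norm_pos_iff.2 hx
      have hu : ‖‖x‖⁻¹ • x‖ = 1 := norm_smul_inv_norm hx
      have h1 := h _ hu
      rwa [br_closedBall hn 0 zero_le_one hu, one_pow, one_mul,
        inner_smul_right, real_inner_self_eq_norm_mul_norm, inv_mul_cancel_left₀ h0.ne'] at h1
  · rw [br_closedBall hn 0 zero_le_one hu, one_pow, one_mul]
    refine (real_inner_le_norm x u).trans ?_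
    rwa [hu, mul_one]

end Crest.Agent.R230
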