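import Crest.Agent.R230.Mink

set_option autoImplicit false
open MeasureTheory Filter Topology
open scoped ENNReal RealInnerProductSpace Pointwise

namespace Crest.Agent.R230

variable {n : ℕ}

/-! Equality in Brunn-Minkowski with a ball, part A: support points lie on medians. -/

namespace BMEqAAux

theorem hyper_null {u : E n} (hu : u ≠ 0) (k : ℝ) : volume {y : E n | ⟪y, u⟫ = k} = 0 := by
  have hu2 : ⟪u, u⟫ ≠ 0 := inner_self_ne_zero.2 hu
  have h1 : LinearMap.ker (innerₛₗ ℝ u) ≠ ⊤ := by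
    intro h
    have : u ∈ LinearMap.ker (innerₛₗ ℝ u) := h ▸ Submodule.mem_top
    exact hu2 (by simpa using this)
  have h2 := Measure.addHaar_submodule (volume : Measure (E n)) _ h1
  have e : {y : E n | ⟪y, u⟫ = k} =
      (fun y => y + (-(k / ⟪u, u⟫) • u)) ⁻¹' (LinearMap.ker (innerₛₗ ℝ u) : Set (E n)) := by
    ext y
    simp only [Set.mem_ofPred_eq, Set.mem_preimage, SetLike.mem_coe, LinearMap.mem_ker,
      innerₛₗ_apply_apply, inner_add_right, real_inner_smul_right]
    rw [real_inner_comm u y, neg_mul, div_mul_cancel₀ _ hu2]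
    constructor <;> intro h <;> linarith
  rw [e, measure_preimage_add_right, h2]

theorem closed_le (u : E n) (k : ℝ) : IsClosed {y : E n | ⟪y, u⟫ ≤ k} :=
  isClosed_le (by fun_prop) continuous_const

theorem closed_ge (u : E n) (k : ℝ) : IsClosed {y : E n | k ≤ ⟪y, u⟫} :=
  isClosed_le continuous_const (by fun_prop)

theorem real_union {u : E n} (hu : u ≠ 0) {k : ℝ} {A B : Set (E n)} (hA : IsCompact A)
    (hB : IsCompact B) (h1 : ∀ y ∈ A, ⟪y, u⟫ ≤ k) (h2 : ∀ y ∈ B, k ≤ ⟪y, u⟫) :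
    volume.real (A ∪ B) = volume.real A + volume.real B := by
  have h := measureReal_union_add_inter (μ := (volume : Measure (E n))) (s := A)
    hB.measurableSet hA.measure_lt_top.ne hB.measure_lt_top.ne
  have h0 : volume.real (A ∩ B) = 0 := by
    rw [measureReal_def, measure_mono_null (t := {y : E n | ⟪y, u⟫ = k})
      (fun y hy => le_antisymm (h1 y hy.1) (h2 y hy.2)) (hyper_null hu k)]
    rfl
  linarith

theorem real_split {u : E n} (hu : u ≠ 0) (k : ℝ) {A : Set (E n)} (hA : IsCompact A) :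
    volume.real (A ∩ {y | ⟪y, u⟫ ≤ k}) + volume.real (A ∩ {y | k ≤ ⟪y, u⟫}) = volume.real A := by
  rw [← real_union hu (hA.inter_right (closed_le u k)) (hA.inter_right (closed_ge u k))
    (fun y hy => hy.2) (fun y hy => hy.2), ← Set.inter_union_distrib_left]
  congr 1
  refine Set.inter_eq_left.2 fun y _ => ?_
  exact le_total ⟪y, u⟫ k

theorem continuous_cut {u : E n} (hu : u ≠ 0) {A : Set (E n)} (hA : IsCompact A) :
    Continuous fun k : ℝ => volume.real (A ∩ {y | ⟪y, u⟫ ≤ k}) := by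
  have hm : ∀ k : ℝ, MeasurableSet (A ∩ {y : E n | ⟪y, u⟫ ≤ k}) := fun k =>
    hA.measurableSet.inter (closed_le u k).measurableSet
  have e : ∀ k : ℝ, volume.real (A ∩ {y | ⟪y, u⟫ ≤ k})
      = ∫ y, (A ∩ {y : E n | ⟪y, u⟫ ≤ k}).indicator (fun _ => (1 : ℝ)) y := fun k => by
    rw [integral_indicator (hm k)]
    simp
  simp only [e]
  refine continuous_iff_continuousAt.2 fun k₀ => ?_
  refine continuousAt_of_dominated (bound := A.indicator fun _ => (1 : ℝ))
    (Eventually.of_forall fun k => (aestronglyMeasurable_const.indicator (hm k)))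
    (Eventually.of_forall fun k => Eventually.of_forall fun y => ?_) ?_ ?_
  · rw [Real.norm_of_nonneg (Set.indicator_nonneg (fun _ _ => zero_le_one) _)]
    exact Set.indicator_le_indicator_of_subset Set.inter_subset_left (fun _ => zero_le_one) y
  · exact (integrable_indicator_iff hA.measurableSet).2
      (integrableOn_const hA.measure_lt_top.ne)
  · have : ∀ᵐ y : E n, ⟪y, u⟫ ≠ k₀ := by
      rw [ae_iff]
      simpa using hyper_null hu k₀
    filter_upwards [this] with y hy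
    rcases lt_or_gt_of_ne hy with h | h
    · refine ContinuousAt.congr (continuousAt_const (y := A.indicator (fun _ => (1 : ℝ)) y)) ?_
      filter_upwards [lt_mem_nhds h] with k hk
      by_cases hy : y ∈ A <;> simp [Set.indicator, hy, hk.le]
    · refine ContinuousAt.congr (continuousAt_const (y := (0 : ℝ))) ?_
      filter_upwards [gt_mem_nhds h] with k hk
      simp [Set.indicator, hk]

theorem half_ball {u : E n} (hu : u ≠ 0) (R : ℝ) :
    volume.real (Metric.closedBall (0 : E n) R ∩ {y | ⟪y, u⟫ ≤ 0})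
        = volume.real (Metric.closedBall (0 : E n) R) / 2 ∧
      volume.real (Metric.closedBall (0 : E n) R ∩ {y | 0 ≤ ⟪y, u⟫})
        = volume.real (Metric.closedBall (0 : E n) R) / 2 := by
  have h1 := real_split hu 0 (isCompact_closedBall (0 : E n) R)
  have e : Metric.closedBall (0 : E n) R ∩ {y | 0 ≤ ⟪y, u⟫}
      = -(Metric.closedBall (0 : E n) R ∩ {y | ⟪y, u⟫ ≤ 0}) := by
    ext y
    simp [inner_neg_left]
  have h2 : volume.real (Metric.closedBall (0 : E n) R ∩ {y | 0 ≤ ⟪y, u⟫})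
      = volume.real (Metric.closedBall (0 : E n) R ∩ {y | ⟪y, u⟫ ≤ 0}) := by
    rw [e, measureReal_def, Measure.measure_neg, measureReal_def]
  constructor <;> linarith

theorem bm_half {A B : Set (E n)} (hA : IsCompact A) (hB : IsCompact B) {c : ℝ}
    (h1 : volume.real A = c) (h2 : volume.real B = c) : 2 ^ n * c ≤ volume.real (A + B) := by
  have h := bm_mid hA hB
  rw [h1, h2] at h
  refine le_of_sq_le_sq (le_of_eq_of_le ?_ h) measureReal_nonneg
  rw [mul_pow, ← pow_mul, mul_comm n 2, pow_mul, sq c]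
  norm_num

theorem extreme {K : Set (E n)} {R : ℝ} (hR : 0 < R) {x v x' b : E n} (hv : ‖v‖ = 1)
    (hxv : ∀ y ∈ K, ⟪y, v⟫ ≤ ⟪x, v⟫) (hx' : x' ∈ K) (hb : ‖b‖ ≤ R) (h : x' + b = x + R • v) :
    b = R • v ∧ x' = x := by
  have h1 := congrArg (fun y => ⟪y, v⟫) h
  simp only [inner_add_left, real_inner_smul_left, real_inner_self_eq_norm_sq, hv] at h1
  have h2 := hxv x' hx'
  have h3 : ‖b - R • v‖ ^ 2 ≤ 0 := by
    rw [norm_sub_sq_real, real_inner_smul_right, norm_smul, hv, Real.norm_of_nonneg hR.le]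
    have : ‖b‖ ^ 2 ≤ R ^ 2 := pow_le_pow_left₀ (norm_nonneg _) hb 2
    nlinarith
  have h4 : b = R • v := by
    rw [← sub_eq_zero, ← norm_eq_zero]
    exact pow_eq_zero_iff two_ne_zero |>.1 (le_antisymm h3 (sq_nonneg _))
  refine ⟨h4, ?_⟩
  rw [h4] at h
  exact add_right_cancel h

end BMEqAAux

open BMEqAAux in
theorem support_median (hn : 1 ≤ n) {K : Set (E n)} (hK : Body K) {R : ℝ} (hR : 0 < R)
    (h1 : volume.real (Metric.closedBall (0 : E n) R) = volume.real K)
    (h2 : volume.real (K + Metric.closedBall (0 : E n) R) ≤ 2 ^ n * volume.real K)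
    {x v u : E n} (hx : x ∈ K) (hv : ‖v‖ = 1) (hxv : ∀ y ∈ K, ⟪y, v⟫ ≤ ⟪x, v⟫)
    (huv : 0 < ⟪u, v⟫) :
    volume.real K ≤ 2 * volume.real (K ∩ {y | ⟪y, u⟫ ≤ ⟪x, u⟫}) := by
  by_contra hcon
  rw [not_le] at hcon
  have hu : u ≠ 0 := by
    rintro rfl
    simp at huv
  have hB := isCompact_closedBall (0 : E n) R
  -- the median level
  obtain ⟨y₁, hy₁, hmax⟩ := hK.cpt.exists_isMaxOn ⟨x, hx⟩
    (show ContinuousOn (fun y : E n => ⟪y, u⟫) K by fun_prop)
  have hall : K ∩ {y | ⟪y, u⟫ ≤ ⟪y₁, u⟫} = K := Set.inter_eq_left.2 fun y hy => hmax hy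
  obtain ⟨k, hk, hk'⟩ : ∃ k ∈ Set.Icc ⟪x, u⟫ ⟪y₁, u⟫,
      volume.real (K ∩ {y | ⟪y, u⟫ ≤ k}) = volume.real K / 2 := by
    refine intermediate_value_Icc (hmax hx) (continuous_cut hu hK.cpt).continuousOn ⟨?_, ?_⟩
    · linarith
    · rw [hall]
      linarith [measureReal_nonneg (μ := (volume : Measure (E n))) (s := K)]
  have hxk : ⟪x, u⟫ < k := by
    refine lt_of_le_of_ne hk.1 fun h => ?_
    rw [← h] at hk'
    linarith
  have hk'' : volume.real (K ∩ {y | k ≤ ⟪y, u⟫}) = volume.real K / 2 := by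
    linarith [real_split hu k hK.cpt]
  obtain ⟨hb1, hb2⟩ := half_ball hu R
  rw [h1] at hb1 hb2
  have cKm := hK.cpt.inter_right (closed_le u k)
  have cKp := hK.cpt.inter_right (closed_ge u k)
  have cBm := hB.inter_right (closed_le u 0)
  have cBp := hB.inter_right (closed_ge u 0)
  have e1 := bm_half cKm cBm hk' hb1
  have e2 := bm_half cKp cBp hk'' hb2
  have e3 := real_union hu (k := k) (cKm.add cBm) (cKp.add cBp)
    (by
      rintro _ ⟨a, ha, b, hb, rfl⟩
      have h3 : ⟪a, u⟫ ≤ k := ha.2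
      have h4 : ⟪b, u⟫ ≤ 0 := hb.2
      simp only [inner_add_left]
      linarith)
    (by
      rintro _ ⟨a, ha, b, hb, rfl⟩
      have h3 : k ≤ ⟪a, u⟫ := ha.2
      have h4 : 0 ≤ ⟪b, u⟫ := hb.2
      simp only [inner_add_left]
      linarith)
  have cU := (cKm.add cBm).union (cKp.add cBp)
  set U := (K ∩ {y | ⟪y, u⟫ ≤ k} + Metric.closedBall (0 : E n) R ∩ {y | ⟪y, u⟫ ≤ 0}) ∪
    (K ∩ {y | k ≤ ⟪y, u⟫} + Metric.closedBall (0 : E n) R ∩ {y | 0 ≤ ⟪y, u⟫}) with hU
  have hUs : U ⊆ K + Metric.closedBall (0 : E n) R :=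
    Set.union_subset (Set.add_subset_add Set.inter_subset_left Set.inter_subset_left)
      (Set.add_subset_add Set.inter_subset_left Set.inter_subset_left)
  have hy₀ : x + R • v ∈ Uᶜ := by
    rintro (⟨a, ha, b, hb, h⟩ | ⟨a, ha, b, hb, h⟩)
    · obtain ⟨h3, -⟩ := extreme hR hv hxv ha.1 (mem_closedBall_zero_iff.1 hb.1) h
      have h4 : ⟪b, u⟫ ≤ 0 := hb.2
      rw [h3, real_inner_smul_left, real_inner_comm] at h4
      nlinarith
    · obtain ⟨-, h3⟩ := extreme hR hv hxv ha.1 (mem_closedBall_zero_iff.1 hb.1) h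
      have h4 : k ≤ ⟪a, u⟫ := ha.2
      rw [h3] at h4
      linarith
  have hcl : x + R • v ∈ closure (Metric.ball x R) := by
    rw [closure_ball x hR.ne', mem_closedBall_iff_norm, add_sub_cancel_left, norm_smul, hv,
      Real.norm_of_nonneg hR.le, mul_one]
  have hO : IsOpen (Uᶜ ∩ Metric.ball x R) := cU.isClosed.isOpen_compl.inter Metric.isOpen_ball
  have hOne := mem_closure_iff.1 hcl _ cU.isClosed.isOpen_compl hy₀
  have hOs : Uᶜ ∩ Metric.ball x R ⊆ K + Metric.closedBall (0 : E n) R := fun y hy =>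
    ⟨x, hx, y - x, mem_closedBall_zero_iff.2 (mem_ball_iff_norm.1 hy.2).le, by simp⟩
  have hfin : volume (K + Metric.closedBall (0 : E n) R) ≠ ⊤ := (hK.cpt.add hB).measure_lt_top.ne
  have hOfin : volume (Uᶜ ∩ Metric.ball x R) ≠ ⊤ := ne_top_of_le_ne_top hfin (measure_mono hOs)
  have hOpos : 0 < volume.real (Uᶜ ∩ Metric.ball x R) :=
    ENNReal.toReal_pos (hO.measure_pos volume hOne).ne' hOfin
  have e4 := measureReal_union (μ := (volume : Measure (E n))) (s₁ := U)
    (s₂ := Uᶜ ∩ Metric.ball x R)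
    (Set.disjoint_left.2 fun y hy hy' => hy'.1 hy) hO.measurableSet cU.measure_lt_top.ne hOfin
  have e5 := measureReal_mono (Set.union_subset hUs hOs) hfin
  linarith

end Crest.Agent.R230
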