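import Crest.Agent.R230.Bright

set_option autoImplicit false
open MeasureTheory Filter Topology
open scoped ENNReal RealInnerProductSpace Pointwise

namespace Crest.Agent.R230

variable {n : ℕ}

/-! Equality in Brunn-Minkowski with a ball, part B: a body all of whose support points lie on
medians is a ball. -/

namespace BMEqBAux

/-- the hypothesis -/
def Med (K : Set (E n)) : Prop :=
  ∀ x v u : E n, x ∈ K → ‖v‖ = 1 → (∀ y ∈ K, ⟪y, v⟫ ≤ ⟪x, v⟫) → 0 < ⟪u, v⟫ →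
    volume.real K ≤ 2 * volume.real (K ∩ {y | ⟪y, u⟫ ≤ ⟪x, u⟫})

lemma half {K : Set (E n)} (hK : Body K) (h : Med K) {x v u : E n} (hx : x ∈ K) (hv : ‖v‖ = 1)
    (hs : ∀ y ∈ K, ⟪y, v⟫ ≤ ⟪x, v⟫) (huv : ⟪u, v⟫ = 0) {k : ℝ} (hk : ⟪x, u⟫ < k) :
    volume.real K ≤ 2 * volume.real (K ∩ {y | ⟪y, u⟫ ≤ k}) := by
  obtain ⟨D, hD⟩ := hK.cpt.isBounded.exists_norm_le
  have hD0 : 0 ≤ D := (norm_nonneg _).trans (hD x hx)
  set ε := (k - ⟪x, u⟫) / (2 * D + 1) with hε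
  have hε0 : 0 < ε := div_pos (sub_pos.2 hk) (by linarith)
  have hε1 : ε * (2 * D + 1) = k - ⟪x, u⟫ := div_mul_cancel₀ _ (by linarith)
  have h1 := h x v (u + ε • v) hx hv hs (by
    rw [inner_add_left, real_inner_smul_left, huv, real_inner_self_eq_norm_sq, hv]
    linarith)
  refine h1.trans (mul_le_mul_of_nonneg_left (measureReal_mono ?_
    (ne_top_of_le_ne_top hK.cpt.measure_lt_top.ne (measure_mono Set.inter_subset_left)))
    (by norm_num))
  rintro y ⟨hy, hy'⟩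
  refine ⟨hy, ?_⟩
  simp only [Set.mem_ofPred_eq, inner_add_right, real_inner_smul_right] at hy' ⊢
  have h2 := abs_le.1 ((abs_real_inner_le_norm x v).trans
    (mul_le_mul_of_nonneg_right (hD x hx) (norm_nonneg _)))
  have h3 := abs_le.1 ((abs_real_inner_le_norm y v).trans
    (mul_le_mul_of_nonneg_right (hD y hy) (norm_nonneg _)))
  rw [hv, mul_one] at h2 h3
  nlinarith [mul_le_mul_of_nonneg_left h2.2 hε0.le, mul_le_mul_of_nonneg_left h3.1 hε0.le]

lemma median_le {K : Set (E n)} (hK : Body K) (h : Med K) {x v x' v' u : E n} (hx : x ∈ K)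
    (hv : ‖v‖ = 1) (hs : ∀ y ∈ K, ⟪y, v⟫ ≤ ⟪x, v⟫) (huv : ⟪u, v⟫ = 0) (hx' : x' ∈ K)
    (hv' : ‖v'‖ = 1) (hs' : ∀ y ∈ K, ⟪y, v'⟫ ≤ ⟪x', v'⟫) (huv' : ⟪u, v'⟫ = 0) :
    ⟪x', u⟫ ≤ ⟪x, u⟫ := by
  by_contra hlt
  push Not at hlt
  set k1 := (2 * ⟪x, u⟫ + ⟪x', u⟫) / 3 with hk1
  set k2 := (⟪x, u⟫ + 2 * ⟪x', u⟫) / 3 with hk2
  have h1 := half hK h hx hv hs huv (k := k1) (by rw [hk1]; linarith)
  have h2 := half hK h hx' hv' hs' (u := -u) (by rw [inner_neg_left, huv', neg_zero]) (k := -k2)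
    (by rw [inner_neg_right, hk2]; linarith)
  have hc : Continuous fun y : E n => ⟪y, u⟫ := by fun_prop
  have hc' : Continuous fun y : E n => ⟪y, -u⟫ := by fun_prop
  set O : Set (E n) := {y | k1 < ⟪y, u⟫} ∩ {y | ⟪y, u⟫ < k2} with hO
  have hOo : IsOpen O := (isOpen_lt continuous_const hc).inter (isOpen_lt hc continuous_const)
  have hp : (1 / 2 : ℝ) • x + (1 / 2 : ℝ) • x' ∈ K :=
    hK.cvx hx hx' (by norm_num) (by norm_num) (by norm_num)
  have hpO : (1 / 2 : ℝ) • x + (1 / 2 : ℝ) • x' ∈ O := by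
    simp only [hO, Set.mem_inter_iff, Set.mem_ofPred_eq, inner_add_left, real_inner_smul_left]
    rw [hk1, hk2]
    constructor <;> linarith
  have hcl : (1 / 2 : ℝ) • x + (1 / 2 : ℝ) • x' ∈ closure (interior K) := by
    rw [hK.cvx.closure_interior_eq_closure_of_nonempty_interior hK.int]
    exact subset_closure hp
  have hne : (O ∩ interior K).Nonempty := mem_closure_iff.1 hcl O hOo hpO
  have hfin : ∀ {s : Set (E n)}, s ⊆ K → volume s ≠ ⊤ := fun hs =>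
    ne_top_of_le_ne_top hK.cpt.measure_lt_top.ne (measure_mono hs)
  have hCK : O ∩ interior K ⊆ K := Set.inter_subset_right.trans interior_subset
  have hpos : 0 < volume.real (O ∩ interior K) :=
    ENNReal.toReal_pos ((hOo.inter isOpen_interior).measure_pos volume hne).ne' (hfin hCK)
  set A : Set (E n) := K ∩ {y | ⟪y, u⟫ ≤ k1} with hA
  set B : Set (E n) := K ∩ {y | ⟪y, -u⟫ ≤ -k2} with hB
  have hBm : MeasurableSet B :=
    hK.cpt.measurableSet.inter (isClosed_le hc' continuous_const).measurableSet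
  have hk12 : k1 < k2 := by rw [hk1, hk2]; linarith
  have hAB : Disjoint A B := by
    rw [Set.disjoint_left]
    rintro y ⟨-, hy⟩ ⟨-, hy'⟩
    simp only [Set.mem_ofPred_eq, inner_neg_right] at hy hy'
    linarith
  have hABC : Disjoint (A ∪ B) (O ∩ interior K) := by
    rw [Set.disjoint_left]
    rintro y (⟨-, hy⟩ | ⟨-, hy⟩) ⟨⟨h3, h4⟩, -⟩ <;>
      simp only [Set.mem_ofPred_eq, inner_neg_right] at hy h3 h4 <;> linarith
  have hABK : A ∪ B ⊆ K := Set.union_subset Set.inter_subset_left Set.inter_subset_left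
  have h3 := measureReal_union (μ := volume) hAB hBm (hfin Set.inter_subset_left)
    (hfin Set.inter_subset_left)
  have h4 := measureReal_union (μ := volume) hABC (hOo.inter isOpen_interior).measurableSet
    (hfin hABK) (hfin hCK)
  have h5 : volume.real (A ∪ B ∪ O ∩ interior K) ≤ volume.real K :=
    measureReal_mono (Set.union_subset hABK hCK) (hfin subset_rfl)
  linarith

lemma exists_normal (hn : 3 ≤ n) (u u' : E n) : ∃ v : E n, ‖v‖ = 1 ∧ ⟪u, v⟫ = 0 ∧ ⟪u', v⟫ = 0 := by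
  let f : E n →ₗ[ℝ] ℝ × ℝ := ((innerSL ℝ u).prod (innerSL ℝ u')).toLinearMap
  have hf : LinearMap.ker f ≠ ⊥ := LinearMap.ker_ne_bot_of_finrank_lt (by
    rw [finrank_euclideanSpace_fin, Module.finrank_prod, Module.finrank_self]
    omega)
  obtain ⟨w, hw, hw0⟩ := (Submodule.ne_bot_iff _).1 hf
  have h1 : (⟪u, w⟫, ⟪u', w⟫) = ((0 : ℝ), (0 : ℝ)) := hw
  obtain ⟨h2, h3⟩ := Prod.mk.inj h1
  refine ⟨‖w‖⁻¹ • w, norm_smul_inv_norm hw0, ?_, ?_⟩
  · rw [real_inner_smul_right, h2, mul_zero]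
  · rw [real_inner_smul_right, h3, mul_zero]

lemma exists_centre (hn : 3 ≤ n) {K : Set (E n)} (hK : Body K) (h : Med K) {x : E n → E n}
    (hx : ∀ v, x v ∈ K) (hs : ∀ v, ∀ y ∈ K, ⟪y, v⟫ ≤ ⟪x v, v⟫) :
    ∃ a : E n, ∀ v, ‖v‖ = 1 → x v = a + ⟪x v - a, v⟫ • v := by
  choose nv h1 h2 _ using fun u : E n => exists_normal hn u u
  have key : ∀ u v, ‖v‖ = 1 → ⟪u, v⟫ = 0 → ⟪x (nv u), u⟫ = ⟪x v, u⟫ := fun u v hv huv =>
    le_antisymm (median_le hK h (hx v) hv (hs v) huv (hx _) (h1 u) (hs _) (h2 u))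
      (median_le hK h (hx _) (h1 u) (hs _) (h2 u) (hx v) hv (hs v) huv)
  let L : E n →ₗ[ℝ] ℝ :=
    { toFun := fun u => ⟪x (nv u), u⟫
      map_add' := by
        intro u u'
        obtain ⟨v, hv, a1, a2⟩ := exists_normal hn u u'
        rw [key u v hv a1, key u' v hv a2,
          key (u + u') v hv (by rw [inner_add_left, a1, a2, add_zero]), inner_add_right]
      map_smul' := by
        intro c u
        rw [key (c • u) (nv u) (h1 u) (by rw [real_inner_smul_left, h2, mul_zero]),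
          real_inner_smul_right]
        rfl }
  refine ⟨(InnerProductSpace.toDual ℝ (E n)).symm (LinearMap.toContinuousLinearMap L), ?_⟩
  set a := (InnerProductSpace.toDual ℝ (E n)).symm (LinearMap.toContinuousLinearMap L) with ha
  have ha' : ∀ u, ⟪a, u⟫ = ⟪x (nv u), u⟫ := fun u => by
    rw [ha, InnerProductSpace.toDual_symm_apply]
    rfl
  intro v hv
  set u := x v - a - ⟪x v - a, v⟫ • v with hu
  have h3 : ⟪u, v⟫ = 0 := by
    rw [hu, inner_sub_left, real_inner_smul_left, real_inner_self_eq_norm_sq, hv]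
    ring
  have h4 : ⟪x v - a, u⟫ = 0 := by
    rw [inner_sub_left, ha', key u v hv h3, sub_self]
  have h5 : ⟪u, u⟫ = 0 := by
    have : ⟪x v - a - ⟪x v - a, v⟫ • v, u⟫ = 0 := by
      rw [inner_sub_left, h4, real_inner_smul_left, real_inner_comm u v, h3]
      ring
    exact this
  have h6 : u = 0 := inner_self_eq_zero.1 h5
  rw [hu, sub_sub, sub_eq_zero] at h6
  exact h6

lemma const_of_sq (hn : 3 ≤ n) {f : E n → ℝ} {C : ℝ}
    (hf : ∀ v w, ‖v‖ = 1 → ‖w‖ = 1 → |f v - f w| ≤ C * ‖v - w‖ ^ 2) :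
    ∃ ρ, ∀ v, ‖v‖ = 1 → f v = ρ := by
  have hrank : 1 < Module.rank ℝ (E n) := by
    rw [← Module.finrank_eq_rank, finrank_euclideanSpace_fin]
    exact_mod_cast (by omega : 1 < n)
  have hd : ∀ z ∈ ({0}ᶜ : Set (E n)),
      HasFDerivAt (fun z : E n => f (‖z‖⁻¹ • z)) (0 : E n →L[ℝ] ℝ) z := by
    intro z hz
    have hz0 : z ≠ 0 := hz
    have hN : DifferentiableAt ℝ (fun z : E n => ‖z‖⁻¹ • z) z :=
      ((differentiableAt_id.norm ℝ hz0).inv (norm_ne_zero_iff.2 hz0)).smul differentiableAt_id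
    have h1 := (hN.isBigO_sub.norm_norm).pow 2
    refine HasFDerivAt.of_isLittleO ?_
    refine Asymptotics.IsBigO.trans_isLittleO (Asymptotics.IsBigO.trans ?_ h1)
      (Asymptotics.isLittleO_pow_sub_sub z one_lt_two)
    refine Asymptotics.IsBigO.of_bound C ?_
    filter_upwards [isOpen_compl_singleton.mem_nhds hz] with w hw
    have hw0 : w ≠ 0 := hw
    have h2 := hf _ _ (norm_smul_inv_norm (𝕜 := ℝ) hw0) (norm_smul_inv_norm (𝕜 := ℝ) hz0)
    simpa using h2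
  obtain ⟨ρ, hρ⟩ := isOpen_compl_singleton.exists_is_const_of_fderiv_eq_zero
    (isConnected_compl_singleton_of_one_lt_rank hrank 0).isPreconnected
    (fun z hz => (hd z hz).differentiableAt.differentiableWithinAt)
    (fun z hz => (hd z hz).fderiv)
  refine ⟨ρ, fun v hv => ?_⟩
  have h1 := hρ v (by
    rintro rfl
    simp at hv)
  simpa [hv] using h1

end BMEqBAux

open BMEqBAux in
theorem ball_of_median (hn : 3 ≤ n) {K : Set (E n)} (hK : Body K)
    (h : ∀ x v u : E n, x ∈ K → ‖v‖ = 1 → (∀ y ∈ K, ⟪y, v⟫ ≤ ⟪x, v⟫) → 0 < ⟪u, v⟫ →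
      volume.real K ≤ 2 * volume.real (K ∩ {y | ⟪y, u⟫ ≤ ⟪x, u⟫})) :
    ∃ (a : E n) (ρ : ℝ), 0 < ρ ∧ K = Metric.closedBall a ρ := by
  have hne : K.Nonempty := hK.int.mono interior_subset
  have hex : ∀ v : E n, ∃ x ∈ K, ∀ y ∈ K, ⟪y, v⟫ ≤ ⟪x, v⟫ := fun v =>
    hK.cpt.exists_isMaxOn hne (f := fun y => ⟪y, v⟫) (by fun_prop)
  choose x hx hs using hex
  obtain ⟨a, ha⟩ := exists_centre hn hK h hx hs
  obtain ⟨D, hD⟩ := hK.cpt.isBounded.exists_norm_le
  have hb : ∀ v, ‖v‖ = 1 → |⟪x v - a, v⟫| ≤ D + ‖a‖ := by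
    intro v hv
    refine (abs_real_inner_le_norm _ _).trans ?_
    rw [hv, mul_one]
    exact (norm_sub_le _ _).trans (by linarith [hD _ (hx v)])
  have h1 : ∀ v w, ‖v‖ = 1 → ‖w‖ = 1 →
      ⟪x w - a, w⟫ - ⟪x v - a, v⟫ ≤ (D + ‖a‖) * ‖v - w‖ ^ 2 := by
    intro v w hv hw
    have h2 := hs v _ (hx w)
    rw [ha w hw, inner_add_left, real_inner_smul_left] at h2
    have h3 : ‖v - w‖ ^ 2 = 2 - 2 * ⟪w, v⟫ := by
      rw [norm_sub_sq_real, hv, hw, real_inner_comm]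
      ring
    have h4 : 0 ≤ ‖v - w‖ ^ 2 := sq_nonneg _
    have h5 := abs_le.1 (hb w hw)
    rw [inner_sub_left (x v), h3]
    rw [h3] at h4
    nlinarith [mul_le_mul_of_nonneg_right h5.2 h4, mul_le_mul_of_nonneg_right h5.1 h4]
  obtain ⟨ρ, hρ⟩ := const_of_sq hn (f := fun v => ⟪x v - a, v⟫) (C := D + ‖a‖) (by
    intro v w hv hw
    have h2 := h1 v w hv hw
    have h3 := h1 w v hw hv
    rw [norm_sub_rev] at h3
    rw [abs_le]
    constructor <;> linarith)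
  have hsub : K ⊆ Metric.closedBall a |ρ| := by
    intro y hy
    rw [mem_closedBall_iff_norm]
    by_cases hya : y - a = 0
    · rw [hya, norm_zero]
      exact abs_nonneg _
    have hv := norm_smul_inv_norm (𝕜 := ℝ) hya
    have h2 := hs ((‖y - a‖⁻¹ : ℝ) • (y - a)) y hy
    have h3 : ⟪x ((‖y - a‖⁻¹ : ℝ) • (y - a)) - a, (‖y - a‖⁻¹ : ℝ) • (y - a)⟫ = ρ := hρ _ hv
    have h4 : ⟪y - a, (‖y - a‖⁻¹ : ℝ) • (y - a)⟫ = ‖y - a‖ := by
      rw [real_inner_smul_right, real_inner_self_eq_norm_sq, sq, ← mul_assoc,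
        inv_mul_cancel₀ (norm_ne_zero_iff.2 hya), one_mul]
    rw [inner_sub_left] at h3 h4
    linarith [le_abs_self ρ]
  have hρ0 : 0 < |ρ| := by
    refine lt_of_le_of_ne (abs_nonneg _) fun h0 => ?_
    rw [← h0, Metric.closedBall_zero] at hsub
    have h2 := hK.int.mono (interior_mono hsub)
    have : Nontrivial (E n) := Module.nontrivial_of_finrank_pos (R := ℝ) (by
      rw [finrank_euclideanSpace_fin]
      omega)
    rw [interior_singleton] at h2
    exact Set.not_nonempty_empty h2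
  refine ⟨a, |ρ|, hρ0, Set.Subset.antisymm hsub ?_⟩
  have : Nontrivial (E n) := Module.nontrivial_of_finrank_pos (R := ℝ) (by
    rw [finrank_euclideanSpace_fin]
    omega)
  rw [← convexHull_sphere_eq_closedBall a hρ0.le]
  refine convexHull_min (fun y hy => ?_) hK.cvx
  rw [mem_sphere_iff_norm] at hy
  have hρ1 : ρ ≠ 0 := abs_pos.1 hρ0
  have hv : ‖ρ⁻¹ • (y - a)‖ = 1 := by
    rw [norm_smul, hy, Real.norm_eq_abs, abs_inv, inv_mul_cancel₀ hρ0.ne']
  have h2 := ha _ hv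
  have h3 : ⟪x (ρ⁻¹ • (y - a)) - a, ρ⁻¹ • (y - a)⟫ = ρ := hρ _ hv
  rw [h3, smul_smul, mul_inv_cancel₀ hρ1, one_smul, add_sub_cancel] at h2
  rw [← h2]
  exact hx _

end Crest.Agent.R230
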