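import Crest.Agent.R230.Dense

set_option autoImplicit false
open MeasureTheory Filter Topology
open scoped ENNReal RealInnerProductSpace Pointwise

namespace Crest.Agent.R230

variable {n : ℕ}

namespace DirichletAux

section Hilbert

variable {H : Type*} [NormedAddCommGroup H] [InnerProductSpace ℝ H]

theorem norm_res (g : H) (y : ℕ → H) (a : ℕ → ℝ) (h1 : ∀ k, ⟪g, y k⟫ = a k)
    (h2 : ∀ k, ⟪y k, y k⟫ = a k) (h3 : ∀ k l, k ≠ l → ⟪y k, y l⟫ = 0) (J : ℕ) :
    ‖g - ∑ k ∈ Finset.range J, y k‖ ^ 2 = ‖g‖ ^ 2 - ∑ k ∈ Finset.range J, a k := by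
  induction J with
  | zero => simp
  | succ J ih =>
    rw [Finset.sum_range_succ, Finset.sum_range_succ, ← sub_sub, norm_sub_sq_real, ih,
      inner_sub_left, sum_inner, h1, ← real_inner_self_eq_norm_sq (y J), h2,
      Finset.sum_eq_zero fun k hk => h3 k J (Finset.mem_range.1 hk).ne]
    ring

theorem weak (g V : H) (y : ℕ → H) (a : ℕ → ℝ) (h1 : ∀ k, ⟪g, y k⟫ = a k)
    (h2 : ∀ k, ⟪y k, y k⟫ = a k) (h3 : ∀ k l, k ≠ l → ⟪y k, y l⟫ = 0)
    (h4 : ∀ ε > 0, ∃ W : H, ‖V - W‖ ≤ ε ∧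
      ∀ᶠ J in atTop, ⟪W, g⟫ = ∑ k ∈ Finset.range J, ⟪W, y k⟫) :
    Tendsto (fun J => ∑ k ∈ Finset.range J, ⟪V, y k⟫) atTop (𝓝 ⟪V, g⟫) := by
  have hb : ∀ J, ‖g - ∑ k ∈ Finset.range J, y k‖ ≤ ‖g‖ := by
    intro J
    have h := norm_res g y a h1 h2 h3 J
    have ha : 0 ≤ ∑ k ∈ Finset.range J, a k :=
      Finset.sum_nonneg fun k _ => h2 k ▸ real_inner_self_nonneg
    exact (abs_le_of_sq_le_sq' (by linarith) (norm_nonneg g)).2
  rw [Metric.tendsto_nhds]
  intro ε hε
  have hg : 0 < ‖g‖ + 1 := by positivity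
  obtain ⟨W, hW, hJ⟩ := h4 (ε / (‖g‖ + 1)) (by positivity)
  filter_upwards [hJ] with J hJ
  rw [dist_comm, Real.dist_eq]
  have e : ⟪V, g⟫ - ∑ k ∈ Finset.range J, ⟪V, y k⟫ = ⟪V - W, g - ∑ k ∈ Finset.range J, y k⟫ := by
    rw [inner_sub_left, inner_sub_right, inner_sub_right, inner_sum, inner_sum, hJ]
    ring
  rw [e]
  refine (abs_real_inner_le_norm _ _).trans_lt ?_
  calc ‖V - W‖ * ‖g - ∑ k ∈ Finset.range J, y k‖ ≤ ε / (‖g‖ + 1) * ‖g‖ :=
        mul_le_mul hW (hb J) (norm_nonneg _) (by positivity)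
    _ < ε / (‖g‖ + 1) * (‖g‖ + 1) := by gcongr; linarith
    _ = ε := by field_simp

end Hilbert

theorem inner_toLp {α F : Type*} [MeasurableSpace α] {μ : Measure α} [NormedAddCommGroup F]
    [InnerProductSpace ℝ F] {f g : α → F} (hf : MemLp f 2 μ) (hg : MemLp g 2 μ) :
    ⟪hf.toLp f, hg.toLp g⟫ = ∫ p, ⟪f p, g p⟫ ∂μ := by
  rw [L2.inner_def]
  refine integral_congr_ae ?_
  filter_upwards [hf.coeFn_toLp, hg.coeFn_toLp] with p h1 h2
  rw [h1, h2]

theorem norm_toLp_sq {α F : Type*} [MeasurableSpace α] {μ : Measure α} [NormedAddCommGroup F]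
    [InnerProductSpace ℝ F] {f : α → F} (hf : MemLp f 2 μ) :
    ‖hf.toLp f‖ ^ 2 = ∫ p, ‖f p‖ ^ 2 ∂μ := by
  rw [← real_inner_self_eq_norm_sq, inner_toLp]
  simp only [real_inner_self_eq_norm_sq]

/-- the tangential gradient as an element of `L²` -/
noncomputable def tgL {f : E n → ℝ} (hf : Good f) : Lp (E n) 2 (sph n) :=
  (hf.memLp_tg 2).toLp (tg f)

theorem h1 {f : E n → ℝ} (hf : Good f) (k : ℕ) :
    ⟪tgL hf, tgL (good_ev (proj k f))⟫ = lam n k * ip k f f := by
  rw [tgL, tgL, inner_toLp, green hf (proj_mem k f), ip_eq hf.continuous]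

theorem h2 (f : E n → ℝ) (k : ℕ) :
    ⟪tgL (good_ev (proj k f)), tgL (good_ev (proj k f))⟫ = lam n k * ip k f f := by
  rw [tgL, inner_toLp, green (good_ev _) (proj_mem k f), ip]

theorem h3 (hn : 2 ≤ n) (f : E n → ℝ) (k l : ℕ) (hkl : k ≠ l) :
    ⟪tgL (good_ev (proj k f)), tgL (good_ev (proj l f))⟫ = 0 := by
  rw [tgL, tgL, inner_toLp, green (good_ev _) (proj_mem l f),
    harm_orth hn hkl (proj_mem k f) (proj_mem l f), mul_zero]

/-- polynomial vector fields -/
noncomputable def pv (W : Fin n → MP n) (p : E n) : E n := WithLp.toLp 2 fun i => ev (W i) p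

theorem continuous_pv (W : Fin n → MP n) : Continuous (pv W) :=
  (PiLp.continuous_toLp 2 _).comp (continuous_pi fun i => continuous_ev (W i))

theorem inner_pv (W : Fin n → MP n) {g : E n → ℝ} (hg : Good g) :
    ∫ p, ⟪pv W p, tg g p⟫ ∂sph n = ∑ i, ∫ p, ev (W i) p * tg g p i ∂sph n := by
  rw [← integral_finsetSum]
  · refine integral_congr_ae (Eventually.of_forall fun p => ?_)
    simp only [PiLp.inner_apply, pv, RCLike.inner_apply, conj_trivial]
    exact Finset.sum_congr rfl fun i _ => mul_comm _ _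
  · intro i _
    exact (memLp_of_continuous (continuous_ev (W i)) 2).integrable_mul
      ((hg.memLp_tg 2).eval_piLp i)

end DirichletAux

open DirichletAux

/-! Bessel's inequality for the Dirichlet form and weak convergence of gradients. -/

theorem dirichlet_bessel (hn : 2 ≤ n) {f : E n → ℝ} (hf : Good f) (J : ℕ) :
    ∑ k ∈ Finset.range J, lam n k * ip k f f ≤ ∫ p, ‖tg f p‖ ^ 2 ∂sph n := by
  have h := norm_res (tgL hf) (fun k => tgL (good_ev (proj k f))) _ (h1 hf) (h2 f) (h3 hn f) J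
  rw [← norm_toLp_sq (hf.memLp_tg 2)]
  have := sq_nonneg ‖tgL hf - ∑ k ∈ Finset.range J, tgL (good_ev (proj k f))‖
  rw [h] at this
  exact sub_nonneg.1 this

theorem tendsto_tg (hn : 2 ≤ n) {f : E n → ℝ} (hf : Good f) {V : E n → E n}
    (hV : MemLp V 2 (sph n)) :
    Tendsto (fun J => ∑ k ∈ Finset.range J, ∫ p, ⟪V p, tg (ev (proj k f)) p⟫ ∂sph n) atTop
      (𝓝 (∫ p, ⟪V p, tg f p⟫ ∂sph n)) := by
  have h := weak (tgL hf) (hV.toLp V) (fun k => tgL (good_ev (proj k f))) _ (h1 hf) (h2 f)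
    (h3 hn f) ?_
  · simpa only [tgL, inner_toLp] using h
  intro ε hε
  have hn0 : (0 : ℝ) < n := by exact_mod_cast (by omega : 0 < n)
  choose W hW using fun i : Fin n =>
    exists_poly_approx (hV.eval_piLp i) (ε := ε ^ 2 / n) (by positivity)
  have hWm : MemLp (pv W) 2 (sph n) := memLp_of_continuous (continuous_pv W) 2
  refine ⟨hWm.toLp _, ?_, ?_⟩
  · rw [← MemLp.toLp_sub]
    refine abs_le_of_sq_le_sq' ?_ hε.le |>.2
    rw [norm_toLp_sq]
    have e : ∀ p, ‖(V - pv W) p‖ ^ 2 = ∑ i, (V p i - ev (W i) p) ^ 2 := by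
      intro p
      rw [EuclideanSpace.real_norm_sq_eq]
      rfl
    simp only [e]
    rw [integral_finsetSum]
    · refine (Finset.sum_le_sum fun i _ => hW i).trans ?_
      simp only [Finset.sum_const, Finset.card_univ, Fintype.card_fin, nsmul_eq_mul]
      exact le_of_eq (by field_simp)
    · intro i _
      exact ((hV.eval_piLp i).sub (memLp_of_continuous (continuous_ev (W i)) 2)).integrable_sq
  · choose W' hW' using fun i : Fin n => exists_adjoint (W i) i
    choose J₀ hJ₀ using fun i : Fin n => residual_orth hn (W' i)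
    filter_upwards [eventually_ge_atTop (Finset.univ.sup J₀)] with J hJ
    simp only [tgL, inner_toLp, inner_pv W hf, inner_pv W (good_ev _), hW' _ _ hf,
      hW' _ _ (good_ev _)]
    rw [Finset.sum_comm]
    exact Finset.sum_congr rfl fun i _ =>
      hJ₀ i J ((Finset.le_sup (Finset.mem_univ i)).trans hJ) f hf.continuous

theorem tendsto_mul (hn : 2 ≤ n) {f : E n → ℝ} (hf : Continuous f) {v : E n → ℝ}
    (hv : MemLp v 2 (sph n)) :
    Tendsto (fun J => ∑ k ∈ Finset.range J, ∫ p, v p * ev (proj k f) p ∂sph n) atTop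
      (𝓝 (∫ p, v p * f p ∂sph n)) := by
  have hu : ∀ J, MemLp (fun p => f p - ∑ k ∈ Finset.range J, ev (proj k f) p) 2 (sph n) :=
    fun J => memLp_of_continuous (hf.sub (continuous_finsetSum _ fun k _ => continuous_ev _)) 2
  have h0 : Tendsto (fun J => ‖(hu J).toLp _‖) atTop (𝓝 0) := by
    have h := (tendsto_residual hn hf).sqrt
    rw [Real.sqrt_zero] at h
    refine h.congr fun J => ?_
    rw [← Real.sqrt_sq (norm_nonneg ((hu J).toLp _)), norm_toLp_sq]
    simp only [Real.norm_eq_abs, sq_abs]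
  have h1 : Tendsto (fun J => ⟪(hu J).toLp _, hv.toLp v⟫) atTop (𝓝 0) := by
    refine squeeze_zero_norm (fun J => norm_inner_le_norm _ _) ?_
    simpa using h0.mul_const ‖hv.toLp v‖
  have h2 := (tendsto_const_nhds (x := ∫ p, v p * f p ∂sph n)).sub h1
  rw [sub_zero] at h2
  refine h2.congr fun J => ?_
  rw [inner_toLp]
  simp only [RCLike.inner_apply, conj_trivial, mul_sub, Finset.mul_sum]
  rw [integral_sub, integral_finsetSum]
  · ring
  · intro k _
    exact hv.integrable_mul (memLp_of_continuous (continuous_ev _) 2)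
  · exact hv.integrable_mul (memLp_of_continuous hf 2)
  · exact integrable_finsetSum _ fun k _ =>
      hv.integrable_mul (memLp_of_continuous (continuous_ev _) 2)

end Crest.Agent.R230
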