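import Crest.Agent.R230.Stein

set_option autoImplicit false
open MeasureTheory Filter Topology
open scoped ENNReal RealInnerProductSpace Pointwise

namespace Crest.Agent.R230

variable {n : ℕ}

namespace NrmAux

theorem locLip (N : Seminorm ℝ (E n)) : LocallyLipschitz (fun x => N x) :=
  N.convexOn.locallyLipschitz

theorem exists_upper (N : Seminorm ℝ (E n)) : ∃ C : ℝ, 0 < C ∧ ∀ x, N x ≤ C * ‖x‖ :=
  Seminorm.bound_of_continuous_normedSpace N (locLip N).continuous

theorem exists_lip (N : Seminorm ℝ (E n)) : ∃ C : NNReal, LipschitzWith C (fun x => N x) := by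
  obtain ⟨C, hC, h⟩ := exists_upper N
  refine ⟨⟨C, hC.le⟩, LipschitzWith.of_dist_le_mul fun x y => ?_⟩
  rw [dist_eq_norm, dist_eq_norm]
  exact (N.norm_sub_map_le_sub x y).trans (h _)

theorem smul_pos (N : Seminorm ℝ (E n)) {t : ℝ} (ht : 0 ≤ t) (x : E n) :
    N (t • x) = t * N x := by
  rw [map_smul_eq_mul, Real.norm_of_nonneg ht]

/-- derivative along a line -/
theorem hasDerivAt_line (N : Seminorm ℝ (E n)) {p : E n}
    (hp : DifferentiableAt ℝ (fun x => N x) p) (y : E n) :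
    HasDerivAt (fun t : ℝ => N (p + t • y)) ⟪gradient (fun x => N x) p, y⟫ 0 := by
  rw [inner_gradient_left]
  have h1 : HasDerivAt (fun t : ℝ => p + t • y) y 0 := by
    simpa using ((hasDerivAt_id (0 : ℝ)).smul_const y).const_add p
  have h2 : HasFDerivAt (fun x => N x) (fderiv ℝ (fun x => N x) p) (p + (0 : ℝ) • y) := by
    simpa using hp.hasFDerivAt
  exact h2.comp_hasDerivAt 0 h1

/-- a seminorm bounded by `M` on the sphere is bounded by `M * ‖x‖` -/
theorem le_of_sphere (N : Seminorm ℝ (E n)) {M : ℝ} (h : ∀ x : E n, ‖x‖ = 1 → N x ≤ M)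
    (x : E n) : N x ≤ M * ‖x‖ := by
  rcases eq_or_ne x 0 with rfl | hx
  · simp
  have hn : 0 < ‖x‖ := norm_pos_iff.2 hx
  have h1 := h (‖x‖⁻¹ • x) (by
    rw [norm_smul, norm_inv, norm_norm, inv_mul_cancel₀ hn.ne'])
  rw [smul_pos N (inv_nonneg.2 hn.le), inv_mul_le_iff₀ hn] at h1
  linarith

theorem ge_of_sphere (N : Seminorm ℝ (E n)) {c : ℝ} (h : ∀ x : E n, ‖x‖ = 1 → c ≤ N x)
    (x : E n) : c * ‖x‖ ≤ N x := by
  rcases eq_or_ne x 0 with rfl | hx
  · simp
  have hn : 0 < ‖x‖ := norm_pos_iff.2 hx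
  have h1 := h (‖x‖⁻¹ • x) (by
    rw [norm_smul, norm_inv, norm_norm, inv_mul_cancel₀ hn.ne'])
  rw [smul_pos N (inv_nonneg.2 hn.le), le_inv_mul_iff₀ hn] at h1
  linarith

theorem exists_unit (hn : 1 ≤ n) : ∃ e : E n, ‖e‖ = 1 :=
  ⟨EuclideanSpace.single ⟨0, hn⟩ 1, by simp⟩

/-- the supporting functional at a maximum point -/
theorem inner_le_of_max (N : Seminorm ℝ (E n)) {e : E n} (he : ‖e‖ = 1)
    (hmax : ∀ x, N x ≤ N e * ‖x‖) (x : E n) : N e * ⟪x, e⟫ ≤ N x := by
  set M := N e with hM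
  set a := ⟪x, e⟫ with ha
  have hM0 : 0 ≤ M := apply_nonneg N e
  have key : ∀ t : ℝ, 0 < t → M * a ≤ N x + t * (M * ‖x‖ ^ 2) := by
    intro t ht
    have h1 : (1 + t * a) * M ≤ N ((1 + t * a) • e) := by
      rw [map_smul_eq_mul, Real.norm_eq_abs]
      exact mul_le_mul_of_nonneg_right (le_abs_self _) hM0
    have h2 : N ((1 + t * a) • e) ≤ N ((1 + t * a) • e - t • x) + N (t • x) := by
      have := map_add_le_add N ((1 + t * a) • e - t • x) (t • x)
      rwa [sub_add_cancel] at this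
    have h3 : ‖(1 + t * a) • e - t • x‖ ^ 2 = 1 + t ^ 2 * (‖x‖ ^ 2 - a ^ 2) := by
      rw [norm_sub_sq_real, norm_smul, norm_smul, inner_smul_left, inner_smul_right,
        real_inner_comm x e, ← ha, he, mul_pow, mul_pow, Real.norm_eq_abs, Real.norm_eq_abs,
        sq_abs, sq_abs]
      simp only [conj_trivial]
      ring
    have h4 : ‖(1 + t * a) • e - t • x‖ ≤ 1 + t ^ 2 * ‖x‖ ^ 2 := by
      have hq : 0 ≤ t ^ 2 * ‖x‖ ^ 2 := by positivity
      have hq' : 0 ≤ t ^ 2 * a ^ 2 := by positivity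
      refine le_of_sq_le_sq ?_ (by positivity)
      rw [h3]
      nlinarith [sq_nonneg (t ^ 2 * ‖x‖ ^ 2)]
    have h5 : N ((1 + t * a) • e - t • x) ≤ M * (1 + t ^ 2 * ‖x‖ ^ 2) :=
      (hmax _).trans (mul_le_mul_of_nonneg_left h4 hM0)
    rw [smul_pos N ht.le] at h2
    have h6 : t * (M * a) ≤ t * (N x + t * (M * ‖x‖ ^ 2)) := by nlinarith
    exact le_of_mul_le_mul_left h6 ht
  have hlim : Tendsto (fun t : ℝ => N x + t * (M * ‖x‖ ^ 2)) (𝓝[>] 0)
      (𝓝 (N x + 0 * (M * ‖x‖ ^ 2))) := by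
    apply Tendsto.mono_left _ nhdsWithin_le_nhds
    exact (continuous_const.add (continuous_id.mul continuous_const)).tendsto 0
  rw [zero_mul, add_zero] at hlim
  exact ge_of_tendsto hlim (eventually_nhdsWithin_of_forall fun t ht => key t ht)

end NrmAux

open NrmAux

/-! Norms on `E n`. -/

theorem nrm_continuous (N : Seminorm ℝ (E n)) : Continuous (fun x => N x) :=
  (locLip N).continuous

theorem nrm_good (N : Seminorm ℝ (E n)) : Good (fun x => N x) := by
  refine ⟨locLip N, ?_⟩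
  obtain ⟨C, hC⟩ := exists_lip N
  refine ae_of_cone (P := fun p => DifferentiableAt ℝ (fun x => N x) p)
    hC.ae_differentiableAt ?_
  intro x t ht h
  have h1 : (fun y => N y) = fun y => t⁻¹ * N (t • y) := by
    funext y
    rw [smul_pos N ht.le, ← mul_assoc, inv_mul_cancel₀ ht.ne', one_mul]
  rw [h1]
  have h2 : DifferentiableAt ℝ (fun y : E n => t • y) x := differentiableAt_id.const_smul t
  exact (h.comp x h2).const_mul _

theorem Pos.pos {N : Seminorm ℝ (E n)} (hN : Pos N) {x : E n} (hx : x ≠ 0) : 0 < N x :=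
  lt_of_le_of_ne (apply_nonneg N x) fun h => hx (hN x h.symm)

theorem Pos.exists_lower {N : Seminorm ℝ (E n)} (hN : Pos N) :
    ∃ c : ℝ, 0 < c ∧ ∀ x, c * ‖x‖ ≤ N x := by
  rcases (Metric.sphere (0 : E n) 1).eq_empty_or_nonempty with h | h
  · refine ⟨1, one_pos, ge_of_sphere N fun x hx => ?_⟩
    have : x ∈ Metric.sphere (0 : E n) 1 := by simpa using hx
    rw [h] at this
    exact this.elim
  · obtain ⟨e, he, hmin⟩ := (isCompact_sphere (0 : E n) 1).exists_isMinOn h
      (nrm_continuous N).continuousOn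
    have he1 : ‖e‖ = 1 := by simpa using he
    have he0 : e ≠ 0 := by
      rintro rfl
      simp at he1
    refine ⟨N e, hN.pos he0, ge_of_sphere N fun x hx => ?_⟩
    exact hmin (show x ∈ Metric.sphere (0 : E n) 1 by simpa using hx)

/-- Euler's identity -/
theorem nrm_euler (N : Seminorm ℝ (E n)) {p : E n} (hp : DifferentiableAt ℝ (fun x => N x) p) :
    ⟪gradient (fun x => N x) p, p⟫ = N p := by
  have h1 := hasDerivAt_line N hp p
  have h2 : HasDerivAt (fun t : ℝ => (1 + t) * N p) (N p) 0 := by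
    simpa using ((hasDerivAt_id (0 : ℝ)).const_add 1).mul_const (N p)
  have h3 : (fun t : ℝ => N (p + t • p)) =ᶠ[𝓝 0] fun t : ℝ => (1 + t) * N p := by
    have : ∀ᶠ t : ℝ in 𝓝 0, -1 < t := lt_mem_nhds (by norm_num)
    filter_upwards [this] with t ht
    rw [← smul_pos N (by linarith : 0 ≤ 1 + t), add_smul, one_smul]
  exact h1.unique (h2.congr_of_eventuallyEq h3)

/-- the gradient is a subgradient -/
theorem nrm_sub (N : Seminorm ℝ (E n)) (p y : E n) : ⟪gradient (fun x => N x) p, y⟫ ≤ N y := by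
  by_cases hp : DifferentiableAt ℝ (fun x => N x) p
  · have h1 := (hasDerivAt_line N hp y).tendsto_slope_zero_right
    refine le_of_tendsto h1 (eventually_nhdsWithin_of_forall fun t ht => ?_)
    have ht' : 0 < t := ht
    simp only [zero_add, zero_smul, add_zero, smul_eq_mul]
    rw [inv_mul_le_iff₀ ht', ← smul_pos N ht'.le]
    linarith [map_add_le_add N p (t • y)]
  · rw [gradient_eq_zero_of_not_differentiableAt hp, inner_zero_left]
    exact apply_nonneg N y

theorem nrm_gradient_eq (N : Seminorm ℝ (E n)) :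
    ∀ᵐ p ∂sph n, gradient (fun x => N x) p = tg (fun x => N x) p + N p • p := by
  filter_upwards [(nrm_good N).diff] with p hp
  rw [tg, nrm_euler N hp, sub_add_cancel]

/-- the maximum on the sphere and the direction where it is attained -/
theorem nrm_exists_max (hn : 1 ≤ n) (N : Seminorm ℝ (E n)) :
    ∃ (M : ℝ) (e : E n), 0 ≤ M ∧ ‖e‖ = 1 ∧ (∀ x, M * |⟪x, e⟫| ≤ N x) ∧
      ∀ p, ‖gradient (fun x => N x) p‖ ≤ M := by
  obtain ⟨e0, he0⟩ := exists_unit hn
  obtain ⟨e, he, hmax⟩ := (isCompact_sphere (0 : E n) 1).exists_isMaxOn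
    ⟨e0, by simpa using he0⟩ (nrm_continuous N).continuousOn
  have he1 : ‖e‖ = 1 := by simpa using he
  have hle : ∀ x, N x ≤ N e * ‖x‖ := le_of_sphere N fun x hx =>
    hmax (show x ∈ Metric.sphere (0 : E n) 1 by simpa using hx)
  refine ⟨N e, e, apply_nonneg N e, he1, fun x => ?_, fun p => ?_⟩
  · rcases abs_cases ⟪x, e⟫ with ⟨h, -⟩ | ⟨h, -⟩
    · rw [h]
      exact inner_le_of_max N he1 hle x
    · have := inner_le_of_max N he1 hle (-x)
      rwa [inner_neg_left, map_neg_eq_map, ← h] at this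
  · set g := gradient (fun x => N x) p with hg
    have h1 : ‖g‖ ^ 2 ≤ N e * ‖g‖ := by
      rw [← real_inner_self_eq_norm_sq]
      exact (nrm_sub N p g).trans (hle g)
    rcases (norm_nonneg g).eq_or_lt with h | h
    · rw [← h]
      exact apply_nonneg N e
    · rw [sq] at h1
      exact le_of_mul_le_mul_right h1 h

theorem mean_pos (hn : 1 ≤ n) {N : Seminorm ℝ (E n)} (hN : Pos N) : 0 < mean N := by
  obtain ⟨c, hc, h⟩ := hN.exists_lower
  have := sph_prob hn
  have h1 : ∫ _p, c ∂sph n ≤ mean N := by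
    refine integral_mono_ae (integrable_const c) (integrable_of_continuous (nrm_continuous N)) ?_
    filter_upwards [ae_norm] with p hp
    have := h p
    rwa [hp, mul_one] at this
  simp only [integral_const, probReal_univ, smul_eq_mul, one_mul] at h1
  linarith

theorem vr_pos (hn : 1 ≤ n) {N : Seminorm ℝ (E n)} (hN : Pos N) : 0 < vr N := by
  obtain ⟨C, hC, h⟩ := exists_upper N
  have := sph_prob hn
  have hc : ContinuousOn (fun p : E n => (N p)⁻¹ ^ n) {0}ᶜ :=
    ((nrm_continuous N).continuousOn.inv₀ fun x hx => (hN.pos hx).ne').pow n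
  have h1 : ∫ _p, C⁻¹ ^ n ∂sph n ≤ vr N := by
    refine integral_mono_ae (integrable_const _) (integrable_of_continuousOn hc) ?_
    filter_upwards [ae_norm] with p hp
    have hp0 : p ≠ 0 := by
      rintro rfl
      simp at hp
    have h2 := h p
    rw [hp, mul_one] at h2
    exact pow_le_pow_left₀ (inv_nonneg.2 hC.le) (inv_anti₀ (hN.pos hp0) h2) n
  simp only [integral_const, probReal_univ, smul_eq_mul, one_mul] at h1
  exact lt_of_lt_of_le (by positivity) h1

/-- `∫ ⟪p, u⟫ ∂ᵤ N = (n + 1) ∫ N ⟪p, u⟫² - ∫ N` -/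
theorem integral_inner_mul_gradient (N : Seminorm ℝ (E n)) {u : E n} (hu : ‖u‖ = 1) :
    ∫ p, ⟪p, u⟫ * ⟪gradient (fun x => N x) p, u⟫ ∂sph n =
      ((n : ℝ) + 1) * ∫ p, N p * ⟪p, u⟫ ^ 2 ∂sph n - mean N := by
  have hl : ContDiff ℝ 1 (fun p : E n => ⟪p, u⟫) := contDiff_id.inner ℝ contDiff_const
  have hld : ∀ p, DifferentiableAt ℝ (fun p : E n => ⟪p, u⟫) p := fun p =>
    hl.differentiable (by norm_num) p
  have hf : Good (fun p : E n => N p * ⟪p, u⟫) := (nrm_good N).mul (good_of_contDiff hl)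
  have hg : ∀ᵐ p ∂sph n, gradient (fun p : E n => N p * ⟪p, u⟫) p =
      N p • u + ⟪p, u⟫ • gradient (fun x => N x) p := by
    filter_upwards [(nrm_good N).diff] with p hp
    rw [gradient_mul' hp (hld p), gradient_inner]
  have hd : ∀ᵐ p ∂sph n, ⟪gradient (fun p : E n => N p * ⟪p, u⟫) p, p⟫ = 2 * (N p * ⟪p, u⟫) := by
    filter_upwards [(nrm_good N).diff, hg] with p hp hgp
    rw [hgp, inner_add_left, real_inner_smul_left, real_inner_smul_left, nrm_euler N hp,
      real_inner_comm p u]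
    ring
  have hs := stein_hom hf hd u
  have hI1 : Integrable (fun p : E n => N p) (sph n) :=
    integrable_of_continuous (nrm_continuous N)
  have hI2 : Integrable (fun p : E n => ⟪p, u⟫ * ⟪gradient (fun x => N x) p, u⟫) (sph n) := by
    have a1 : MemLp (fun p : E n => ⟪p, u⟫) 2 (sph n) := memLp_of_continuous hl.continuous 2
    have a2 : MemLp (fun p : E n => ⟪gradient (fun x => N x) p, u⟫) 2 (sph n) :=
      ((nrm_good N).memLp_gradient 2).inner_const u
    exact a1.integrable_mul a2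
  have e1 : ∫ p, ⟪gradient (fun p : E n => N p * ⟪p, u⟫) p, u⟫ ∂sph n =
      mean N + ∫ p, ⟪p, u⟫ * ⟪gradient (fun x => N x) p, u⟫ ∂sph n := by
    rw [mean, ← integral_add hI1 hI2]
    refine integral_congr_ae ?_
    filter_upwards [hg] with p hgp
    rw [hgp, inner_add_left, real_inner_smul_left, real_inner_smul_left,
      real_inner_self_eq_norm_sq, hu]
    ring
  have e2 : ∫ p, ⟪p, u⟫ * (N p * ⟪p, u⟫) ∂sph n = ∫ p, N p * ⟪p, u⟫ ^ 2 ∂sph n := by
    refine integral_congr_ae (Eventually.of_forall fun p => ?_)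
    ring
  rw [e1, e2] at hs
  linarith

end Crest.Agent.R230
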