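import Crest.Agent.R230.Mult
import Crest.Agent.R230.Dirichlet
import Crest.Agent.R230.Nrm

set_option autoImplicit false
open MeasureTheory Filter Topology
open scoped ENNReal RealInnerProductSpace Pointwise

namespace Crest.Agent.R230

variable {n : ℕ}

namespace BilinAux

theorem iso_sq {N : Seminorm ℝ (E n)} (hN : Iso N) (u : E n) :
    ∫ p, N p * ⟪p, u⟫ ^ 2 ∂sph n = ‖u‖ ^ 2 * (mean N / n) := by
  rcases eq_or_ne u 0 with rfl | hu
  · simp
  have h0 : ‖u‖ ≠ 0 := norm_ne_zero_iff.2 hu
  rw [← hN (‖u‖⁻¹ • u) (norm_smul_inv_norm hu), ← integral_const_mul]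
  refine integral_congr_ae (Eventually.of_forall fun p => ?_)
  simp only [real_inner_smul_right]
  field_simp

theorem iso_mul {N : Seminorm ℝ (E n)} (hN : Iso N) (u v : E n) :
    ∫ p, N p * (⟪p, u⟫ * ⟪p, v⟫) ∂sph n = ⟪u, v⟫ * (mean N / n) := by
  have hi : ∀ w : E n, Integrable (fun p => N p * ⟪p, w⟫ ^ 2) (sph n) := fun w =>
    integrable_of_continuous ((nrm_continuous N).mul (by fun_prop))
  have h1 : ∫ p, N p * (⟪p, u⟫ * ⟪p, v⟫) ∂sph n =
      ∫ p, 1 / 4 * (N p * ⟪p, u + v⟫ ^ 2 - N p * ⟪p, u - v⟫ ^ 2) ∂sph n := by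
    refine integral_congr_ae (Eventually.of_forall fun p => ?_)
    simp only [inner_add_right, inner_sub_right]
    ring
  rw [h1, integral_const_mul, integral_sub (hi _) (hi _), iso_sq hN, iso_sq hN, norm_add_sq_real,
    norm_sub_sq_real]
  ring

theorem iso_coord {N : Seminorm ℝ (E n)} (hN : Iso N) (i j : Fin n) :
    ∫ p, N p * (p i * p j) ∂sph n = if i = j then mean N / n else 0 := by
  have h := iso_mul hN (EuclideanSpace.single i 1) (EuclideanSpace.single j 1)
  simp only [EuclideanSpace.inner_single_right, conj_trivial, one_mul, PiLp.single_apply] at h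
  rw [h]
  by_cases hij : i = j
  · simp [hij]
  · simp [hij, Ne.symm hij]

theorem aesm_sg : AEStronglyMeasurable (fun z : E n × E n => sg ⟪z.1, z.2⟫)
    ((sph n).prod (sph n)) :=
  (measurable_sg.comp (measurable_fst.inner measurable_snd)).aestronglyMeasurable

theorem integrable_sg_smul {G : E n → E n} (hG : Integrable G (sph n)) (q : E n) :
    Integrable (fun p => sg ⟪p, q⟫ • G p) (sph n) := by
  refine hG.norm.mono' ((measurable_sg.comp (measurable_id.inner measurable_const)
    ).aestronglyMeasurable.smul hG.1) (Eventually.of_forall fun p => ?_)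
  rw [norm_smul, Real.norm_eq_abs]
  exact mul_le_of_le_one_left (norm_nonneg _) (abs_sg_le _)

/-- the transform with kernel `sg ⟪p, q⟫` -/
noncomputable def tr (G : E n → E n) (q : E n) : E n := ∫ p, sg ⟪p, q⟫ • G p ∂sph n

theorem memLp_tr {G : E n → E n} (hG : Integrable G (sph n)) : MemLp (tr G) 2 (sph n) := by
  refine memLp_of_bdd (C := ∫ p, ‖G p‖ ∂sph n) ?_ (Eventually.of_forall fun q => ?_) 2
  · exact AEStronglyMeasurable.integral_prod_right'
      (f := fun z : E n × E n => sg ⟪z.2, z.1⟫ • G z.2)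
      ((measurable_sg.comp (measurable_snd.inner measurable_fst)).aestronglyMeasurable.smul
        hG.1.comp_snd)
  · refine norm_integral_le_of_norm_le hG.norm (Eventually.of_forall fun p => ?_)
    rw [norm_smul, Real.norm_eq_abs]
    exact mul_le_of_le_one_left (norm_nonneg _) (abs_sg_le _)

theorem fubini {D G : E n → E n} (hD : Integrable D (sph n)) (hG : Integrable G (sph n)) :
    ∫ q, ⟪D q, tr G q⟫ ∂sph n = ∫ p, ⟪tr D p, G p⟫ ∂sph n := by
  have h1 : ∀ q, ⟪D q, tr G q⟫ = ∫ p, sg ⟪q, p⟫ * ⟪D q, G p⟫ ∂sph n := fun q => by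
    rw [tr, ← integral_inner (integrable_sg_smul hG q)]
    simp only [real_inner_smul_right, real_inner_comm q]
  have h2 : ∀ p, ⟪tr D p, G p⟫ = ∫ q, sg ⟪q, p⟫ * ⟪D q, G p⟫ ∂sph n := fun p => by
    rw [tr, real_inner_comm, ← integral_inner (integrable_sg_smul hD p)]
    simp only [real_inner_smul_right, real_inner_comm (G p)]
  simp only [h1, h2]
  refine integral_integral_swap ?_
  refine (hD.norm.mul_prod hG.norm).mono' (aesm_sg.mul (hD.1.comp_fst.inner hG.1.comp_snd))
    (Eventually.of_forall fun z => ?_)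
  change ‖sg ⟪z.1, z.2⟫ * ⟪D z.1, G z.2⟫‖ ≤ _
  rw [norm_mul, Real.norm_eq_abs]
  exact (mul_le_of_le_one_left (norm_nonneg _) (abs_sg_le _)).trans (norm_inner_le_norm _ _)

theorem memLp_inner_self {V : E n → E n} (hV : MemLp V 2 (sph n)) :
    MemLp (fun p => ⟪V p, p⟫) 2 (sph n) := by
  refine hV.of_le (hV.1.inner aestronglyMeasurable_id) ?_
  filter_upwards [ae_norm] with p hp
  simpa [hp] using norm_inner_le_norm (𝕜 := ℝ) (V p) p

theorem split {V : E n → E n} (hV : MemLp V 2 (sph n)) {f : E n → ℝ} (hf : Good f) :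
    ∫ p, ⟪V p, tg f p + f p • p⟫ ∂sph n =
      ∫ p, ⟪V p, tg f p⟫ ∂sph n + ∫ p, ⟪V p, p⟫ * f p ∂sph n := by
  have h1 : Integrable (fun p => ⟪V p, tg f p⟫) (sph n) := by
    refine (hV.norm.integrable_mul (hf.memLp_tg 2).norm).mono' (hV.1.inner (hf.memLp_tg 2).1)
      (Eventually.of_forall fun p => norm_inner_le_norm _ _)
  have h2 : Integrable (fun p => ⟪V p, p⟫ * f p) (sph n) :=
    (memLp_inner_self hV).integrable_mul (memLp_of_continuous hf.continuous 2)
  rw [← integral_add h1 h2]
  refine integral_congr_ae (Eventually.of_forall fun p => ?_)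
  simp only [inner_add_right, real_inner_smul_right]
  ring

theorem tendsto_sum (hn : 2 ≤ n) (N N' : Seminorm ℝ (E n)) :
    Tendsto (fun J => ∑ k ∈ Finset.range J, tm n k * ip k (fun x => N x) (fun x => N' x)) atTop
      (𝓝 (∫ q, ⟪gradient (fun x => N x) q, zv N' q⟫ ∂sph n)) := by
  have hD : Integrable (gradient fun x => N x) (sph n) :=
    memLp_one_iff_integrable.1 ((nrm_good N).memLp_gradient 1)
  have hD' : Integrable (gradient fun x => N' x) (sph n) :=
    memLp_one_iff_integrable.1 ((nrm_good N').memLp_gradient 1)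
  have hV := memLp_tr hD
  set V := tr (gradient fun x => N x) with hVdef
  have h1 : ∫ q, ⟪gradient (fun x => N x) q, zv N' q⟫ ∂sph n =
      ∫ p, ⟪V p, tg (fun x => N' x) p⟫ ∂sph n + ∫ p, ⟪V p, p⟫ * N' p ∂sph n := by
    rw [← split hV (nrm_good N')]
    refine (fubini hD hD').trans (integral_congr_ae ?_)
    filter_upwards [nrm_gradient_eq N'] with p hp
    rw [hp]
  have h2 : ∀ k, tm n k * ip k (fun x => N x) (fun x => N' x) =
      ∫ p, ⟪V p, tg (ev (proj k fun x => N' x)) p⟫ ∂sph n +
        ∫ p, ⟪V p, p⟫ * ev (proj k fun x => N' x) p ∂sph n := fun k => by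
    have hG : Integrable (fun p => tg (ev (proj k fun x => N' x)) p +
        ev (proj k fun x => N' x) p • p) (sph n) :=
      integrable_of_continuous ((continuous_tg_ev _).add ((continuous_ev _).smul continuous_id))
    rw [← split hV (good_ev _), ip_eq (nrm_continuous N),
      ← mult hn (nrm_good N) (proj_mem k fun x => N' x), ← fubini hD hG]
    refine integral_congr_ae ?_
    filter_upwards [nrm_gradient_eq N] with q hq
    rw [hq]
    rfl
  simp only [h1, h2, Finset.sum_add_distrib]
  exact (tendsto_tg hn (nrm_good N') hV).add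
    (tendsto_mul hn (nrm_continuous N') (memLp_inner_self hV))

theorem tail_bound (hn : 2 ≤ n) {f g : E n → ℝ} (hf : Continuous f) (hg : Continuous g) (J : ℕ) :
    -(cc n * s1 n * (√(tail f) * √(tail g))) ≤ ∑ k ∈ Finset.Ico 4 J, tm n k * ip k f g := by
  have hc : 0 ≤ cc n * s1 n := (abs_nonneg _).trans (abs_tm_le hn (le_refl 4))
  refine neg_le_of_abs_le ((Finset.abs_sum_le_sum_abs _ _).trans ?_)
  calc ∑ k ∈ Finset.Ico 4 J, |tm n k * ip k f g|
      ≤ ∑ k ∈ Finset.Ico 4 J, cc n * s1 n * (√(ip k f f) * √(ip k g g)) := by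
        refine Finset.sum_le_sum fun k hk => ?_
        rw [abs_mul, ← Real.sqrt_mul (ip_self_nonneg k f)]
        exact mul_le_mul (abs_tm_le hn (Finset.mem_Ico.1 hk).1) (Real.abs_le_sqrt (ip_sq_le k f g))
          (abs_nonneg _) hc
    _ ≤ cc n * s1 n * (√(tail f) * √(tail g)) := by
        rw [← Finset.mul_sum]
        refine mul_le_mul_of_nonneg_left ?_ hc
        refine (Real.sum_sqrt_mul_sqrt_le _ (fun k => ip_self_nonneg k f)
          fun k => ip_self_nonneg k g).trans ?_
        exact mul_le_mul (Real.sqrt_le_sqrt (sum_le_tail hn hf J))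
          (Real.sqrt_le_sqrt (sum_le_tail hn hg J)) (Real.sqrt_nonneg _) (Real.sqrt_nonneg _)

end BilinAux

open BilinAux

/-! The main bilinear inequality. -/

theorem Iso.ip_two (hn : 2 ≤ n) {N : Seminorm ℝ (E n)} (hN : Iso N) (g : E n → ℝ) :
    ip 2 (fun x => N x) g = 0 := by
  obtain ⟨a, ha, h⟩ := exists_of_mem_Harm_two (proj_mem 2 g)
  have hi : ∀ i j : Fin n, Integrable (fun p : E n => a i j * (N p * (p i * p j))) (sph n) :=
    fun i j => integrable_of_continuous
      (continuous_const.mul ((nrm_continuous N).mul (by fun_prop)))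
  have h1 : ∀ p : E n, N p * ev (proj 2 g) p = ∑ i, ∑ j, a i j * (N p * (p i * p j)) := fun p => by
    simp only [h, Finset.mul_sum]
    exact Finset.sum_congr rfl fun i _ => Finset.sum_congr rfl fun j _ => by ring
  rw [ip_eq (nrm_continuous N)]
  simp only [h1]
  rw [integral_finsetSum _ fun i _ => integrable_finsetSum _ fun j _ => hi i j]
  simp only [integral_finsetSum _ fun j _ => hi _ j, integral_const_mul, iso_coord hN, mul_ite,
    mul_zero, Finset.sum_ite_eq, Finset.mem_univ, if_true]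
  rw [← Finset.sum_mul, ha, zero_mul]

theorem bilin (hn : 2 ≤ n) (N N' : Seminorm ℝ (E n)) (hI : Iso N') {C : ℝ}
    (hz : ∀ q, N (zv N' q) ≤ C) :
    s1 n * (mean N * mean N' -
      cc n * (Real.sqrt (tail fun x => N x) * Real.sqrt (tail fun x => N' x))) ≤ C := by
  have := sph_prob (n := n) (by omega)
  have hB : ∫ q, ⟪gradient (fun x => N x) q, zv N' q⟫ ∂sph n ≤ C := by
    by_cases hi : Integrable (fun q => ⟪gradient (fun x => N x) q, zv N' q⟫) (sph n)
    · simpa using integral_mono hi (integrable_const C) fun q => (nrm_sub N q _).trans (hz q)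
    · rw [integral_undef hi]
      exact (apply_nonneg N _).trans (hz 0)
  refine le_trans (ge_of_tendsto (tendsto_sum hn N N') ?_) hB
  filter_upwards [eventually_ge_atTop 4] with J hJ
  have h1 := tail_bound hn (nrm_continuous N) (nrm_continuous N') J
  have h2 : ip 2 (fun x => N x) (fun x => N' x) = 0 := by rw [ip_comm, hI.ip_two hn]
  have h3 : ip 0 (fun x => N x) (fun x => N' x) = mean N * mean N' :=
    ip_zero hn (nrm_continuous N) (nrm_continuous N')
  have h4 : tm n 0 = s1 n := rfl
  rw [← Finset.sum_range_add_sum_Ico _ hJ]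
  simp only [Finset.sum_range_succ, Finset.sum_range_zero, tm_one, tm_three, h2, h3, h4]
  linarith

end Crest.Agent.R230
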