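import Crest.Agent.R230.BlkRatio

set_option autoImplicit false
open MeasureTheory Filter Topology
open scoped ENNReal RealInnerProductSpace Pointwise

namespace Crest.Agent.R230

variable {n : ℕ}

namespace BlkFinalAux

theorem sum_mem_of_le {V ι : Type*} [AddCommGroup V] [Module ℝ V] {C : Set V} (hC : Convex ℝ C)
    (h0 : (0 : V) ∈ C) (s : Finset ι) (w : ι → ℝ) (z : ι → V) (hw : ∀ i ∈ s, 0 ≤ w i)
    (h1 : ∑ i ∈ s, w i ≤ 1) (hz : ∀ i ∈ s, z i ∈ C) : ∑ i ∈ s, w i • z i ∈ C := by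
  have h := hC.sum_mem (t := s.insertNone) (w := fun o => o.elim (1 - ∑ i ∈ s, w i) w)
    (z := fun o => o.elim 0 z) ?_ ?_ ?_
  · simpa [Finset.sum_insertNone] using h
  · rintro (_ | i) hi
    · simpa using h1
    · exact hw i (by simpa using hi)
  · simp [Finset.sum_insertNone]
  · rintro (_ | i) hi
    · exact h0
    · exact hz i (by simpa using hi)

/-- vertices of the simplex of the block `j` -/
def vert (β : Fin n → ℕ) (j : ℕ) : Set (E n) :=
  insert 0 ((fun i => EuclideanSpace.single i (1 : ℝ)) '' {i | β i = j})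

theorem vert_finite (β : Fin n → ℕ) (j : ℕ) : (vert β j).Finite :=
  ((Set.toFinite _).image _).insert _

theorem vert_nonneg {β : Fin n → ℕ} {j : ℕ} {x : E n} (hx : x ∈ vert β j) (i : Fin n) :
    0 ≤ x i := by
  rcases hx with rfl | ⟨k, -, rfl⟩
  · simp
  · simp only [PiLp.single_apply]
    split_ifs <;> norm_num

theorem vert_sum {β : Fin n → ℕ} {j : ℕ} {x : E n} (hx : x ∈ vert β j) (l : ℕ) :
    ∑ i ∈ Finset.univ.filter (fun i => β i = l), x i ≤ if j = l then 1 else 0 := by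
  rcases hx with rfl | ⟨k, hk, rfl⟩
  · simp only [PiLp.zero_apply, Finset.sum_const_zero]
    split_ifs <;> norm_num
  · simp only [PiLp.single_apply, Finset.sum_ite_eq', Finset.mem_filter, Finset.mem_univ, true_and]
    rw [show β k = j from hk]

theorem one_le_cs (a : ℕ) : 1 ≤ cs a := by
  unfold cs
  have h1 : (0 : ℝ) < a.factorial := by exact_mod_cast a.factorial_pos
  have h2 : (a.factorial : ℝ) ≤ (a : ℝ) ^ a := by exact_mod_cast a.factorial_le_pow
  have h3 : (0 : ℝ) ≤ a := Nat.cast_nonneg a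
  rw [le_div_iff₀ h1]
  nlinarith

theorem cs_le (a : ℕ) : cs a ≤ ((a : ℝ) + 1) * (272 / 100) ^ a := by
  unfold cs
  rw [mul_div_assoc]
  refine mul_le_mul_of_nonneg_left ?_ (by positivity)
  refine (Real.pow_div_factorial_le_exp _ (Nat.cast_nonneg a) a).trans ?_
  rw [← Real.exp_one_pow]
  refine pow_le_pow_left₀ (Real.exp_pos 1).le ?_ a
  linarith [Real.exp_one_lt_d9]

theorem cs_ten : (14 / 5 : ℝ) ^ 10 ≤ cs 10 := by
  norm_num [cs, Nat.factorial]

theorem bs_ten {j : ℕ} (hj : j < n / 10) : bs (fun i : Fin n => (i : ℕ) / 10) j = 10 := by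
  unfold bs
  have h : (Finset.univ.filter (fun i : Fin n => (i : ℕ) / 10 = j)).map Fin.valEmbedding
      = Finset.Ico (10 * j) (10 * j + 10) := by
    ext k
    simp only [Finset.mem_map, Finset.mem_filter, Finset.mem_univ, true_and, Fin.valEmbedding_apply,
      Finset.mem_Ico]
    constructor
    · rintro ⟨i, hi, rfl⟩
      omega
    · intro hk
      exact ⟨⟨k, by omega⟩, by simp only; omega, rfl⟩
  have := congrArg Finset.card h
  rw [Finset.card_map, Nat.card_Ico] at this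
  exact this.trans (by omega)

theorem ratio_zero (hn : 1 ≤ n) : volume.real (PiB (Blk fun _ : Fin n => 0)) /
    volume.real (Blk fun _ : Fin n => 0) ^ (n - 1) = cs n := by
  have : Nonempty (Fin n) := ⟨⟨0, hn⟩⟩
  rw [ratio_Blk hn, Finset.image_const Finset.univ_nonempty, Finset.prod_singleton]
  simp [bs]

theorem ratio_ten (hn : 1 ≤ n) : (14 / 5 : ℝ) ^ (10 * (n / 10)) ≤
    volume.real (PiB (Blk fun i : Fin n => (i : ℕ) / 10)) /
      volume.real (Blk fun i : Fin n => (i : ℕ) / 10) ^ (n - 1) := by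
  rw [ratio_Blk hn]
  have hs : Finset.range (n / 10) ⊆ Finset.univ.image (fun i : Fin n => (i : ℕ) / 10) := by
    intro j hj
    rw [Finset.mem_range] at hj
    exact Finset.mem_image.2 ⟨⟨10 * j, by omega⟩, Finset.mem_univ _, by simp⟩
  calc (14 / 5 : ℝ) ^ (10 * (n / 10)) = ∏ _j ∈ Finset.range (n / 10), (14 / 5 : ℝ) ^ 10 := by
        rw [Finset.prod_const, Finset.card_range, pow_mul]
    _ ≤ ∏ j ∈ Finset.range (n / 10), cs (bs (fun i : Fin n => (i : ℕ) / 10) j) := by
        refine Finset.prod_le_prod (fun _ _ => by positivity) fun j hj => ?_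
        rw [bs_ten (Finset.mem_range.1 hj)]
        exact cs_ten
    _ ≤ _ := Finset.prod_le_prod_of_subset_of_one_le hs
        (fun _ _ => zero_le_one.trans (one_le_cs _)) fun _ _ _ => one_le_cs _

theorem numer : ∀ᶠ n : ℕ in atTop,
    (101 / 100 : ℝ) ^ n * (((n : ℝ) + 1) * (272 / 100) ^ n) ≤ (14 / 5 : ℝ) ^ (10 * (n / 10)) := by
  have h1 : Tendsto (fun n : ℕ => (n : ℝ) * (27472 / 28000 : ℝ) ^ n) atTop (𝓝 0) :=
    tendsto_self_mul_const_pow_of_lt_one (by norm_num) (by norm_num)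
  have h2 : Tendsto (fun n : ℕ => (27472 / 28000 : ℝ) ^ n) atTop (𝓝 0) :=
    tendsto_pow_atTop_nhds_zero_of_lt_one (by norm_num) (by norm_num)
  have h3 := (h1.add h2).mul_const ((14 / 5 : ℝ) ^ 9)
  rw [zero_add, zero_mul] at h3
  filter_upwards [h3.eventually_le_const one_pos] with n hn
  have h4 : (14 / 5 : ℝ) ^ n ≤ (14 / 5 : ℝ) ^ (10 * (n / 10)) * (14 / 5 : ℝ) ^ 9 := by
    rw [← pow_add]
    exact pow_le_pow_right₀ (by norm_num) (by omega)
  have h5 : (101 / 100 : ℝ) ^ n * (272 / 100) ^ n = (27472 / 28000 : ℝ) ^ n * (14 / 5) ^ n := by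
    rw [← mul_pow, ← mul_pow]
    norm_num
  have h6 : (0 : ℝ) ≤ ((n : ℝ) + 1) * (27472 / 28000 : ℝ) ^ n := by positivity
  have h7 : (0 : ℝ) ≤ (14 / 5 : ℝ) ^ (10 * (n / 10)) := by positivity
  calc (101 / 100 : ℝ) ^ n * (((n : ℝ) + 1) * (272 / 100) ^ n)
      = ((n : ℝ) + 1) * (27472 / 28000 : ℝ) ^ n * (14 / 5) ^ n := by
        rw [mul_assoc, ← h5]; ring
    _ ≤ ((n : ℝ) + 1) * (27472 / 28000 : ℝ) ^ n *
        ((14 / 5 : ℝ) ^ (10 * (n / 10)) * (14 / 5 : ℝ) ^ 9) := mul_le_mul_of_nonneg_left h4 h6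
    _ = (((n : ℝ) * (27472 / 28000 : ℝ) ^ n + (27472 / 28000 : ℝ) ^ n) * (14 / 5 : ℝ) ^ 9) *
        (14 / 5 : ℝ) ^ (10 * (n / 10)) := by ring
    _ ≤ 1 * (14 / 5 : ℝ) ^ (10 * (n / 10)) := mul_le_mul_of_nonneg_right hn h7
    _ = _ := one_mul _

end BlkFinalAux

open BlkFinalAux

/-! Products of simplices are polytopes; the two numerical statements. -/

theorem Blk_eq_convexHull (β : Fin n → ℕ) :
    ∃ S : Finset (E n), convexHull ℝ (S : Set (E n)) = Blk β := by
  have hU : (∑ j ∈ Finset.univ.image β, vert β j).Finite :=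
    Finset.sum_induction _ Set.Finite (fun _ _ => Set.Finite.add) Set.finite_zero
      fun j _ => vert_finite β j
  refine ⟨hU.toFinset, ?_⟩
  rw [Set.Finite.coe_toFinset]
  apply Set.Subset.antisymm
  · refine convexHull_min ?_ (body_Blk β).cvx
    intro x hx
    obtain ⟨g, hg, rfl⟩ := (Set.mem_finsetSum _ _ _).1 hx
    refine ⟨fun i => ?_, fun l => ?_⟩
    · rw [WithLp.ofLp_sum, Finset.sum_apply]
      exact Finset.sum_nonneg fun j hj => vert_nonneg (hg hj) i
    · simp only [WithLp.ofLp_sum, Finset.sum_apply]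
      rw [Finset.sum_comm]
      refine (Finset.sum_le_sum fun j hj => vert_sum (hg hj) l).trans ?_
      rw [Finset.sum_ite_eq']
      split_ifs <;> norm_num
  · rintro x ⟨h0, h1⟩
    rw [convexHull_sum, Set.mem_finsetSum]
    refine ⟨fun j => ∑ i ∈ Finset.univ.filter (fun i => β i = j),
      x i • EuclideanSpace.single i (1 : ℝ), fun {j} _ => ?_, ?_⟩
    · refine sum_mem_of_le (convex_convexHull ℝ _)
        (subset_convexHull ℝ _ (Set.mem_insert _ _)) _ _ _ (fun i _ => h0 i) (h1 j) fun i hi => ?_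
      exact subset_convexHull ℝ _ (Set.mem_insert_of_mem _ ⟨i, (Finset.mem_filter.1 hi).2, rfl⟩)
    · rw [Finset.sum_fiberwise_of_maps_to fun i hi => Finset.mem_image_of_mem β hi]
      ext k
      simp [WithLp.ofLp_sum, Finset.sum_apply, Pi.single_apply]

theorem Blk_zero (n : ℕ) :
    Blk (fun _ : Fin n => 0) = {x : E n | (∀ i, 0 ≤ x i) ∧ ∑ i, x i ≤ 1} := by
  ext x
  simp only [Blk, Set.mem_ofPred_eq]
  refine and_congr_right fun _ => ⟨fun h => by simpa using h 0, fun h j => ?_⟩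
  by_cases hj : 0 = j
  · simpa [hj] using h
  · simp [hj]

theorem ratio_twenty :
    volume.real (PiB (Blk fun i : Fin 20 => (i : ℕ) / 10)) /
        volume.real (Blk fun i : Fin 20 => (i : ℕ) / 10) ^ 19 =
      (21 * 20 ^ 20 / Nat.factorial 20 : ℝ) * (22355476 / 22020096) := by
  have h := ratio_Blk (n := 20) (by norm_num) (fun i : Fin 20 => (i : ℕ) / 10)
  have h1 : Finset.univ.image (fun i : Fin 20 => (i : ℕ) / 10) = {0, 1} := by decide
  rw [h1, Finset.prod_pair (by norm_num), bs_ten (by norm_num), bs_ten (by norm_num)] at h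
  refine h.trans ?_
  norm_num [cs, Nat.factorial]

theorem ratio_large : ∃ lam : ℝ, 1 < lam ∧ ∃ N : ℕ, 20 ≤ N ∧ ∀ n : ℕ, N ≤ n →
    lam ^ n * (volume.real (PiB (Blk fun _ : Fin n => 0)) /
        volume.real (Blk fun _ : Fin n => 0) ^ (n - 1)) ≤
      volume.real (PiB (Blk fun i : Fin n => (i : ℕ) / 10)) /
        volume.real (Blk fun i : Fin n => (i : ℕ) / 10) ^ (n - 1) := by
  obtain ⟨N, hN⟩ := eventually_atTop.1 numer
  refine ⟨101 / 100, by norm_num, max 20 N, le_max_left _ _, fun n hn => ?_⟩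
  have h1 : 1 ≤ n := by omega
  rw [ratio_zero h1]
  exact ((mul_le_mul_of_nonneg_left (cs_le n) (by positivity)).trans
    (hN n (by omega))).trans (ratio_ten h1)

end Crest.Agent.R230
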