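import Crest.Agent.R230.Defs

set_option autoImplicit false
open MeasureTheory Filter Topology
open scoped ENNReal RealInnerProductSpace Pointwise

namespace Crest.Agent.R230

variable {n : ℕ}

/-! Products of simplices: body, volume. -/

namespace BlkVolAux

/-- product of simplices of sizes `s j` -/
def S (β : Fin n → ℕ) (s : ℕ → ℝ) : Set (Fin n → ℝ) :=
  {x | (∀ i, 0 ≤ x i) ∧ ∀ j, ∑ i, (if β i = j then x i else 0) ≤ s j}

theorem isClosed_S (β : Fin n → ℕ) (s : ℕ → ℝ) : IsClosed (S β s) := by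
  rw [S, Set.ofPred_and, Set.ofPred_forall, Set.ofPred_forall]
  refine (isClosed_iInter fun i => isClosed_le continuous_const (continuous_apply i)).inter
    (isClosed_iInter fun j => isClosed_le (continuous_finsetSum _ fun i _ => ?_) continuous_const)
  split_ifs
  exacts [continuous_apply i, continuous_const]

theorem bs_succ (β : Fin (n + 1) → ℕ) (j : ℕ) :
    bs β j = bs (fun i => β i.succ) j + if β 0 = j then 1 else 0 := by
  simp only [bs, Finset.card_filter, Fin.sum_univ_succ]
  ring

theorem cons_mem (β : Fin (n + 1) → ℕ) (s : ℕ → ℝ) (t : ℝ) (y : Fin n → ℝ) :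
    (Fin.cons t y : Fin (n + 1) → ℝ) ∈ S β s ↔ t ∈ Set.Icc 0 (s (β 0)) ∧
      y ∈ S (fun i => β i.succ) fun j => s j - if β 0 = j then t else 0 := by
  simp only [S, Set.mem_ofPred_eq, Fin.forall_fin_succ, Fin.sum_univ_succ, Fin.cons_zero,
    Fin.cons_succ, Set.mem_Icc, le_sub_iff_add_le']
  refine ⟨fun ⟨⟨h1, h2⟩, h3⟩ => ⟨⟨h1, ?_⟩, h2, h3⟩, fun ⟨⟨h1, _⟩, h2, h3⟩ => ⟨⟨h1, h2⟩, h3⟩⟩
  have h4 := h3 (β 0)
  rw [if_pos rfl] at h4
  refine le_trans (le_add_of_nonneg_right (Finset.sum_nonneg fun i _ => ?_)) h4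
  split_ifs
  exacts [h2 i, le_rfl]

theorem volume_S (T : Finset ℕ) (n : ℕ) : ∀ (β : Fin n → ℕ) (s : ℕ → ℝ), (∀ i, β i ∈ T) →
    (∀ j, 0 ≤ s j) →
    volume (S β s) = ENNReal.ofReal (∏ j ∈ T, s j ^ bs β j / (bs β j).factorial) := by
  induction n with
  | zero =>
    intro β s _ hs
    have h : S β s = Set.univ := Set.eq_univ_of_forall fun x => ⟨fun i => i.elim0, by simpa using hs⟩
    simp [h, bs, volume_pi]
  | succ n ih =>
    intro β s hT hs
    have he := (volume_preserving_piFinSuccAbove (fun _ : Fin (n + 1) => ℝ) 0).symm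
    have hm := (isClosed_S β s).measurableSet
    obtain ⟨P, hP⟩ : ∃ P, P = ∏ j ∈ T.erase (β 0),
      s j ^ bs (fun i => β i.succ) j / (bs (fun i => β i.succ) j).factorial := ⟨_, rfl⟩
    obtain ⟨a, ha⟩ : ∃ a, a = bs (fun i => β i.succ) (β 0) := ⟨_, rfl⟩
    have hP0 : 0 ≤ P := hP ▸ Finset.prod_nonneg fun j _ => div_nonneg (pow_nonneg (hs j) _)
      (Nat.cast_nonneg _)
    have h1 : ∀ t : ℝ, volume (Prod.mk t ⁻¹'
        ((MeasurableEquiv.piFinSuccAbove (fun _ : Fin (n + 1) => ℝ) 0).symm ⁻¹' S β s)) =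
        (Set.Icc 0 (s (β 0))).indicator
          (fun t => ENNReal.ofReal ((s (β 0) - t) ^ a / a.factorial * P)) t := by
      intro t
      have h2 : ∀ y, y ∈ Prod.mk t ⁻¹'
          ((MeasurableEquiv.piFinSuccAbove (fun _ : Fin (n + 1) => ℝ) 0).symm ⁻¹' S β s) ↔ _ :=
        fun y => Iff.trans (by simp [Fin.insertNthEquiv]) (cons_mem β s t y)
      by_cases ht : t ∈ Set.Icc 0 (s (β 0))
      · rw [Set.indicator_of_mem ht, Set.ext fun y => (h2 y).trans (and_iff_right ht),
          ih _ _ (fun i => hT _), ← Finset.mul_prod_erase T _ (hT 0), if_pos rfl, ha, hP]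
        · congr 2
          refine Finset.prod_congr rfl fun j hj => ?_
          rw [if_neg (Finset.ne_of_mem_erase hj).symm, sub_zero]
        · intro j
          split_ifs with h
          exacts [h ▸ sub_nonneg.2 ht.2, by simpa using hs j]
      · rw [Set.indicator_of_notMem ht,
          Set.eq_empty_of_forall_notMem fun y hy => ht ((h2 y).1 hy).1, measure_empty]
    have hc : Continuous fun t : ℝ => (s (β 0) - t) ^ a / a.factorial * P := by fun_prop
    rw [← he.measure_preimage hm.nullMeasurableSet, Measure.volume_eq_prod,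
      Measure.prod_apply (he.measurable hm), lintegral_congr h1,
      lintegral_indicator measurableSet_Icc, ← ofReal_integral_eq_lintegral_ofReal
        hc.integrableOn_Icc ((ae_restrict_mem measurableSet_Icc).mono fun t ht =>
          mul_nonneg (div_nonneg (pow_nonneg (sub_nonneg.2 ht.2) _) (Nat.cast_nonneg _)) hP0),
      integral_Icc_eq_integral_Ioc, ← intervalIntegral.integral_of_le (hs _),
      intervalIntegral.integral_mul_const, intervalIntegral.integral_div,
      intervalIntegral.integral_comp_sub_left (fun t => t ^ a), integral_pow,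
      ← Finset.mul_prod_erase T _ (hT 0), bs_succ, if_pos rfl, ← ha, hP]
    congr 2
    · rw [Nat.factorial_succ]
      simp [div_div]
    · refine Finset.prod_congr rfl fun j hj => ?_
      rw [bs_succ β j, if_neg (Finset.ne_of_mem_erase hj).symm, add_zero]

theorem Blk_eq (β : Fin n → ℕ) : Blk β = WithLp.ofLp ⁻¹' S β fun _ => 1 := by
  ext x
  simp only [Blk, S, Set.mem_ofPred_eq, Set.mem_preimage, Finset.sum_filter]

end BlkVolAux

open BlkVolAux

theorem body_Blk (β : Fin n → ℕ) : Body (Blk β) := by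
  refine ⟨?_, fun x hx y hy a b ha hb hab => ⟨fun i => ?_, fun j => ?_⟩, ?_⟩
  · refine Metric.isCompact_of_isClosed_isBounded ?_ (isBounded_iff_forall_norm_le.2
      ⟨√n, fun x hx => ?_⟩)
    · rw [Blk_eq]
      exact (isClosed_S _ _).preimage (PiLp.continuous_ofLp _ _)
    · rw [EuclideanSpace.norm_eq]
      refine Real.sqrt_le_sqrt ((Finset.sum_le_card_nsmul _ _ 1 fun i _ => ?_).trans (by simp))
      rw [Real.norm_of_nonneg (hx.1 i)]
      exact pow_le_one₀ (hx.1 i) (le_trans (Finset.single_le_sum (fun k _ => hx.1 k)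
        (by simp)) (hx.2 (β i)))
  · exact add_nonneg (mul_nonneg ha (hx.1 i)) (mul_nonneg hb (hy.1 i))
  · simp only [PiLp.add_apply, PiLp.smul_apply, smul_eq_mul, Finset.sum_add_distrib,
      ← Finset.mul_sum]
    linarith [mul_le_mul_of_nonneg_left (hx.2 j) ha, mul_le_mul_of_nonneg_left (hy.2 j) hb]
  · have hU : IsOpen {x : E n | (∀ i, 0 < x i) ∧ ∑ i, x i < 1} := by
      rw [Set.ofPred_and, Set.ofPred_forall]
      exact (isOpen_iInter_of_finite fun i => isOpen_lt continuous_const (by fun_prop)).inter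
        (isOpen_lt (by fun_prop) continuous_const)
    have hs : {x : E n | (∀ i, 0 < x i) ∧ ∑ i, x i < 1} ⊆ Blk β :=
      fun x hx => ⟨fun i => (hx.1 i).le, fun j => (Finset.sum_le_sum_of_subset_of_nonneg
        (Finset.filter_subset _ _) fun i _ _ => (hx.1 i).le).trans hx.2.le⟩
    refine ⟨WithLp.toLp 2 fun _ => 1 / ((n : ℝ) + 1), interior_maximal hs hU
      ⟨fun i => by simp only []; positivity, ?_⟩⟩
    simp only [Finset.sum_const, Finset.card_univ, Fintype.card_fin, nsmul_eq_mul]
    rw [mul_one_div, div_lt_one (by positivity)]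
    exact lt_add_one _

theorem volume_Blk (β : Fin n → ℕ) :
    volume.real (Blk β) = ∏ j ∈ Finset.univ.image β, ((bs β j).factorial : ℝ)⁻¹ := by
  rw [Measure.real, Blk_eq, (PiLp.volume_preserving_ofLp (Fin n)).measure_preimage
    (isClosed_S _ _).measurableSet.nullMeasurableSet, volume_S (Finset.univ.image β) n β _
      (fun i => Finset.mem_image_of_mem _ (Finset.mem_univ i)) fun _ => zero_le_one,
    ENNReal.toReal_ofReal (Finset.prod_nonneg fun j _ => by positivity)]
  simp only [one_pow, one_div]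

end Crest.Agent.R230
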