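import Crest.Agent.R230.Bright
import Crest.Agent.R230.BlkVol

set_option autoImplicit false
open MeasureTheory Filter Topology
open scoped ENNReal RealInnerProductSpace Pointwise

namespace Crest.Agent.R230

variable {n : ℕ}

/-! Brightness of a product of simplices. -/

namespace BlkPtAux

theorem vol_le (β : Fin n → ℕ) (l : E n) (s : ℕ → ℝ) (hs : ∀ i, 0 < s (β i)) {S : Set (E n)}
    (hS : ∀ x ∈ S, (∀ i, l i ≤ x i) ∧
      ∀ j, ∑ i ∈ Finset.univ.filter (fun i => β i = j), (x i - l i) ≤ s j) :
    volume.real S ≤ (∏ i, s (β i)) * volume.real (Blk β) := by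
  set D : E n →ₗ[ℝ] E n := Matrix.toLin (EuclideanSpace.basisFun (Fin n) ℝ).toBasis
    (EuclideanSpace.basisFun (Fin n) ℝ).toBasis (Matrix.diagonal fun i => s (β i)) with hD
  have hD' : ∀ y i, D y i = s (β i) * y i := fun y i => by
    simp [hD, Matrix.toLin_apply, Matrix.mulVec_diagonal, Pi.single_apply]
  have h1 : volume (l +ᵥ D '' Blk β) = ENNReal.ofReal (∏ i, s (β i)) * volume (Blk β) := by
    rw [measure_vadd, Measure.addHaar_image_linearMap, hD, LinearMap.det_toLin,
      Matrix.det_diagonal, abs_of_pos (Finset.prod_pos fun i _ => hs i)]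
  have h2 : S ⊆ l +ᵥ D '' Blk β := fun x hx => by
    refine ⟨_, ⟨WithLp.toLp 2 fun i => (x i - l i) / s (β i), ⟨fun i => ?_, fun j => ?_⟩, rfl⟩, ?_⟩
    · exact div_nonneg (sub_nonneg.2 ((hS x hx).1 i)) (hs i).le
    · rcases (Finset.univ.filter fun i => β i = j).eq_empty_or_nonempty with h | ⟨k, hk⟩
      · simp [h]
      · obtain rfl : β k = j := (Finset.mem_filter.1 hk).2
        rw [Finset.sum_congr rfl (g := fun i => (x i - l i) / s (β k)) fun i hi => by
          rw [← (Finset.mem_filter.1 hi).2], ← Finset.sum_div, div_le_one (hs k)]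
        exact (hS x hx).2 _
    · ext i
      have := (hs i).ne'
      simp only [vadd_eq_add, PiLp.add_apply, hD']
      field_simp
      ring
  refine (measureReal_mono h2 ?_).trans_eq ?_
  · rw [h1]
    exact ENNReal.mul_ne_top ENNReal.ofReal_ne_top (body_Blk β).cpt.measure_lt_top.ne
  · rw [measureReal_def, h1, ENNReal.toReal_mul,
      ENNReal.toReal_ofReal (Finset.prod_pos fun i _ => hs i).le, measureReal_def]

theorem tendsto_prod (a : Fin n → ℝ) :
    Tendsto (fun t : ℝ => t⁻¹ * (∏ i, (1 + t * a i) - 1)) (𝓝[>] 0) (𝓝 (∑ i, a i)) := by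
  have h := HasDerivAt.fun_finsetProd (u := Finset.univ) (x := (0 : ℝ))
    (f := fun i t => 1 + t * a i) (f' := a) fun i _ => by
      simpa using ((hasDerivAt_id (0 : ℝ)).mul_const (a i)).const_add 1
  simpa using h.tendsto_slope_zero_right

end BlkPtAux

open BlkPtAux

theorem Pt_Blk (hn : 1 ≤ n) (β : Fin n → ℕ) (v : E n) :
    Pt (Blk β) v = volume.real (Blk β) * ∑ j ∈ Finset.univ.image β, (bs β j : ℝ) *
      ((∑ i ∈ Finset.univ.filter (fun i => β i = j), |v i| +
        |∑ i ∈ Finset.univ.filter (fun i => β i = j), v i|) / 2) := by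
  set φ : ℕ → ℝ := fun j => (∑ i ∈ Finset.univ.filter (fun i => β i = j), |v i| +
    |∑ i ∈ Finset.univ.filter (fun i => β i = j), v i|) / 2 with hφ
  have hφ0 : ∀ j, 0 ≤ φ j := fun j =>
    div_nonneg (add_nonneg (Finset.sum_nonneg fun _ _ => abs_nonneg _) (abs_nonneg _)) two_pos.le
  have hK := body_Blk β
  have h0 : ∑ j ∈ Finset.univ.image β, (bs β j : ℝ) * φ j = ∑ i, φ (β i) := by
    rw [Finset.sum_comp φ β]
    simp [bs]
  have hseg : ∀ t : ℝ, 0 < t → volume.real (Blk β + segment ℝ 0 (t • v)) =
      volume.real (Blk β) + t * Pt (Blk β) v := fun t ht => by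
    rw [volume_add_segment hn hK.cpt hK.cvx, Pt_smul, abs_of_pos ht]
  change _ = _ * ∑ j ∈ Finset.univ.image β, (bs β j : ℝ) * φ j
  rw [h0]
  refine le_antisymm ?_ ?_
  · refine ge_of_tendsto ((tendsto_prod fun i => φ (β i)).const_mul _) ?_
    filter_upwards [self_mem_nhdsWithin] with t (ht : 0 < t)
    have h1 := vol_le β (WithLp.toLp 2 fun i => -(t * ((|v i| - v i) / 2))) (fun j => 1 + t * φ j)
      (fun i => by have := hφ0 (β i); positivity) (S := Blk β + segment ℝ 0 (t • v)) (by
        rintro _ ⟨y, hy, _, ⟨a, b, ha, hb, hab, rfl⟩, rfl⟩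
        refine ⟨fun i => ?_, fun j => ?_⟩
        · have h2 := hy.1 i
          have h3 : 0 ≤ b * v i + (|v i| - v i) / 2 := by
            rcases abs_cases (v i) with h | h <;> nlinarith
          have h4 := mul_nonneg ht.le h3
          simp only [smul_zero, zero_add, PiLp.add_apply, PiLp.smul_apply, smul_eq_mul]
          linarith
        · have h2 := hy.2 j
          simp only [smul_zero, zero_add, PiLp.add_apply, PiLp.smul_apply, smul_eq_mul,
            sub_neg_eq_add, Finset.sum_add_distrib, ← Finset.mul_sum, ← Finset.sum_div,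
            Finset.sum_sub_distrib, hφ]
          generalize ∑ i ∈ Finset.univ.filter (fun i => β i = j), v i = S
          have h3 : b * S - S / 2 ≤ |S| / 2 := by
            rcases abs_cases S with h | h <;> nlinarith
          have h4 := mul_le_mul_of_nonneg_left h3 ht.le
          linarith)
    rw [hseg t ht] at h1
    rw [mul_left_comm, le_inv_mul_iff₀ ht]
    linarith
  · have h1 := ((tendsto_prod fun i => -φ (β i)).const_mul (volume.real (Blk β))).neg
    rw [Finset.sum_neg_distrib, mul_neg, neg_neg] at h1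
    refine le_of_tendsto h1 ?_
    have h2 : ∀ᶠ t : ℝ in 𝓝[>] 0, ∀ i, 0 < 1 + t * -φ (β i) := eventually_all.2 fun i =>
      nhdsWithin_le_nhds ((by fun_prop : Continuous fun t : ℝ => 1 + t * -φ (β i)).tendsto' 0 1
        (by simp) |>.eventually (lt_mem_nhds one_pos))
    filter_upwards [self_mem_nhdsWithin, h2] with t (ht : 0 < t) h2
    have h3 := vol_le β (WithLp.toLp 2 fun i => t * ((|v i| + v i) / 2)) (fun j => 1 + t * -φ j)
      h2 (S := Blk β ∩ (t • v +ᵥ Blk β)) (by
        rintro _ ⟨hx, y, hy, rfl⟩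
        refine ⟨fun i => ?_, fun j => ?_⟩
        · have h4 := hx.1 i
          have h5 := hy.1 i
          simp only [vadd_eq_add, PiLp.add_apply, PiLp.smul_apply, smul_eq_mul] at h4 ⊢
          rcases abs_cases (v i) with h | h <;> rw [h.1] <;> linarith
        · have h4 := hx.2 j
          have h5 := hy.2 j
          simp only [vadd_eq_add, PiLp.add_apply, PiLp.smul_apply, smul_eq_mul,
            Finset.sum_add_distrib, ← Finset.mul_sum, ← Finset.sum_div,
            Finset.sum_sub_distrib, hφ] at h4 ⊢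
          generalize ∑ i ∈ Finset.univ.filter (fun i => β i = j), v i = S at h4 ⊢
          rcases abs_cases S with h | h <;> rw [h.1] <;> linarith)
    have h4 := measureReal_union_add_inter (μ := volume) (s := Blk β)
      (hK.cpt.vadd (t • v)).measurableSet hK.cpt.measure_lt_top.ne
      (hK.cpt.vadd (t • v)).measure_lt_top.ne
    have h5 : volume.real (t • v +ᵥ Blk β) = volume.real (Blk β) := by
      rw [measureReal_def, measure_vadd, measureReal_def]
    have h6 : volume.real (Blk β ∪ (t • v +ᵥ Blk β)) ≤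
        volume.real (Blk β + segment ℝ 0 (t • v)) := by
      refine measureReal_mono ?_ (hK.cpt.add (BrightAux.isCompact_segment _ _)).measure_lt_top.ne
      rintro x (hx | ⟨y, hy, rfl⟩)
      · exact ⟨x, hx, 0, left_mem_segment _ _ _, add_zero x⟩
      · exact ⟨y, hy, _, right_mem_segment _ _ _, add_comm _ _⟩
    rw [hseg t ht] at h6
    rw [mul_left_comm, ← mul_neg, inv_mul_le_iff₀ ht]
    linarith

end Crest.Agent.R230
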