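import Crest.Agent.R230.Defs

set_option autoImplicit false
open MeasureTheory Filter Topology
open scoped ENNReal RealInnerProductSpace Pointwise

namespace Crest.Agent.R230

variable {n : ℕ}

/-! Volume of the product of zonotopes. -/

namespace ZbVolAux

variable {J : Type}

/-- the value at the chosen coordinate (zero if there is none) -/
def mn (o : Option (Fin n)) : (Fin n → ℝ) →ₗ[ℝ] ℝ := o.elim 0 fun k => LinearMap.proj k

@[simp] theorem mn_none (x : Fin n → ℝ) : mn none x = 0 := rfl

@[simp] theorem mn_some (k : Fin n) (x : Fin n → ℝ) : mn (some k) x = x k := rfl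

/-- the linear involution that maps a piece onto the unit cube -/
def L (p : Fin n → Option (Fin n)) : (Fin n → ℝ) →ₗ[ℝ] (Fin n → ℝ) :=
  LinearMap.pi fun i => if p i = some i then -LinearMap.proj i else LinearMap.proj i - mn (p i)

theorem L_apply (p : Fin n → Option (Fin n)) (x : Fin n → ℝ) (i : Fin n) :
    L p x i = if p i = some i then -x i else x i - mn (p i) x := by
  unfold L
  rw [LinearMap.pi_apply]
  split_ifs <;> rfl

theorem vol_L {p : Fin n → Option (Fin n)} (hp : ∀ i k, p i = some k → p k = some k)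
    (s : Set (Fin n → ℝ)) : volume (L p ⁻¹' s) = volume s := by
  have h1 : L p * L p = 1 := by
    refine LinearMap.ext fun x => funext fun i => ?_
    rw [Module.End.mul_apply, Module.End.one_apply, L_apply, L_apply]
    split_ifs with h
    · exact neg_neg _
    · cases h2 : p i with
      | none => simp
      | some k => rw [mn_some, mn_some, L_apply, if_pos (hp i k h2)]; ring
  have h2 : LinearMap.det (L p) * LinearMap.det (L p) = 1 := by rw [← map_mul, h1, map_one]
  have h3 : |(LinearMap.det (L p))⁻¹| = 1 := by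
    rcases mul_self_eq_one_iff.1 h2 with h | h <;> rw [h] <;> norm_num
  rw [Measure.addHaar_preimage_linearMap volume (left_ne_zero_of_mul_eq_one h2), h3,
    ENNReal.ofReal_one, one_mul]

/-- the unit cube -/
def cube (n : ℕ) : Set (Fin n → ℝ) := Set.pi Set.univ fun _ => Set.Icc 0 1

theorem mem_piece {p : Fin n → Option (Fin n)} (hp : ∀ i k, p i = some k → p k = some k)
    {x : Fin n → ℝ} (hx : x ∈ L p ⁻¹' cube n) (i : Fin n) :
    -1 ≤ mn (p i) x ∧ mn (p i) x ≤ 0 ∧ mn (p i) x ≤ x i ∧ x i ≤ mn (p i) x + 1 := by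
  have h : ∀ i, 0 ≤ L p x i ∧ L p x i ≤ 1 := fun i => hx i (Set.mem_univ i)
  have h1 := h i
  rw [L_apply] at h1
  cases h2 : p i with
  | none =>
    rw [h2, if_neg (by simp), mn_none] at h1
    rw [mn_none]
    exact ⟨by norm_num, le_rfl, by linarith, by linarith⟩
  | some k =>
    have h3 := h k
    rw [L_apply, if_pos (hp i k h2)] at h3
    rw [mn_some]
    refine ⟨by linarith, by linarith, ?_⟩
    split_ifs at h1 with h4
    · obtain rfl : k = i := Option.some.inj (h2.symm.trans h4)
      exact ⟨le_rfl, by linarith⟩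
    · rw [h2, mn_some] at h1
      exact ⟨by linarith, by linarith⟩

theorem vol_Z [Fintype J] [DecidableEq J] (b : Fin n → J) :
    MeasurableSet {x : Fin n → ℝ | (∀ i, |x i| ≤ 1) ∧ ∀ i k, b i = b k → |x i - x k| ≤ 1} ∧
    volume {x : Fin n → ℝ | (∀ i, |x i| ≤ 1) ∧ ∀ i k, b i = b k → |x i - x k| ≤ 1} =
      (∏ j, ((Finset.univ.filter fun i => b i = j).card + 1) : ℕ) := by
  set T : Finset (J → Option (Fin n)) :=
    Fintype.piFinset fun j => Finset.insertNone (Finset.univ.filter fun i => b i = j) with hT
  have hmem : ∀ g, g ∈ T ↔ ∀ j k, g j = some k → b k = j := fun g => by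
    simp [hT, Fintype.mem_piFinset, Finset.mem_insertNone]
  have hp : ∀ g ∈ T, ∀ i k, g (b i) = some k → g (b k) = some k := fun g hg i k h => by
    rw [(hmem g).1 hg _ _ h, h]
  have hU : {x : Fin n → ℝ | (∀ i, |x i| ≤ 1) ∧ ∀ i k, b i = b k → |x i - x k| ≤ 1} =
      ⋃ g ∈ T, L (fun i => g (b i)) ⁻¹' cube n := by
    ext x
    simp only [Set.mem_iUnion, Set.mem_ofPred_eq]
    constructor
    · rintro ⟨h1, h2⟩
      choose g hg hmin using fun j : J => Finset.exists_min_image
        (Finset.insertNone (Finset.univ.filter fun i => b i = j)) (fun o => mn o x)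
        ⟨none, Finset.none_mem_insertNone⟩
      have hgT : g ∈ T := Fintype.mem_piFinset.2 hg
      refine ⟨g, hgT, fun i _ => ?_⟩
      have h3 : mn (g (b i)) x ≤ 0 := hmin (b i) none Finset.none_mem_insertNone
      have h4 : mn (g (b i)) x ≤ x i := hmin (b i) (some i) (by simp)
      have h5 := abs_le.1 (h1 i)
      rw [L_apply]
      split_ifs with h
      · rw [h, mn_some] at h3
        exact ⟨by linarith, by linarith⟩
      · refine ⟨by linarith, ?_⟩
        cases h6 : g (b i) with
        | none => rw [mn_none]; linarith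
        | some k => exact (abs_le.1 (h2 i k ((hmem g).1 hgT _ _ h6).symm)).2
    · rintro ⟨g, hg, hx⟩
      have h := mem_piece (hp g hg) hx
      refine ⟨fun i => abs_le.2 ⟨by linarith [h i], by linarith [h i]⟩, fun i k hik => ?_⟩
      have h1 := h i
      have h2 := h k
      simp only [← hik] at h2
      exact abs_le.2 ⟨by linarith, by linarith⟩
  have hm : ∀ g : J → Option (Fin n), MeasurableSet (L (fun i => g (b i)) ⁻¹' cube n) := fun g =>
    (LinearMap.continuous_of_finiteDimensional _).measurable
      (MeasurableSet.univ_pi fun _ => measurableSet_Icc)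
  rw [hU]
  refine ⟨Finset.measurableSet_biUnion _ fun g _ => hm g, ?_⟩
  rw [measure_biUnion_finset₀ ?_ fun g _ => (hm g).nullMeasurableSet]
  · rw [Finset.sum_congr rfl fun g hg => vol_L (hp g hg) (cube n), Finset.sum_const, hT,
      Fintype.card_piFinset, cube, volume_pi_pi]
    simp
  · intro g hg g' hg' hne
    obtain ⟨j, hj⟩ := Function.ne_iff.1 hne
    have key : ∀ g ∈ T, ∀ g' ∈ T, ∀ x ∈ L (fun i => g (b i)) ⁻¹' cube n, ∀ i,
        mn (g (b i)) x ≤ mn (g' (b i)) x := by
      intro g hg g' hg' x hx i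
      cases h : g' (b i) with
      | none => exact (mem_piece (hp g hg) hx i).2.1
      | some k =>
        have h1 := (mem_piece (hp g hg) hx k).2.2.1
        simp only [(hmem g').1 hg' _ _ h] at h1
        exact h1
    obtain ⟨k, hk⟩ : ∃ k, (L (fun i => g (b i)) ⁻¹' cube n) ∩ (L (fun i => g' (b i)) ⁻¹' cube n) ⊆
        L (fun i => g (b i)) ⁻¹' {y | y k = 0} := by
      cases h : g' j with
      | some k =>
        obtain rfl := (hmem g').1 hg' _ _ h
        refine ⟨k, fun x hx => ?_⟩
        have h1 := le_antisymm (key g hg g' hg' x hx.1 k) (key g' hg' g hg x hx.2 k)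
        change L _ x k = 0
        rw [L_apply, if_neg (h ▸ hj), h1, h, mn_some, sub_self]
      | none =>
        obtain ⟨k, h2⟩ := Option.ne_none_iff_exists'.1 (h ▸ hj)
        obtain rfl := (hmem g).1 hg _ _ h2
        refine ⟨k, fun x hx => ?_⟩
        have h1 := le_antisymm (key g hg g' hg' x hx.1 k) (key g' hg' g hg x hx.2 k)
        change L _ x k = 0
        rw [h, h2, mn_some, mn_none] at h1
        rw [L_apply, if_pos h2, h1, neg_zero]
    refine measure_mono_null hk ?_
    rw [vol_L (hp g hg)]
    exact Measure.pi_hyperplane (fun _ => volume) k 0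

end ZbVolAux

theorem volume_Zb (β : Fin n → ℕ) :
    volume.real (Zb β) = ∏ j ∈ Finset.univ.image β, ((bs β j : ℝ) + 1) := by
  obtain ⟨h1, h2⟩ := ZbVolAux.vol_Z (J := {j // j ∈ Finset.univ.image β})
    fun i => ⟨β i, Finset.mem_image_of_mem β (Finset.mem_univ i)⟩
  simp only [Subtype.ext_iff] at h1 h2
  have h3 := (PiLp.volume_preserving_ofLp (Fin n)).measure_preimage h1.nullMeasurableSet
  rw [Measure.real, show volume (Zb β) = _ from h3.trans h2, ENNReal.toReal_natCast,
    ← Finset.prod_coe_sort (Finset.univ.image β)]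
  push_cast
  rfl

end Crest.Agent.R230
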