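import Crest.Agent.R230.BlkPt
import Crest.Agent.R230.ZbVol
import Crest.Agent.R230.Affine

set_option autoImplicit false
open MeasureTheory Filter Topology
open scoped ENNReal RealInnerProductSpace Pointwise

namespace Crest.Agent.R230

variable {n : ℕ}

namespace BlkRatioAux

lemma vol_pos (β : Fin n → ℕ) : 0 < volume.real (Blk β) := by
  rw [volume_Blk]
  refine Finset.prod_pos fun j _ => ?_
  have : (0 : ℝ) < ((bs β j).factorial : ℝ) := by exact_mod_cast Nat.factorial_pos _
  exact inv_pos.2 this

lemma bs_pos (β : Fin n → ℕ) (i : Fin n) : 0 < bs β (β i) := by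
  unfold bs
  exact Finset.card_pos.2 ⟨i, by simp⟩

lemma inner_eq (x v : E n) : ⟪x, v⟫ = ∑ i, x i * v i := by
  simp [PiLp.inner_apply, mul_comm]

/-- the brightness for a vector supported in one block -/
lemma Pt_supp (hn : 1 ≤ n) (β : Fin n → ℕ) (v : E n) (i : Fin n)
    (hv : ∀ l, β l ≠ β i → v l = 0) :
    Pt (Blk β) v = volume.real (Blk β) * bs β (β i) * ((∑ l, |v l| + |∑ l, v l|) / 2) := by
  rw [Pt_Blk hn, Finset.sum_eq_single (β i), mul_assoc]
  · have h1 : ∑ l ∈ Finset.univ.filter (fun l => β l = β i), |v l| = ∑ l, |v l| := by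
      refine Finset.sum_subset (Finset.filter_subset _ _) fun l _ hl => ?_
      rw [hv l (by simpa using hl), abs_zero]
    have h2 : ∑ l ∈ Finset.univ.filter (fun l => β l = β i), v l = ∑ l, v l := by
      refine Finset.sum_subset (Finset.filter_subset _ _) fun l _ hl => ?_
      rw [hv l (by simpa using hl)]
    rw [h1, h2]
  · intro j _ hj
    have h0 : ∀ l ∈ Finset.univ.filter (fun l => β l = j), v l = 0 := by
      intro l hl
      have : β l = j := by simpa using hl
      exact hv l (by rw [this]; exact hj)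
    have h1 : ∑ l ∈ Finset.univ.filter (fun l => β l = j), |v l| = 0 :=
      Finset.sum_eq_zero fun l hl => by rw [h0 l hl, abs_zero]
    have h2 : ∑ l ∈ Finset.univ.filter (fun l => β l = j), v l = 0 :=
      Finset.sum_eq_zero h0
    rw [h1, h2]; simp
  · intro h
    exact absurd (Finset.mem_image_of_mem β (Finset.mem_univ i)) h

lemma block_le (F : Finset (Fin n)) (x v : Fin n → ℝ) (T : ℝ) (hT : 0 ≤ T)
    (h1 : ∀ i ∈ F, |x i| ≤ T) (h2 : ∀ i ∈ F, ∀ k ∈ F, |x i - x k| ≤ T) :
    ∑ i ∈ F, x i * v i ≤ T * ((∑ i ∈ F, |v i| + |∑ i ∈ F, v i|) / 2) := by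
  classical
  set S : Finset ℝ := insert 0 (F.image x) with hS
  have hne : S.Nonempty := ⟨0, by simp [hS]⟩
  have hpair : ∀ a ∈ S, ∀ b ∈ S, a - b ≤ T := by
    intro a ha b hb
    rw [hS, Finset.mem_insert, Finset.mem_image] at ha hb
    rcases ha with rfl | ⟨i, hi, rfl⟩
    · rcases hb with rfl | ⟨k, hk, rfl⟩
      · simpa using hT
      · have := (abs_le.1 (h1 k hk)).1; linarith
    · rcases hb with rfl | ⟨k, hk, rfl⟩
      · have := (abs_le.1 (h1 i hi)).2; linarith
      · exact (abs_le.1 (h2 i hi k hk)).2
  have hMm := hpair _ (S.max'_mem hne) _ (S.min'_mem hne)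
  set τ : ℝ := (S.max' hne + S.min' hne) / 2 with hτ
  have hc : ∀ a ∈ S, |a - τ| ≤ T / 2 := by
    intro a ha
    have a1 := S.le_max' a ha
    have a2 := S.min'_le a ha
    rw [abs_le]; constructor <;> linarith
  have hτ0 : |τ| ≤ T / 2 := by
    have := hc 0 (by simp [hS])
    simpa using this
  have e : ∑ i ∈ F, x i * v i = ∑ i ∈ F, (x i - τ) * v i + τ * ∑ i ∈ F, v i := by
    rw [Finset.mul_sum, ← Finset.sum_add_distrib]
    exact Finset.sum_congr rfl fun i _ => by ring
  have b1 : ∑ i ∈ F, (x i - τ) * v i ≤ T / 2 * ∑ i ∈ F, |v i| := by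
    rw [Finset.mul_sum]
    refine Finset.sum_le_sum fun i hi => ?_
    refine (le_abs_self _).trans ?_
    rw [abs_mul]
    exact mul_le_mul_of_nonneg_right (hc _ (by simp [hS]; exact Or.inr ⟨i, hi, rfl⟩))
      (abs_nonneg _)
  have b2 : τ * ∑ i ∈ F, v i ≤ T / 2 * |∑ i ∈ F, v i| := by
    refine (le_abs_self _).trans ?_
    rw [abs_mul]
    exact mul_le_mul_of_nonneg_right hτ0 (abs_nonneg _)
  rw [e]; linarith

end BlkRatioAux

open BlkRatioAux

/-! The projection body of a product of simplices. -/

theorem mem_PiB_Blk (hn : 1 ≤ n) (β : Fin n → ℕ) (x : E n) :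
    x ∈ PiB (Blk β) ↔ (∀ i, |x i| ≤ volume.real (Blk β) * bs β (β i)) ∧
      ∀ i k, β i = β k → |x i - x k| ≤ volume.real (Blk β) * bs β (β i) := by
  classical
  rw [mem_PiB]
  have hV := vol_pos β
  constructor
  · intro h
    have hs : ∀ (i : Fin n) (s : ℝ), |s| = 1 → x i * s ≤ volume.real (Blk β) * bs β (β i) := by
      intro i s hs
      have := h (EuclideanSpace.single i s)
      rw [Pt_supp hn β _ i (fun l hl => by
        have : l ≠ i := fun e => hl (by rw [e])
        simp [this]), inner_eq] at this
      have e1 : ∑ l, x l * (EuclideanSpace.single i s : E n) l = x i * s := by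
        simp
      have e2 : ∑ l, |(EuclideanSpace.single i s : E n) l| = 1 := by
        rw [Finset.sum_eq_single i]
        · simpa using hs
        · intro l _ hl; simp [hl]
        · simp
      have e3 : ∑ l, (EuclideanSpace.single i s : E n) l = s := by
        simp
      rw [e1, e2, e3, hs] at this
      linarith
    have hd : ∀ i k : Fin n, β i = β k → x i - x k ≤ volume.real (Blk β) * bs β (β i) := by
      intro i k hik
      by_cases e : i = k
      · subst e; rw [sub_self]; positivity
      have := h (EuclideanSpace.single i 1 - EuclideanSpace.single k 1)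
      rw [Pt_supp hn β _ i (fun l hl => by
        have a1 : l ≠ i := fun e => hl (by rw [e])
        have a2 : l ≠ k := fun e => hl (by rw [e, hik])
        simp [a1, a2]), inner_eq] at this
      have e1 : ∑ l, x l * (EuclideanSpace.single i 1 - EuclideanSpace.single k 1 : E n) l =
          x i - x k := by
        simp [mul_sub, Finset.sum_sub_distrib]
      have e2 : ∑ l, |(EuclideanSpace.single i 1 - EuclideanSpace.single k 1 : E n) l| = 2 := by
        rw [Finset.sum_eq_add_of_mem i k (Finset.mem_univ _) (Finset.mem_univ _) e]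
        · simp [e, Ne.symm e]; norm_num
        · intro l _ hl; simp [hl.1, hl.2]
      have e3 : ∑ l, (EuclideanSpace.single i 1 - EuclideanSpace.single k 1 : E n) l = 0 := by
        simp [Finset.sum_sub_distrib]
      rw [e1, e2, e3, abs_zero] at this
      linarith
    refine ⟨fun i => ?_, fun i k hik => ?_⟩
    · have a1 := hs i 1 (by simp)
      have a2 := hs i (-1) (by simp)
      rw [abs_le]; constructor <;> linarith
    · have a1 := hd i k hik
      have a2 := hd k i hik.symm
      rw [← hik] at a2
      rw [abs_le]; constructor <;> linarith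
  · rintro ⟨h1, h2⟩ v
    rw [Pt_Blk hn, inner_eq, Finset.mul_sum,
      ← Finset.sum_fiberwise_of_maps_to (s := Finset.univ) (t := Finset.univ.image β) (g := β)
        (fun i hi => Finset.mem_image_of_mem β hi)]
    refine Finset.sum_le_sum fun j _ => ?_
    rw [← mul_assoc]
    refine block_le _ (fun i => x i) (fun i => v i) _ (by positivity) ?_ ?_
    · intro i hi
      have : β i = j := by simpa using hi
      rw [← this]; exact h1 i
    · intro i hi k hk
      have a1 : β i = j := by simpa using hi
      have a2 : β k = j := by simpa using hk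
      rw [← a1]; exact h2 i k (a1.trans a2.symm)

theorem ratio_Blk (hn : 1 ≤ n) (β : Fin n → ℕ) :
    volume.real (PiB (Blk β)) / volume.real (Blk β) ^ (n - 1) =
      ∏ j ∈ Finset.univ.image β, cs (bs β j) := by
  classical
  have hV := vol_pos β
  set V := volume.real (Blk β) with hVdef
  set d : Fin n → ℝ := fun i => V * bs β (β i) with hd
  have hdpos : ∀ i, 0 < d i := fun i => by
    have : (0 : ℝ) < bs β (β i) := by exact_mod_cast bs_pos β i
    simp only [hd]; positivity
  set f : E n →ₗ[ℝ] E n := Matrix.toEuclideanLin (Matrix.diagonal d) with hf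
  have hfa : ∀ (y : E n) (i : Fin n), f y i = d i * y i := by
    intro y i
    simp [hf, Matrix.toLpLin_apply, Matrix.mulVec_diagonal]
  have hdet : LinearMap.det f = ∏ i, d i := by
    rw [hf, ← Matrix.det_diagonal]
    exact LinearMap.det_toLpLin 2 _
  have himg : PiB (Blk β) = f '' Zb β := by
    ext x
    rw [mem_PiB_Blk hn]
    constructor
    · rintro ⟨h1, h2⟩
      refine ⟨WithLp.toLp 2 (fun i => x i / d i), ⟨fun i => ?_, fun i k hik => ?_⟩, ?_⟩
      · have := h1 i
        show |x i / d i| ≤ 1
        rw [abs_div, abs_of_pos (hdpos i), div_le_one (hdpos i)]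
        exact this
      · have := h2 i k hik
        show |x i / d i - x k / d k| ≤ 1
        have e : d k = d i := by simp only [hd, hik]
        rw [e, ← sub_div, abs_div, abs_of_pos (hdpos i), div_le_one (hdpos i)]
        exact this
      · ext i
        rw [hfa]
        show d i * (x i / d i) = x i
        field_simp [(hdpos i).ne']
    · rintro ⟨y, ⟨h1, h2⟩, rfl⟩
      refine ⟨fun i => ?_, fun i k hik => ?_⟩
      · rw [hfa, abs_mul, abs_of_pos (hdpos i)]
        exact mul_le_of_le_one_right (hdpos i).le (h1 i)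
      · have e : d k = d i := by simp only [hd, hik]
        rw [hfa, hfa, e, ← mul_sub, abs_mul, abs_of_pos (hdpos i)]
        exact mul_le_of_le_one_right (hdpos i).le (h2 i k hik)
  have hprod : 0 < ∏ i, d i := Finset.prod_pos fun i _ => hdpos i
  have hvol : volume.real (PiB (Blk β)) = (∏ i, d i) * volume.real (Zb β) := by
    rw [himg, Measure.real, Measure.addHaar_image_linearMap, ENNReal.toReal_mul, hdet,
      abs_of_pos hprod, ENNReal.toReal_ofReal hprod.le, Measure.real]
  have hp : ∏ i, d i = V ^ n * ∏ j ∈ Finset.univ.image β, (bs β j : ℝ) ^ bs β j := by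
    simp only [hd]
    rw [Finset.prod_mul_distrib, Finset.prod_const, Finset.card_univ, Fintype.card_fin,
      Finset.prod_comp (fun j => (bs β j : ℝ)) β]
    rfl
  have hpow : V ^ n = V ^ (n - 1) * V := by
    rw [← pow_succ]; congr 1; omega
  rw [hvol, hp, hpow, volume_Zb]
  have hne : V ^ (n - 1) ≠ 0 := (pow_pos hV _).ne'
  rw [div_eq_iff hne]
  have hV2 : V = ∏ j ∈ Finset.univ.image β, ((bs β j).factorial : ℝ)⁻¹ := volume_Blk β
  have : ∏ j ∈ Finset.univ.image β, cs (bs β j) =
      V * (∏ j ∈ Finset.univ.image β, (bs β j : ℝ) ^ bs β j) *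
        ∏ j ∈ Finset.univ.image β, ((bs β j : ℝ) + 1) := by
    rw [hV2, ← Finset.prod_mul_distrib, ← Finset.prod_mul_distrib]
    refine Finset.prod_congr rfl fun j _ => ?_
    unfold cs; ring
  rw [this]; ring

end Crest.Agent.R230
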