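import Crest.Agent.R230.Defs

set_option autoImplicit false
set_option linter.unusedVariables false
open MeasureTheory Filter Topology
open scoped ENNReal RealInnerProductSpace Pointwise

namespace Crest.Agent.R230

variable {n : ℕ}

/-! Brightness function: Cavalieri's formula and its consequences. -/

namespace BrightAux

/-- the shadow of `K` on the hyperplane orthogonal to `u` -/
def shadow (K : Set (E n)) (u : E n) : Set (ℝ ∙ u)ᗮ := {y | ∃ t : ℝ, (y : E n) + t • u ∈ K}

/-- the section of `K` along the line through `y` with direction `u` -/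
def sec (K : Set (E n)) (u y : E n) : Set ℝ := {t | y + t • u ∈ K}

lemma inner_perp {u : E n} (y : (ℝ ∙ u)ᗮ) : ⟪(y : E n), u⟫ = 0 :=
  Submodule.mem_orthogonal_singleton_iff_inner_left.1 y.2

lemma proj_mem {u : E n} (hu : ‖u‖ = 1) (x : E n) : x - ⟪x, u⟫ • u ∈ (ℝ ∙ u)ᗮ := by
  rw [Submodule.mem_orthogonal_singleton_iff_inner_left, inner_sub_left, real_inner_smul_left,
    real_inner_self_eq_norm_sq, hu]
  ring

lemma image_shadow (K : Set (E n)) {u : E n} (hu : ‖u‖ = 1) :
    Subtype.val '' shadow K u = (fun y => y - ⟪y, u⟫ • u) '' K := by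
  ext z
  constructor
  · rintro ⟨y, ⟨t, ht⟩, rfl⟩
    refine ⟨_, ht, ?_⟩
    show (y : E n) + t • u - ⟪(y : E n) + t • u, u⟫ • u = y
    rw [inner_add_left, inner_perp, real_inner_smul_left, real_inner_self_eq_norm_sq, hu]
    simp
  · rintro ⟨x, hx, rfl⟩
    refine ⟨⟨_, proj_mem hu x⟩, ⟨⟪x, u⟫, ?_⟩, rfl⟩
    simpa using hx

lemma finrank_perp {u : E n} (hu : ‖u‖ = 1) : Module.finrank ℝ (ℝ ∙ u)ᗮ = n - 1 := by
  have hu0 : u ≠ 0 := by
    rintro rfl
    simp at hu
  have h := (ℝ ∙ u).finrank_add_finrank_orthogonal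
  rw [finrank_span_singleton hu0, finrank_euclideanSpace_fin] at h
  omega

lemma measure_proj (K : Set (E n)) {u : E n} (hu : ‖u‖ = 1) :
    (μHE[n - 1] : Measure (E n)) ((fun y => y - ⟪y, u⟫ • u) '' K) = volume (shadow K u) := by
  rw [← image_shadow K hu, isometry_subtype_coe.euclideanHausdorffMeasure_image,
    ← finrank_perp hu, InnerProductSpace.euclideanHausdorffMeasure_eq_volume]

lemma br_eq (K : Set (E n)) {u : E n} (hu : ‖u‖ = 1) : br K u = volume.real (shadow K u) := by
  rw [br, measure_proj K hu, measureReal_def]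

lemma isCompact_shadow {K : Set (E n)} (hK : IsCompact K) {u : E n} (hu : ‖u‖ = 1) :
    IsCompact (shadow K u) := by
  rw [Topology.IsEmbedding.subtypeVal.isCompact_iff, image_shadow K hu]
  exact hK.image (by fun_prop)

lemma volume_eq_lintegral {A : Set (E n)} (hA : MeasurableSet A) {u : E n} (hu : ‖u‖ = 1) :
    volume A = ∫⁻ y : (ℝ ∙ u)ᗮ, volume (sec A u y) := by
  have h1 := ((ℝ ∙ u).measurePreserving_measurableEquivProd (0 : E n)).symm
  rw [InnerProductSpace.euclideanHausdorffMeasure_eq_volume] at h1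
  have h2 := (LinearIsometryEquiv.toSpanUnitSingleton (𝕜 := ℝ) u hu).measurePreserving.prod
    (MeasurePreserving.id (volume : Measure (ℝ ∙ u)ᗮ))
  have h3 := h1.comp h2
  rw [← h3.measure_preimage hA.nullMeasurableSet,
    Measure.prod_apply_symm (h3.measurable hA)]
  refine lintegral_congr fun y => ?_
  congr 1
  ext t
  simp [sec, add_comm]

lemma isCompact_sec {K : Set (E n)} (hK : IsCompact K) {u : E n} (hu : ‖u‖ = 1) (y : E n) :
    IsCompact (sec K u y) := by
  have hi : Isometry fun t : ℝ => y + t • u := by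
    refine Isometry.of_dist_eq fun s t => ?_
    rw [dist_add_left, dist_eq_norm, ← sub_smul, norm_smul, hu, mul_one, dist_eq_norm]
  exact hi.isClosedEmbedding.isCompact_preimage hK

lemma convex_sec {K : Set (E n)} (hc : Convex ℝ K) (u y : E n) : Convex ℝ (sec K u y) := by
  intro s hs t ht a b ha hb hab
  have h := hc hs ht ha hb hab
  have e : a • (y + s • u) + b • (y + t • u) = y + (a • s + b • t) • u := by
    rw [smul_add, smul_add, add_add_add_comm, ← add_smul, hab, one_smul, add_smul, smul_assoc,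
      smul_assoc]
  rwa [e] at h

lemma sec_add {K : Set (E n)} {u : E n} {s : ℝ} (hs : 0 ≤ s) (y : E n) :
    sec (K + segment ℝ 0 (s • u)) u y = sec K u y + Set.Icc 0 s := by
  ext t
  constructor
  · rintro ⟨x, hx, z, ⟨a, b, ha, hb, hab, rfl⟩, h⟩
    refine ⟨t - b * s, ?_, b * s, ⟨mul_nonneg hb hs, ?_⟩, by simp⟩
    · have e : y + (t - b * s) • u = x := by
        simp only [smul_zero, zero_add, smul_smul] at h
        rw [sub_smul, ← add_sub_assoc, ← h, add_sub_cancel_right]
      show y + (t - b * s) • u ∈ K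
      rwa [e]
    · nlinarith
  · rintro ⟨r, hr, c, ⟨hc0, hcs⟩, rfl⟩
    refine ⟨y + r • u, hr, c • u, ?_, ?_⟩
    · rcases hs.eq_or_lt with h | h
      · have : c = 0 := le_antisymm (h ▸ hcs) hc0
        rw [this, zero_smul]
        exact left_mem_segment _ _ _
      · refine ⟨1 - c / s, c / s, ?_, by positivity, by ring, ?_⟩
        · rw [sub_nonneg, div_le_one h]; exact hcs
        · rw [smul_zero, zero_add, smul_smul, div_mul_cancel₀ _ h.ne']
    · simp only [add_smul, add_assoc]

lemma volume_add_Icc {I : Set ℝ} (hI : IsCompact I) (hc : Convex ℝ I) (hne : I.Nonempty) {s : ℝ}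
    (hs : 0 ≤ s) : volume (I + Set.Icc 0 s) = volume I + ENNReal.ofReal s := by
  have h := eq_Icc_of_connected_compact (hc.isConnected hne) hI
  generalize sInf I = a, sSup I = b at h
  subst h
  have hab : a ≤ b := Set.nonempty_Icc.1 hne
  have e : Set.Icc a b + Set.Icc 0 s = Set.Icc a (b + s) := by
    ext t
    constructor
    · rintro ⟨x, ⟨h1, h2⟩, y, ⟨h3, h4⟩, rfl⟩
      exact ⟨by simp only; linarith, by simp only; linarith⟩
    · rintro ⟨h1, h2⟩
      rcases le_total t b with h | h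
      · exact ⟨t, ⟨h1, h⟩, 0, ⟨le_rfl, hs⟩, by simp⟩
      · exact ⟨b, ⟨hab, le_rfl⟩, t - b, ⟨by linarith, by linarith⟩, by simp⟩
  rw [e, Real.volume_Icc, Real.volume_Icc, ← ENNReal.ofReal_add (by linarith) hs]
  congr 1
  ring

lemma isCompact_segment (x y : E n) : IsCompact (segment ℝ x y) := by
  rw [segment_eq_image]
  exact isCompact_Icc.image (by fun_prop)

lemma cavalieri {K : Set (E n)} (hK : IsCompact K) (hc : Convex ℝ K) {u : E n} (hu : ‖u‖ = 1)
    {s : ℝ} (hs : 0 ≤ s) :
    volume (K + segment ℝ 0 (s • u)) = volume K + ENNReal.ofReal s * volume (shadow K u) := by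
  have hm := (isCompact_shadow hK hu).measurableSet
  rw [volume_eq_lintegral (hK.add (isCompact_segment _ _)).measurableSet hu,
    volume_eq_lintegral hK.measurableSet hu, ← lintegral_indicator_const hm,
    ← lintegral_add_right _ (measurable_const.indicator hm)]
  refine lintegral_congr fun y => ?_
  rw [sec_add hs]
  by_cases hy : y ∈ shadow K u
  · rw [Set.indicator_of_mem hy, volume_add_Icc (isCompact_sec hK hu _) (convex_sec hc _ _) hy hs]
  · have : sec K u y = ∅ := Set.not_nonempty_iff_eq_empty.1 hy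
    rw [Set.indicator_of_notMem hy, this, Set.empty_add, add_zero]

lemma shadow_closedBall (a : E n) (r : ℝ) {u : E n} (hu : ‖u‖ = 1) :
    shadow (Metric.closedBall a r) u = Metric.closedBall ⟨_, proj_mem hu a⟩ r := by
  ext y
  rw [Metric.mem_closedBall, Subtype.dist_eq, dist_eq_norm]
  constructor
  · rintro ⟨t, ht⟩
    rw [Metric.mem_closedBall, dist_eq_norm] at ht
    refine le_trans ?_ ht
    have e : (y : E n) + t • u - a = ((y : E n) - (a - ⟪a, u⟫ • u)) + (t - ⟪a, u⟫) • u := by
      rw [sub_smul]; abel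
    have h0 : ⟪(y : E n) - (a - ⟪a, u⟫ • u), (t - ⟪a, u⟫) • u⟫ = 0 := by
      have h1 : ⟪(y : E n) - (a - ⟪a, u⟫ • u), u⟫ = 0 := inner_perp (y - ⟨_, proj_mem hu a⟩)
      rw [real_inner_smul_right, h1, mul_zero]
    rw [e]
    refine (pow_le_pow_iff_left₀ (norm_nonneg _) (norm_nonneg _) two_ne_zero).1 ?_
    rw [norm_add_sq_real, h0]
    nlinarith [sq_nonneg ‖(t - ⟪a, u⟫) • u‖]
  · intro h
    refine ⟨⟪a, u⟫, ?_⟩
    rw [Metric.mem_closedBall, dist_eq_norm]
    have e : (y : E n) + ⟪a, u⟫ • u - a = (y : E n) - (a - ⟪a, u⟫ • u) := by abel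
    rw [e]
    exact h

lemma volume_ball_eq {W : Type*} [NormedAddCommGroup W] [InnerProductSpace ℝ W]
    [FiniteDimensional ℝ W] [MeasurableSpace W] [BorelSpace W] {m : ℕ}
    (h : Module.finrank ℝ W = m) : volume.real (Metric.ball (0 : W) 1) = kap m := by
  subst h
  have h1 := (stdOrthonormalBasis ℝ W).measurePreserving_repr.measure_preimage
    (s := Metric.ball 0 1) measurableSet_ball.nullMeasurableSet
  rw [kap, ← h1, measureReal_def]
  congr 2
  ext x
  simp

lemma kap_pos (m : ℕ) : 0 < kap m :=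
  ENNReal.toReal_pos (Metric.measure_ball_pos _ _ one_pos).ne' measure_ball_lt_top.ne

end BrightAux

open BrightAux

theorem Body.volume_pos {K : Set (E n)} (hK : Body K) : 0 < volume K :=
  (isOpen_interior.measure_pos volume hK.int).trans_le (measure_mono interior_subset)

theorem Body.real_pos {K : Set (E n)} (hK : Body K) : 0 < volume.real K :=
  ENNReal.toReal_pos hK.volume_pos.ne' hK.cpt.measure_lt_top.ne

theorem br_nonneg (K : Set (E n)) (u : E n) : 0 ≤ br K u := ENNReal.toReal_nonneg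

theorem Pt_nonneg (K : Set (E n)) (v : E n) : 0 ≤ Pt K v :=
  mul_nonneg (norm_nonneg _) (br_nonneg _ _)

theorem br_neg (K : Set (E n)) (u : E n) : br K (-u) = br K u := by
  simp only [br, inner_neg_right, neg_smul, smul_neg, neg_neg]

theorem Pt_unit (K : Set (E n)) {u : E n} (hu : ‖u‖ = 1) : Pt K u = br K u := by
  simp [Pt, hu]

theorem Pt_smul (K : Set (E n)) (t : ℝ) (v : E n) : Pt K (t • v) = |t| * Pt K v := by
  rcases lt_trichotomy t 0 with h | h | h
  · have e : (|t| * ‖v‖)⁻¹ • t • v = -(‖v‖⁻¹ • v) := by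
      rw [smul_smul, ← neg_smul, abs_of_neg h]
      congr 1
      have := h.ne
      field_simp
    rw [Pt, Pt, norm_smul, Real.norm_eq_abs, e, br_neg, mul_assoc]
  · simp [Pt, h]
  · have e : (|t| * ‖v‖)⁻¹ • t • v = ‖v‖⁻¹ • v := by
      rw [smul_smul, abs_of_pos h]
      congr 1
      have := h.ne'
      field_simp
    rw [Pt, Pt, norm_smul, Real.norm_eq_abs, e, mul_assoc]

/-- Cavalieri: the volume swept out by a convex compact set -/
theorem volume_add_segment (hn : 1 ≤ n) {K : Set (E n)} (hK : IsCompact K) (hc : Convex ℝ K)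
    (v : E n) : volume.real (K + segment ℝ 0 v) = volume.real K + Pt K v := by
  by_cases hv : v = 0
  · subst hv
    simp [Pt]
  have hv' : ‖v‖ ≠ 0 := norm_ne_zero_iff.2 hv
  have hu : ‖‖v‖⁻¹ • v‖ = 1 := by
    rw [norm_smul, norm_inv, norm_norm, inv_mul_cancel₀ hv']
  have h := cavalieri hK hc hu (norm_nonneg v)
  rw [smul_smul, mul_inv_cancel₀ hv', one_smul] at h
  rw [Pt, br_eq K hu, measureReal_def, h, ENNReal.toReal_add hK.measure_lt_top.ne
    (ENNReal.mul_ne_top ENNReal.ofReal_ne_top (isCompact_shadow hK hu).measure_lt_top.ne),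
    ENNReal.toReal_mul, ENNReal.toReal_ofReal (norm_nonneg v)]
  rfl

theorem br_closedBall (hn : 1 ≤ n) (a : E n) {r : ℝ} (hr : 0 ≤ r) {u : E n} (hu : ‖u‖ = 1) :
    br (Metric.closedBall a r) u = r ^ (n - 1) * kap (n - 1) := by
  rw [br_eq _ hu, shadow_closedBall a r hu, Measure.addHaar_real_closedBall _ _ hr,
    volume_ball_eq (finrank_perp hu), finrank_perp hu]

theorem br_mono (hn : 1 ≤ n) {K L : Set (E n)} (hL : IsCompact L) (h : K ⊆ L) {u : E n}
    (hu : ‖u‖ = 1) : br K u ≤ br L u := by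
  rw [br_eq _ hu, br_eq _ hu]
  refine measureReal_mono ?_ (isCompact_shadow hL hu).measure_lt_top.ne
  rintro y ⟨t, ht⟩
  exact ⟨t, h ht⟩

theorem br_homothety (K : Set (E n)) (a : E n) {t : ℝ} (ht : 0 < t) (u : E n) :
    br ((fun x => a + t • (x - a)) '' K) u = t ^ (n - 1) * br K u := by
  have e : (fun y => y - ⟪y, u⟫ • u) '' ((fun x => a + t • (x - a)) '' K)
      = AffineMap.homothety (a - ⟪a, u⟫ • u) t '' ((fun y => y - ⟪y, u⟫ • u) '' K) := by
    rw [Set.image_image, Set.image_image]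
    refine Set.image_congr fun x _ => ?_
    rw [AffineMap.homothety_apply, vsub_eq_sub, vadd_eq_add, inner_add_left, real_inner_smul_left,
      inner_sub_left]
    module
  rw [br, br, e, euclideanHausdorffMeasure_homothety_image _ _ ht.ne', ENNReal.toReal_smul]
  simp [abs_of_pos ht, NNReal.smul_def]

theorem Body.br_bounds (hn : 1 ≤ n) {K : Set (E n)} (hK : Body K) :
    ∃ c C : ℝ, 0 < c ∧ ∀ u : E n, ‖u‖ = 1 → c ≤ br K u ∧ br K u ≤ C := by
  obtain ⟨a, ha⟩ := hK.int
  obtain ⟨r, hr, hrK⟩ := Metric.nhds_basis_closedBall.mem_iff.1 (mem_interior_iff_mem_nhds.1 ha)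
  obtain ⟨R, hR, hRK⟩ := hK.cpt.isBounded.subset_closedBall_lt 0 (0 : E n)
  refine ⟨r ^ (n - 1) * kap (n - 1), R ^ (n - 1) * kap (n - 1),
    mul_pos (pow_pos hr _) (kap_pos _), fun u hu => ⟨?_, ?_⟩⟩
  · rw [← br_closedBall hn a hr.le hu]
    exact br_mono hn hK.cpt hrK hu
  · rw [← br_closedBall hn 0 hR.le hu]
    exact br_mono hn (isCompact_closedBall _ _) hRK hu

end Crest.Agent.R230
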