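import Crest.Agent.R230.Nrm

set_option autoImplicit false
open MeasureTheory Filter Topology
open scoped ENNReal RealInnerProductSpace Pointwise

namespace Crest.Agent.R230

variable {n : ℕ}

/-! The consequence of convexity: `Δ N + (n - 1) N ≥ 0` on the sphere, tested with `u ∘ N ≥ 0`. -/

namespace ConvAux

theorem memLp_inner {f : E n → ℝ} (hf : Good f) {w : E n → E n} (hw : Continuous w) :
    MemLp (fun p => ⟪gradient f p, w p⟫) ∞ (sph n) := by
  obtain ⟨C, hC⟩ := hf.exists_bound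
  obtain ⟨D, hD⟩ := (isCompact_sphere (0 : E n) 1).exists_bound_of_continuousOn hw.continuousOn
  refine memLp_of_bdd ((measurable_gradient f).inner hw.measurable).aestronglyMeasurable
    (C := C * D) (ae_norm.mono fun p hp => (norm_inner_le_norm _ _).trans ?_) _
  exact mul_le_mul (hC p hp) (hD p (by simpa using hp)) (norm_nonneg _)
    ((norm_nonneg _).trans (hC p hp))

section rot

variable {a b : E n} {R : ℝ → (E n ≃ₗᵢ[ℝ] E n)}

/-- the rotation formula -/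
def IsRot (a b : E n) (R : ℝ → (E n ≃ₗᵢ[ℝ] E n)) : Prop :=
  ∀ (θ : ℝ) (x : E n), R θ x = x + (Real.cos θ - 1) • (⟪a, x⟫ • a + ⟪b, x⟫ • b) +
    Real.sin θ • (⟪a, x⟫ • b - ⟪b, x⟫ • a)

theorem rot_neg (ha : ‖a‖ = 1) (hb : ‖b‖ = 1) (hab : ⟪a, b⟫ = 0) (hR : IsRot a b R) (θ : ℝ)
    (p : E n) : R (-θ) (R θ p) = p := by
  have haa : ⟪a, a⟫ = (1 : ℝ) := by rw [real_inner_self_eq_norm_sq, ha, one_pow]
  have hbb : ⟪b, b⟫ = (1 : ℝ) := by rw [real_inner_self_eq_norm_sq, hb, one_pow]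
  have hba : ⟪b, a⟫ = (0 : ℝ) := by rw [real_inner_comm, hab]
  have h1 : ⟪a, R θ p⟫ = Real.cos θ * ⟪a, p⟫ - Real.sin θ * ⟪b, p⟫ := by
    rw [hR]
    simp only [inner_add_right, inner_sub_right, real_inner_smul_right, haa, hab]
    ring
  have h2 : ⟪b, R θ p⟫ = Real.cos θ * ⟪b, p⟫ + Real.sin θ * ⟪a, p⟫ := by
    rw [hR]
    simp only [inner_add_right, inner_sub_right, real_inner_smul_right, hbb, hba]
    ring
  rw [hR (-θ), h1, h2, hR θ p, Real.cos_neg, Real.sin_neg]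
  have h3 := Real.sin_sq_add_cos_sq θ
  have h4 : p = p + ((Real.sin θ ^ 2 + Real.cos θ ^ 2) - 1) • (⟪a, p⟫ • a + ⟪b, p⟫ • b) := by
    rw [h3, sub_self, zero_smul, add_zero]
  conv_rhs => rw [h4]
  module

theorem rot_lip (ha : ‖a‖ = 1) (hb : ‖b‖ = 1) (hR : IsRot a b R) {f : E n → ℝ} (hf : Good f) :
    ∃ K : ℝ, 0 ≤ K ∧ ∀ θ : ℝ, θ ≠ 0 → ∀ p : E n, ‖p‖ = 1 → |θ⁻¹ * (f (R θ p) - f p)| ≤ K := by
  obtain ⟨K, hK⟩ := LocallyLipschitzOn.exists_lipschitzOnWith_of_compact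
    (isCompact_closedBall (0 : E n) 1) hf.lip.locallyLipschitzOn
  have hbd : ∀ {w p : E n}, ‖w‖ = 1 → ‖p‖ = 1 → ∀ {z : E n}, ‖z‖ = 1 → ‖⟪w, p⟫ • z‖ ≤ 1 := by
    intro w p hw hp z hz
    have := abs_real_inner_le_norm w p
    rw [hw, hp, mul_one] at this
    rw [norm_smul, hz, mul_one]
    exact this
  refine ⟨K * 4, by positivity, fun θ hθ p hp => ?_⟩
  have h1 := hK.dist_le_mul (R θ p) (by simp [hp]) p (by simp [hp])
  have h2 : R θ p - p = (Real.cos θ - 1) • (⟪a, p⟫ • a + ⟪b, p⟫ • b) +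
      Real.sin θ • (⟪a, p⟫ • b - ⟪b, p⟫ • a) := by
    rw [hR]
    module
  have h3 : ‖⟪a, p⟫ • a + ⟪b, p⟫ • b‖ ≤ 2 := by
    linarith [norm_add_le (⟪a, p⟫ • a) (⟪b, p⟫ • b), hbd ha hp ha, hbd hb hp hb]
  have h4 : ‖⟪a, p⟫ • b - ⟪b, p⟫ • a‖ ≤ 2 := by
    linarith [norm_sub_le (⟪a, p⟫ • b) (⟪b, p⟫ • a), hbd ha hp hb, hbd hb hp ha]
  have h5 : ‖Real.cos θ - 1‖ ≤ |θ| := by
    simpa [dist_eq_norm] using Real.lipschitzWith_cos.dist_le_mul θ 0
  have h6 : ‖Real.sin θ‖ ≤ |θ| := Real.abs_sin_le_abs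
  have h7 : ‖R θ p - p‖ ≤ 4 * |θ| := by
    rw [h2]
    refine (norm_add_le _ _).trans ?_
    rw [norm_smul, norm_smul]
    have h7 := mul_le_mul h5 h3 (norm_nonneg _) (abs_nonneg _)
    have h8 := mul_le_mul h6 h4 (norm_nonneg _) (abs_nonneg _)
    linarith
  rw [dist_eq_norm, dist_eq_norm, Real.norm_eq_abs] at h1
  have h8 := mul_le_mul_of_nonneg_left h7 K.2
  rw [abs_mul, abs_inv, inv_mul_le_iff₀ (abs_pos.2 hθ)]
  change (K : ℝ) * _ ≤ (K : ℝ) * _ at h8
  linarith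

theorem rot_slope (hR : IsRot a b R) {f : E n → ℝ} {p : E n} (hp : DifferentiableAt ℝ f p) :
    Tendsto (fun θ : ℝ => θ⁻¹ * (f (R θ p) - f p)) (𝓝[>] 0)
      (𝓝 ⟪gradient f p, ⟪a, p⟫ • b - ⟪b, p⟫ • a⟫) := by
  have h1 : HasDerivAt (fun θ => R θ p) (⟪a, p⟫ • b - ⟪b, p⟫ • a) 0 := by
    simp only [hR _ p]
    have := ((((Real.hasDerivAt_cos 0).sub_const 1).smul_const
      (⟪a, p⟫ • a + ⟪b, p⟫ • b)).const_add p).fun_add
      ((Real.hasDerivAt_sin 0).smul_const (⟪a, p⟫ • b - ⟪b, p⟫ • a))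
    refine this.congr_deriv ?_
    simp
  have h2 : R 0 p = p := by simp [hR 0 p]
  have h3 : HasFDerivAt f (fderiv ℝ f p) (R 0 p) := by
    rw [h2]
    exact hp.hasFDerivAt
  rw [inner_gradient_left]
  have h4 := (HasFDerivAt.comp_hasDerivAt (f := fun θ => R θ p) 0 h3 h1).tendsto_slope_zero_right
  simpa only [zero_add, Function.comp_apply, h2, smul_eq_mul] using h4

theorem rot_tendsto (ha : ‖a‖ = 1) (hb : ‖b‖ = 1) (hR : IsRot a b R) {f g : E n → ℝ}
    (hf : Good f) (hg : Good g) :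
    Tendsto (fun θ : ℝ => ∫ p, θ⁻¹ * (f (R θ p) - f p) * (θ⁻¹ * (g (R θ p) - g p)) ∂sph n)
      (𝓝[>] 0) (𝓝 (∫ p, ⟪gradient f p, ⟪a, p⟫ • b - ⟪b, p⟫ • a⟫ *
        ⟪gradient g p, ⟪a, p⟫ • b - ⟪b, p⟫ • a⟫ ∂sph n)) := by
  obtain ⟨K, hK0, hK⟩ := rot_lip ha hb hR hf
  obtain ⟨L, -, hL⟩ := rot_lip ha hb hR hg
  have hfc := hf.continuous
  have hgc := hg.continuous
  refine tendsto_integral_filter_of_dominated_convergence (fun _ => K * L)
    (Eventually.of_forall fun θ => Continuous.aestronglyMeasurable (by fun_prop))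
    (eventually_nhdsWithin_of_forall fun θ hθ => ae_norm.mono fun p hp => ?_)
    (integrable_const _) ?_
  · rw [Real.norm_eq_abs, abs_mul]
    exact mul_le_mul (hK θ (ne_of_gt hθ) p hp) (hL θ (ne_of_gt hθ) p hp) (abs_nonneg _) hK0
  · filter_upwards [hf.diff, hg.diff] with p h1 h2
    exact (rot_slope hR h1).mul (rot_slope hR h2)

theorem tendsto_cos :
    Tendsto (fun θ : ℝ => θ⁻¹ * θ⁻¹ * (2 * (1 - Real.cos θ))) (𝓝[>] 0) (𝓝 1) := by
  have h1 : HasDerivAt (fun θ : ℝ => 2 * Real.sin (θ / 2)) 1 0 := by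
    have := (((hasDerivAt_id (0 : ℝ)).div_const 2).sin).const_mul 2
    refine this.congr_deriv ?_
    simp
  have h2 := h1.tendsto_slope_zero_right
  have h3 := h2.mul h2
  rw [mul_one] at h3
  refine h3.congr fun θ => ?_
  have h4 : Real.cos θ = 1 - 2 * Real.sin (θ / 2) ^ 2 := by
    have := Real.cos_two_mul (θ / 2)
    rw [show 2 * (θ / 2) = θ by ring] at this
    nlinarith [Real.sin_sq_add_cos_sq (θ / 2)]
  simp only [zero_add, zero_div, Real.sin_zero, mul_zero, sub_zero, smul_eq_mul, h4]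
  ring

theorem rot_ineq (ha : ‖a‖ = 1) (hb : ‖b‖ = 1) (hab : ⟪a, b⟫ = 0) (hR : IsRot a b R)
    (N : Seminorm ℝ (E n)) {v : E n → ℝ} (hv : Continuous v) (h0 : ∀ p, 0 ≤ v p) (θ : ℝ) :
    ∫ p, (v (R θ p) - v p) * (N (R θ p) - N p) ∂sph n ≤ 2 * (1 - Real.cos θ) *
      ∫ p, v p * ⟪gradient (fun x => N x) p, ⟪a, p⟫ • a + ⟪b, p⟫ • b⟫ ∂sph n := by
  have hN := nrm_continuous N
  have i1 : Integrable (fun p => v (R θ p) * N (R θ p)) (sph n) :=
    integrable_of_continuous (by fun_prop)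
  have i2 : Integrable (fun p => v (R θ p) * N p) (sph n) :=
    integrable_of_continuous (by fun_prop)
  have i3 : Integrable (fun p => v p * N (R θ p)) (sph n) :=
    integrable_of_continuous (by fun_prop)
  have i4 : Integrable (fun p => v p * N p) (sph n) := integrable_of_continuous (by fun_prop)
  have i5 : Integrable (fun p => v p * N (R (-θ) p)) (sph n) :=
    integrable_of_continuous (by fun_prop)
  have i6 : Integrable (fun p => v p * ⟪gradient (fun x => N x) p, ⟪a, p⟫ • a + ⟪b, p⟫ • b⟫)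
      (sph n) :=
    ((memLp_inner (nrm_good N) (by fun_prop)).mul' (r := ∞) (memLp_of_continuous hv ∞)).integrable
      le_top
  have e1 : ∫ p, v (R θ p) * N (R θ p) ∂sph n = ∫ p, v p * N p ∂sph n :=
    integral_comp_iso (R θ) (fun p => v p * N p)
  have e2 : ∫ p, v (R θ p) * N p ∂sph n = ∫ p, v p * N (R (-θ) p) ∂sph n := by
    rw [← integral_comp_iso (R θ) (fun p => v p * N (R (-θ) p))]
    simp only [rot_neg ha hb hab hR]
  have e3 : ∫ p, (v (R θ p) - v p) * (N (R θ p) - N p) ∂sph n =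
      ∫ p, (2 * (v p * N p) - v p * N (R (-θ) p) - v p * N (R θ p)) ∂sph n := by
    have : (fun p => (v (R θ p) - v p) * (N (R θ p) - N p)) = fun p =>
        v (R θ p) * N (R θ p) - v (R θ p) * N p - v p * N (R θ p) + v p * N p := by
      funext p
      ring
    rw [this, integral_add (f := fun p => v (R θ p) * N (R θ p) - v (R θ p) * N p -
        v p * N (R θ p)) ((i1.sub i2).sub i3) i4,
      integral_sub (f := fun p => v (R θ p) * N (R θ p) - v (R θ p) * N p) (i1.sub i2) i3,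
      integral_sub i1 i2, e1, e2,
      integral_sub (f := fun p => 2 * (v p * N p) - v p * N (R (-θ) p))
        ((i4.const_mul 2).sub i5) i3, integral_sub (i4.const_mul 2) i5, integral_const_mul]
    ring
  rw [e3, ← integral_const_mul]
  refine integral_mono_ae (((i4.const_mul 2).sub i5).sub i3) (i6.const_mul _) ?_
  filter_upwards [(nrm_good N).diff] with p hp
  have h1 := nrm_sub N p (R θ p)
  have h2 := nrm_sub N p (R (-θ) p)
  have h3 := nrm_euler N hp
  have h4 : ⟪gradient (fun x => N x) p, R θ p⟫ + ⟪gradient (fun x => N x) p, R (-θ) p⟫ =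
      2 * N p - 2 * (1 - Real.cos θ) *
        ⟪gradient (fun x => N x) p, ⟪a, p⟫ • a + ⟪b, p⟫ • b⟫ := by
    rw [hR θ p, hR (-θ) p, Real.cos_neg, Real.sin_neg, ← h3]
    generalize ⟪a, p⟫ • a + ⟪b, p⟫ • b = P
    generalize ⟪a, p⟫ • b - ⟪b, p⟫ • a = L
    simp only [inner_add_right, real_inner_smul_right]
    ring
  have h5 := mul_le_mul_of_nonneg_left (add_le_add h1 h2) (h0 p)
  rw [h4] at h5
  linarith

end rot

theorem pair_ineq {a b : E n} (ha : ‖a‖ = 1) (hb : ‖b‖ = 1) (hab : ⟪a, b⟫ = 0)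
    (N : Seminorm ℝ (E n)) {u u' : ℝ → ℝ} (hu : ∀ s, HasDerivAt u (u' s) s)
    (hu' : Continuous u') (h0 : ∀ s, 0 ≤ u s) :
    ∫ p, u' (N p) * ⟪gradient (fun x => N x) p, ⟪a, p⟫ • b - ⟪b, p⟫ • a⟫ ^ 2 ∂sph n ≤
      ∫ p, u (N p) * ⟪gradient (fun x => N x) p, ⟪a, p⟫ • a + ⟪b, p⟫ • b⟫ ∂sph n := by
  obtain ⟨R, hR⟩ := exists_rot ha hb hab
  have hv := (nrm_good N).comp hu hu'
  have h1 := rot_tendsto ha hb hR hv (nrm_good N)
  have h2 := tendsto_cos.mul_const
    (∫ p, u (N p) * ⟪gradient (fun x => N x) p, ⟪a, p⟫ • a + ⟪b, p⟫ • b⟫ ∂sph n)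
  rw [one_mul] at h2
  have h3 := le_of_tendsto_of_tendsto' h1 h2 fun θ => by
    have h4 := mul_le_mul_of_nonneg_left
      (rot_ineq ha hb hab hR N hv.continuous (fun p => h0 _) θ) (mul_self_nonneg θ⁻¹)
    rw [← integral_const_mul, ← mul_assoc] at h4
    refine le_of_eq_of_le (integral_congr_ae (Eventually.of_forall fun p => ?_)) h4
    simp only
    ring
  refine le_of_eq_of_le (integral_congr_ae ?_) h3
  filter_upwards [(nrm_good N).diff] with p hp
  rw [gradient_comp' hp (hu (N p)), real_inner_smul_left]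
  ring

end ConvAux

open ConvAux

theorem conv_ineq (N : Seminorm ℝ (E n)) {u u' : ℝ → ℝ} (hu : ∀ s, HasDerivAt u (u' s) s)
    (hu' : Continuous u') (h0 : ∀ s, 0 ≤ u s) :
    ∫ p, u' (N p) * ‖tg (fun x => N x) p‖ ^ 2 ∂sph n ≤
      ((n : ℝ) - 1) * ∫ p, N p * u (N p) ∂sph n := by
  classical
  set b := EuclideanSpace.basisFun (Fin n) ℝ
  set g := gradient (fun x => N x) with hg
  have hN := nrm_continuous N
  have huc : Continuous u := continuous_iff_continuousAt.2 fun s => (hu s).continuousAt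
  let F : Fin n → Fin n → E n → ℝ := fun i j p =>
    u' (N p) * ⟪g p, ⟪b i, p⟫ • b j - ⟪b j, p⟫ • b i⟫ ^ 2
  let G : Fin n → Fin n → E n → ℝ := fun i j p =>
    u (N p) * ⟪g p, ⟪b i, p⟫ • b i + ⟪b j, p⟫ • b j⟫
  have hF : ∀ i j, Integrable (F i j) (sph n) := fun i j => by
    have h1 := memLp_inner (nrm_good N) (w := fun p => ⟪b i, p⟫ • b j - ⟪b j, p⟫ • b i)
      (by fun_prop)
    have h2 := (h1.mul' (r := ∞) h1).mul' (r := ∞)
      (memLp_of_continuous (f := fun p => u' (N p)) (by fun_prop) ∞)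
    simpa only [F, sq] using h2.integrable le_top
  have hG : ∀ i j, Integrable (G i j) (sph n) := fun i j =>
    ((memLp_inner (nrm_good N) (by fun_prop)).mul' (r := ∞)
      (memLp_of_continuous (f := fun p => u (N p)) (by fun_prop) ∞)).integrable le_top
  have h1 : ∀ i j, ∫ p, F i j p ∂sph n ≤
      ∫ p, G i j p ∂sph n - if i = j then ∫ p, G i i p ∂sph n else 0 := by
    intro i j
    split_ifs with hij
    · subst hij
      simp [F]
    · rw [sub_zero]
      exact pair_ineq (b.orthonormal.1 i) (b.orthonormal.1 j) (b.orthonormal.2 hij) N hu hu' h0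
  have h2 := Finset.sum_le_sum fun i (_ : i ∈ Finset.univ) =>
    Finset.sum_le_sum fun j (_ : j ∈ Finset.univ) => h1 i j
  simp only [Finset.sum_sub_distrib, Finset.sum_ite_eq, Finset.mem_univ, if_true] at h2
  simp only [← integral_finsetSum _ fun j _ => hF _ j,
    ← integral_finsetSum _ fun j _ => hG _ j] at h2
  rw [← integral_finsetSum _ fun i _ => integrable_finsetSum _ fun j _ => hF i j,
    ← integral_finsetSum _ fun i _ => integrable_finsetSum _ fun j _ => hG i j] at h2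
  have e1 : ∫ p, ∑ i, ∑ j, F i j p ∂sph n =
      2 * ∫ p, u' (N p) * ‖tg (fun x => N x) p‖ ^ 2 ∂sph n := by
    rw [← integral_const_mul]
    refine integral_congr_ae ?_
    filter_upwards [ae_norm] with p hp
    have e : ∀ i j, F i j p = u' (N p) * ((⟪p, b i⟫ * ⟪b i, p⟫) * (⟪g p, b j⟫ * ⟪b j, g p⟫) +
        (⟪g p, b i⟫ * ⟪b i, g p⟫) * (⟪p, b j⟫ * ⟪b j, p⟫) -
        2 * (⟪g p, b i⟫ * ⟪b i, p⟫) * (⟪g p, b j⟫ * ⟪b j, p⟫)) := by
      intro i j
      simp only [F, inner_sub_right, real_inner_smul_right, real_inner_comm p (b i),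
        real_inner_comm p (b j), real_inner_comm (g p) (b i), real_inner_comm (g p) (b j)]
      ring
    simp only [e, ← Finset.mul_sum, Finset.sum_sub_distrib, Finset.sum_add_distrib,
      ← Finset.sum_mul, b.sum_inner_mul_inner]
    rw [tg, norm_sub_sq_real, real_inner_smul_right, norm_smul, real_inner_self_eq_norm_sq,
      real_inner_self_eq_norm_sq, hp, mul_one, Real.norm_eq_abs, sq_abs, ← hg]
    ring
  have eG : ∀ i j p, G i j p = u (N p) * (⟪g p, b i⟫ * ⟪b i, p⟫ + ⟪g p, b j⟫ * ⟪b j, p⟫) := by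
    intro i j p
    simp only [G, inner_add_right, real_inner_smul_right]
    ring
  have e2 : ∫ p, ∑ i, ∑ j, G i j p ∂sph n = 2 * n * ∫ p, N p * u (N p) ∂sph n := by
    rw [← integral_const_mul]
    refine integral_congr_ae ?_
    filter_upwards [(nrm_good N).diff] with p hp
    simp only [eG, ← Finset.mul_sum, Finset.sum_add_distrib, b.sum_inner_mul_inner,
      Finset.sum_const, Finset.card_univ, Fintype.card_fin, nsmul_eq_mul]
    simp only [mul_left_comm _ (n : ℝ), ← Finset.mul_sum, b.sum_inner_mul_inner]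
    rw [hg, nrm_euler N hp]
    ring
  have e3 : ∫ p, ∑ i, G i i p ∂sph n = 2 * ∫ p, N p * u (N p) ∂sph n := by
    rw [← integral_const_mul]
    refine integral_congr_ae ?_
    filter_upwards [(nrm_good N).diff] with p hp
    simp only [eG, ← Finset.mul_sum, Finset.sum_add_distrib, b.sum_inner_mul_inner]
    rw [hg, nrm_euler N hp]
    ring
  rw [e1, e2, e3] at h2
  linarith

end Crest.Agent.R230
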