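import Crest.Agent.R230.Defs

set_option autoImplicit false
open MeasureTheory Filter Topology
open scoped ENNReal RealInnerProductSpace Pointwise

namespace Crest.Agent.R230

variable {n : ℕ}

/-! One-dimensional inequalities. -/

namespace OneDAux

noncomputable def G (r : ℕ) (s : ℝ) : ℝ := (1 - s⁻¹ ^ r) / r

lemma psi_eq (r : ℕ) (s : ℝ) : psi r s = s - 1 - G r s := rfl

lemma G_one (r : ℕ) : G r 1 = 0 := by simp [G]

lemma psi_one (r : ℕ) : psi r 1 = 0 := by simp [psi]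

lemma hasDerivAt_G {r : ℕ} (hr : 1 ≤ r) {s : ℝ} (hs : s ≠ 0) :
    HasDerivAt (G r) (s⁻¹ ^ (r + 1)) s := by
  obtain ⟨m, rfl⟩ : ∃ m, r = m + 1 := ⟨r - 1, by omega⟩
  have h1 := ((hasDerivAt_inv hs).fun_pow (m + 1)).const_sub 1 |>.div_const ((m + 1 : ℕ) : ℝ)
  have hm : ((m + 1 : ℕ) : ℝ) ≠ 0 := by positivity
  refine HasDerivAt.congr_deriv h1 ?_
  simp only [Nat.add_sub_cancel]
  rw [← inv_pow, div_eq_iff hm]
  ring

lemma hasDerivAt_psi {r : ℕ} (hr : 1 ≤ r) {s : ℝ} (hs : s ≠ 0) :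
    HasDerivAt (psi r) (1 - s⁻¹ ^ (r + 1)) s :=
  ((hasDerivAt_id s).sub_const 1).sub (hasDerivAt_G hr hs)

lemma mul_G {r : ℕ} (hr : 1 ≤ r) (s : ℝ) : (r : ℝ) * G r s = 1 - s⁻¹ ^ r := by
  have : (r : ℝ) ≠ 0 := by positivity
  unfold G; field_simp

lemma G_le {r : ℕ} (hr : 1 ≤ r) {s : ℝ} (hs : 0 < s) : G r s ≤ 1 - s⁻¹ := by
  have h0 : (0 : ℝ) < r := by positivity
  have h1 : 1 + (r : ℝ) * (s⁻¹ - 1) ≤ (1 + (s⁻¹ - 1)) ^ r :=
    one_add_mul_le_pow (by have := inv_pos.2 hs; linarith) r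
  rw [add_sub_cancel] at h1
  unfold G
  rw [div_le_iff₀ h0]; linarith

lemma G_nonneg {r : ℕ} {s : ℝ} (hs : 1 ≤ s) : 0 ≤ G r s := by
  have : s⁻¹ ^ r ≤ 1 := pow_le_one₀ (by positivity) (inv_le_one_of_one_le₀ hs)
  unfold G
  exact div_nonneg (by linarith) (by positivity)

lemma psi_ge {r : ℕ} (hr : 1 ≤ r) {s : ℝ} (hs : 0 < s) : (s - 1) ^ 2 / s ≤ psi r s := by
  have h1 := G_le hr hs
  have h2 : (s - 1) ^ 2 / s = s - 1 - (1 - s⁻¹) := by field_simp
  rw [psi_eq, h2]; linarith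

lemma nonneg_right {f f' : ℝ → ℝ} (hf : ∀ s, 1 ≤ s → HasDerivAt f (f' s) s)
    (h' : ∀ s, 1 ≤ s → 0 ≤ f' s) (h1 : f 1 = 0) {s : ℝ} (hs : 1 ≤ s) : 0 ≤ f s := by
  have hm : MonotoneOn f (Set.Ici 1) := by
    refine monotoneOn_of_deriv_nonneg (convex_Ici 1)
      (fun x hx => (hf x hx).continuousAt.continuousWithinAt)
      (fun x hx => (hf x (interior_subset hx)).differentiableAt.differentiableWithinAt)
      fun x hx => ?_
    rw [(hf x (interior_subset hx)).deriv]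
    exact h' x (interior_subset hx)
  rw [← h1]
  exact hm (Set.mem_Ici.2 le_rfl) hs hs

lemma nonneg_left {f f' : ℝ → ℝ} (hf : ∀ s, 0 < s → HasDerivAt f (f' s) s)
    (h' : ∀ s, 0 < s → s ≤ 1 → f' s ≤ 0) (h1 : f 1 = 0) {s : ℝ} (hs0 : 0 < s) (hs : s ≤ 1) :
    0 ≤ f s := by
  have hm : AntitoneOn f (Set.Ioc 0 1) := by
    refine antitoneOn_of_deriv_nonpos (convex_Ioc 0 1)
      (fun x hx => (hf x hx.1).continuousAt.continuousWithinAt)
      (fun x hx => (hf x (interior_subset hx).1).differentiableAt.differentiableWithinAt)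
      fun x hx => ?_
    rw [(hf x (interior_subset hx).1).deriv]
    exact h' x (interior_subset hx).1 (interior_subset hx).2
  rw [← h1]
  exact hm ⟨hs0, hs⟩ ⟨one_pos, le_rfl⟩ hs

lemma glue {f f' : ℝ → ℝ} (hf : ∀ s, 1 ≤ s → HasDerivAt f (f' s) s) (h1 : f' 1 = 0) (s : ℝ) :
    HasDerivAt (fun x => f (max x 1)) (f' (max s 1)) s := by
  rcases lt_trichotomy s 1 with h | h | h
  · rw [max_eq_right h.le, h1]
    refine (hasDerivAt_const s (f 1)).congr_of_eventuallyEq ?_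
    filter_upwards [Iio_mem_nhds h] with x hx
    rw [max_eq_right (le_of_lt hx)]
  · subst h
    rw [max_self, h1]
    have hl : HasDerivWithinAt (fun x => f (max x 1)) 0 (Set.Iic 1) 1 :=
      (hasDerivWithinAt_const (1 : ℝ) (Set.Iic 1) (f 1)).congr
        (fun x hx => by rw [max_eq_right hx]) (by rw [max_self])
    have hr : HasDerivWithinAt (fun x => f (max x 1)) 0 (Set.Ici 1) 1 := by
      have := (hf 1 le_rfl).hasDerivWithinAt (s := Set.Ici 1)
      rw [h1] at this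
      exact this.congr (fun x hx => by rw [max_eq_left hx]) (by rw [max_self])
    have := hl.union hr
    rwa [Set.Iic_union_Ici, hasDerivWithinAt_univ] at this
  · rw [max_eq_left h.le]
    refine (hf s h.le).congr_of_eventuallyEq ?_
    filter_upwards [Ioi_mem_nhds h] with x hx
    rw [max_eq_left (le_of_lt hx)]

lemma psi_left {r : ℕ} (hr : 1 ≤ r) {s : ℝ} (hs0 : 0 < s) (hs : s ≤ 1) :
    ((r : ℝ) + 1) / 2 * (s - 1) ^ 2 ≤ psi r s := by
  have := nonneg_left (f := fun s => psi r s - ((r : ℝ) + 1) / 2 * (s - 1) ^ 2)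
    (f' := fun s => 1 - s⁻¹ ^ (r + 1) - ((r : ℝ) + 1) * (s - 1)) (fun s hs => by
      have h2 := (((hasDerivAt_id s).sub_const 1).fun_pow 2).const_mul (((r : ℝ) + 1) / 2)
      refine HasDerivAt.congr_deriv ((hasDerivAt_psi hr hs.ne').sub h2) ?_
      simp; ring) (fun s hs0 hs => by
      have hi := inv_pos.2 hs0
      have h1 : 1 + ((r + 1 : ℕ) : ℝ) * (s⁻¹ - 1) ≤ (1 + (s⁻¹ - 1)) ^ (r + 1) :=
        one_add_mul_le_pow (by linarith) (r + 1)
      rw [add_sub_cancel] at h1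
      push_cast at h1
      have h2 : 1 - s ≤ s⁻¹ - 1 := by
        have : s⁻¹ - 1 - (1 - s) = (s - 1) ^ 2 / s := by field_simp; ring
        have h3 : 0 ≤ (s - 1) ^ 2 / s := by positivity
        linarith
      have h3 : ((r : ℝ) + 1) * (1 - s) ≤ ((r : ℝ) + 1) * (s⁻¹ - 1) :=
        mul_le_mul_of_nonneg_left h2 (by positivity)
      linarith) (by simp [psi_one]) hs0 hs
  linarith

/-- the key lower bound of `ψ` in terms of `G` -/
lemma lemmaA {r : ℕ} (hr : 1 ≤ r) {s : ℝ} (hs : 1 ≤ s) :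
    ((r : ℝ) + 1) / 2 * G r s ^ 2 ≤ psi r s * (1 - (2 * (r : ℝ) + 1) / 3 * G r s) := by
  set β : ℝ := (2 * (r : ℝ) + 1) / 3 with hβ
  have hrR : (1 : ℝ) ≤ r := by exact_mod_cast hr
  have hinv : ∀ s : ℝ, 1 ≤ s → ∀ k : ℕ, s ^ k * s⁻¹ ^ k = 1 := fun s hs k => by
    rw [← mul_pow, mul_inv_cancel₀ (by positivity), one_pow]
  have h2 : ∀ s : ℝ, 1 ≤ s → 0 ≤ ((r : ℝ) + 1) * s ^ (2 * r + 1) * (1 - β * G r s) -
      2 * β * (s ^ (r + 1) - 1) - ((r : ℝ) + 1) := by
    intro s hs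
    refine nonneg_right (f := fun s => ((r : ℝ) + 1) * s ^ (2 * r + 1) * (1 - β * G r s) -
      2 * β * (s ^ (r + 1) - 1) - ((r : ℝ) + 1))
      (f' := fun s => ((r : ℝ) + 1) * (2 * r + 1) * s ^ r * (s ^ r * (1 - β * G r s) - 1))
      (fun s hs => ?_) (fun s hs => ?_) (by simp [G_one]) hs
    · have hs0 : s ≠ 0 := by positivity
      have e1 := (((hasDerivAt_pow (2 * r + 1) s).const_mul ((r : ℝ) + 1)).mul
        (((hasDerivAt_G hr hs0).const_mul β).const_sub 1)).sub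
        ((((hasDerivAt_pow (r + 1) s).sub_const 1).const_mul (2 * β)))
      refine HasDerivAt.congr_deriv (e1.sub_const ((r : ℝ) + 1)) ?_
      simp only [Nat.add_sub_cancel]
      have e2 : s ^ (2 * r + 1) * s⁻¹ ^ (r + 1) = s ^ r := by
        calc s ^ (2 * r + 1) * s⁻¹ ^ (r + 1) = s ^ r * (s ^ (r + 1) * s⁻¹ ^ (r + 1)) := by ring
          _ = s ^ r := by rw [hinv s hs, mul_one]
      have e3 : s ^ (2 * r) = s ^ r * s ^ r := by ring
      push_cast
      rw [e3]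
      have e4 : ((r : ℝ) + 1) * s ^ (2 * r + 1) * -(β * s⁻¹ ^ (r + 1)) =
          -(((r : ℝ) + 1) * β * s ^ r) := by rw [← e2]; ring
      rw [e4, hβ]; ring
    · have hG := G_nonneg (r := r) hs
      have e1 := mul_G hr s
      have e2 := hinv s hs r
      have hp : 0 < s ^ r := by positivity
      have e3 : s ^ r * (1 - β * G r s) - 1 = s ^ r * (((r : ℝ) - β) * G r s) := by
        have : s⁻¹ ^ r = 1 - r * G r s := by linarith
        rw [this] at e2
        linear_combination e2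
      have e4 : 0 ≤ (r : ℝ) - β := by rw [hβ]; linarith
      rw [e3]; positivity
  have h1 : ∀ s : ℝ, 1 ≤ s → 0 ≤ (s ^ (r + 1) - 1) * (1 - β * G r s) - β * psi r s -
      ((r : ℝ) + 1) * G r s := by
    intro s hs
    refine nonneg_right (f := fun s => (s ^ (r + 1) - 1) * (1 - β * G r s) - β * psi r s -
      ((r : ℝ) + 1) * G r s)
      (f' := fun s => s⁻¹ ^ (r + 1) * (((r : ℝ) + 1) * s ^ (2 * r + 1) * (1 - β * G r s) -
      2 * β * (s ^ (r + 1) - 1) - ((r : ℝ) + 1)))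
      (fun s hs => ?_) (fun s hs => mul_nonneg (by positivity) (h2 s hs))
      (by simp [G_one, psi_one]) hs
    have hs0 : s ≠ 0 := by positivity
    have e1 := ((((hasDerivAt_pow (r + 1) s).sub_const 1).mul
      (((hasDerivAt_G hr hs0).const_mul β).const_sub 1)).sub
      ((hasDerivAt_psi hr hs0).const_mul β)).sub ((hasDerivAt_G hr hs0).const_mul ((r : ℝ) + 1))
    refine HasDerivAt.congr_deriv e1 ?_
    simp only [Nat.add_sub_cancel]
    have e2 : s ^ (2 * r + 1) * s⁻¹ ^ (r + 1) = s ^ r := by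
      calc s ^ (2 * r + 1) * s⁻¹ ^ (r + 1) = s ^ r * (s ^ (r + 1) * s⁻¹ ^ (r + 1)) := by ring
        _ = s ^ r := by rw [hinv s hs, mul_one]
    have e3 := hinv s hs (r + 1)
    push_cast
    linear_combination -(((r : ℝ) + 1) * (1 - β * G r s)) * e2 + β * e3
  have h0 := nonneg_right (f := fun s => psi r s * (1 - β * G r s) - ((r : ℝ) + 1) / 2 * G r s ^ 2)
    (f' := fun s => s⁻¹ ^ (r + 1) * ((s ^ (r + 1) - 1) * (1 - β * G r s) - β * psi r s -
      ((r : ℝ) + 1) * G r s)) (fun s hs => ?_) (fun s hs => mul_nonneg (by positivity) (h1 s hs))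
      (by simp [G_one, psi_one]) hs
  · linarith
  have hs0 : s ≠ 0 := by positivity
  have e1 := ((hasDerivAt_psi hr hs0).mul
    (((hasDerivAt_G hr hs0).const_mul β).const_sub 1)).sub
    (((hasDerivAt_G hr hs0).fun_pow 2).const_mul (((r : ℝ) + 1) / 2))
  refine HasDerivAt.congr_deriv e1 ?_
  have e3 := hinv s hs (r + 1)
  simp only [Nat.add_one_sub_one, pow_one, Nat.cast_ofNat]
  linear_combination -(1 - β * G r s) * e3

noncomputable def u0 (r : ℕ) (s : ℝ) : ℝ :=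
  psi r s - (((r : ℝ) + 1) / 2 - r * G r s / 3) * G r s ^ 2

noncomputable def u1 (r : ℕ) (s : ℝ) : ℝ :=
  1 - s⁻¹ ^ (r + 1) - (((r : ℝ) + 1) * G r s - r * G r s ^ 2) * s⁻¹ ^ (r + 1)

lemma hasDerivAt_u0 {r : ℕ} (hr : 1 ≤ r) {s : ℝ} (hs : s ≠ 0) :
    HasDerivAt (u0 r) (u1 r s) s := by
  have e1 := (hasDerivAt_psi hr hs).sub
    (((((hasDerivAt_G hr hs).const_mul (r : ℝ)).div_const 3).const_sub (((r : ℝ) + 1) / 2)).mul
      ((hasDerivAt_G hr hs).fun_pow 2))
  refine HasDerivAt.congr_deriv e1 ?_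
  simp only [u1, Nat.add_one_sub_one, pow_one, Nat.cast_ofNat]
  ring

lemma sq_le_u1 {r : ℕ} (hr : 1 ≤ r) {s : ℝ} (hs : 1 ≤ s) :
    (1 - s⁻¹ ^ (r + 1)) ^ 2 ≤ u1 r s := by
  have hs0 : 0 < s := by positivity
  have h1 := G_le hr hs0
  have h2 := mul_G hr s
  have h3 : 0 ≤ s⁻¹ ^ r := by positivity
  have h4 : s⁻¹ ^ (r + 1) ≤ (1 - G r s) * (1 - r * G r s) := by
    rw [pow_succ', h2, sub_sub_cancel]
    exact mul_le_mul_of_nonneg_right (by linarith) h3
  have h5 : 0 ≤ s⁻¹ ^ (r + 1) := by positivity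
  have h6 : (((r : ℝ) + 1) * G r s - r * G r s ^ 2) * s⁻¹ ^ (r + 1) ≤
      (1 - s⁻¹ ^ (r + 1)) * s⁻¹ ^ (r + 1) :=
    mul_le_mul_of_nonneg_right (by nlinarith) h5
  unfold u1; nlinarith

lemma continuous_inv_max : Continuous fun s : ℝ => (max s 1)⁻¹ :=
  (continuous_id.max continuous_const).inv₀ fun s =>
    (lt_of_lt_of_le one_pos (le_max_right s 1)).ne'

end OneDAux

open OneDAux

theorem psi_nonneg (hn : 1 ≤ n) {s : ℝ} (hs : 0 < s) : 0 ≤ psi n s :=
  le_trans (by positivity) (psi_ge hn hs)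

theorem eq_one_of_psi (hn : 1 ≤ n) {s : ℝ} (hs : 0 < s) (h : psi n s = 0) : s = 1 := by
  have h1 := psi_ge hn hs
  rw [h, div_le_iff₀ hs, zero_mul] at h1
  nlinarith [sq_nonneg (s - 1)]

theorem oneD (hn : 2 ≤ n) : ∃ H H' u u' : ℝ → ℝ,
    (∀ s, HasDerivAt H (H' s) s) ∧ Continuous H' ∧ (∀ s, HasDerivAt u (u' s) s) ∧ Continuous u' ∧
    (∀ s, 0 ≤ u s) ∧ (∀ s, H' s ^ 2 ≤ u' s) ∧ (∀ s, 0 < s → 0 ≤ H s ∧ H s ≤ psi n s) ∧
    ∀ a b L A : ℝ, Par n a b L A → ∀ s, 0 < s →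
      a * (s - 1 - H s) ^ 2 + 2 * b * ((s - 1 - H s) * H s) - L * H s ^ 2 + L * (s * u s) ≤
        A * psi n s := by
  have hn1 : 1 ≤ n := by omega
  have hnR : (2 : ℝ) ≤ n := by exact_mod_cast hn
  have hc := continuous_inv_max
  refine ⟨fun s => psi n (max s 1), fun s => 1 - (max s 1)⁻¹ ^ (n + 1), fun s => u0 n (max s 1),
    fun s => u1 n (max s 1), fun s => ?_, by fun_prop, fun s => ?_, ?_, fun s => ?_,
    fun s => sq_le_u1 hn1 (le_max_right s 1), fun s hs => ?_, fun a b L A hP s hs => ?_⟩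
  · exact glue (f := psi n) (f' := fun s => 1 - s⁻¹ ^ (n + 1))
      (fun s hs => hasDerivAt_psi hn1 (by positivity)) (by simp) s
  · exact glue (f := u0 n) (f' := u1 n) (fun s hs => hasDerivAt_u0 hn1 (by positivity))
      (by simp [u1, G_one]) s
  · unfold u1 G
    fun_prop
  · exact nonneg_right (f := u0 n) (f' := u1 n) (fun s hs => hasDerivAt_u0 hn1 (by positivity))
      (fun s hs => le_trans (sq_nonneg _) (sq_le_u1 hn1 hs)) (by simp [u0, G_one, psi_one])
      (le_max_right s 1)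
  · rcases le_total s 1 with h | h
    · simp only [max_eq_right h, psi_one]
      exact ⟨le_rfl, psi_nonneg hn1 hs⟩
    · simp only [max_eq_left h]
      exact ⟨psi_nonneg hn1 hs, le_rfl⟩
  · have hcc : 0 < cc n := by unfold cc; positivity
    have ha := hP.ha
    have hA := hP.hA
    have hA0 : 0 ≤ A := by
      by_contra hh
      push Not at hh
      nlinarith
    rcases le_total s 1 with h | h
    · simp only [max_eq_right h, psi_one, u0, G_one]
      have h1 := psi_left hn1 hs h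
      have h2 := mul_le_mul_of_nonneg_left h1 hA0
      have h3 := mul_le_mul_of_nonneg_right hA (sq_nonneg (s - 1))
      nlinarith
    · simp only [max_eq_left h, u0]
      have hG0 := G_nonneg (r := n) h
      have hG1 : (n : ℝ) * G n s ≤ 1 := by
        rw [mul_G hn1]
        have : 0 ≤ s⁻¹ ^ n := by positivity
        linarith
      have hK := hP.hK _ hG0 hG1
      have hQ := hP.hP _ hG0 hG1
      have hLA := lemmaA hn1 h
      have hs' : s = 1 + G n s + psi n s := by rw [psi_eq]; ring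
      generalize G n s = g at *
      generalize psi n s = y at *
      subst hs'
      set K := A - L - (2 * b + L) * g + L * ((((n : ℝ) + 1) / 2 - n * g / 3) * g ^ 2) with hKd
      set T := a - L * (1 + g) * (((n : ℝ) + 1) / 2 - n * g / 3) with hT
      have hβ : 0 < 1 - (2 * (n : ℝ) + 1) / 3 * g := by nlinarith
      have h1 : T * g ^ 2 * (1 - (2 * (n : ℝ) + 1) / 3 * g) ≤
          y * K * (1 - (2 * (n : ℝ) + 1) / 3 * g) := by
        have e1 := mul_le_mul_of_nonneg_right hQ (sq_nonneg g)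
        have e2 := mul_le_mul_of_nonneg_right hLA hK
        nlinarith
      have h2 : T * g ^ 2 ≤ y * K := le_of_mul_le_mul_right h1 hβ
      rw [hT, hKd] at h2
      nlinarith

end Crest.Agent.R230
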