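import Crest.Agent.R230.Defs

set_option autoImplicit false
open MeasureTheory Filter Topology
open scoped ENNReal RealInnerProductSpace Pointwise

namespace Crest.Agent.R230

variable {n : ℕ}

/-! Choice of the parameters and the final algebra. -/

theorem cc_pos (n : ℕ) : 0 < cc n := by
  unfold cc; positivity

theorem cc_le (n : ℕ) : cc n ≤ 4 := by
  have hn : (0 : ℝ) ≤ n := Nat.cast_nonneg n
  unfold cc
  rw [div_le_iff₀ (by positivity)]
  nlinarith

namespace ParamAux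

theorem small (hn : 4 ≤ n) (hn' : n ≤ 15) :
    Par n ((n : ℝ) + 17 / 20) (((n : ℝ) + 5) / 7) 1 (199 / 100) := by
  have h4 : (4 : ℝ) ≤ n := by exact_mod_cast hn
  have h15 : (n : ℝ) ≤ 15 := by exact_mod_cast hn'
  refine ⟨by linarith [cc_le n], by positivity, zero_le_one, ?_, ?_, ?_, ?_, ?_⟩
  · unfold cc
    interval_cases n <;> norm_num
  · interval_cases n <;> norm_num
  · interval_cases n <;> norm_num
  · intro G hG h
    have h1 := sub_nonneg.2 h
    have b0 := pow_nonneg hG 3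
    have b1 := mul_nonneg (pow_nonneg hG 2) h1
    have b2 := mul_nonneg hG (pow_nonneg h1 2)
    have b3 := pow_nonneg h1 3
    interval_cases n <;> push_cast at * <;> linarith
  · intro G hG h
    have h1 := sub_nonneg.2 h
    have b0 := pow_nonneg hG 3
    have b1 := mul_nonneg (pow_nonneg hG 2) h1
    have b2 := mul_nonneg hG (pow_nonneg h1 2)
    have b3 := pow_nonneg h1 3
    interval_cases n <;> push_cast at * <;> linarith

theorem large (hn : 16 ≤ n) : Par n (4 * ((n : ℝ) + 1) / 5) 0 (3 / 2) (5 / 3) := by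
  have h16 : (16 : ℝ) ≤ n := by exact_mod_cast hn
  have h1 : (0 : ℝ) < n - 1 := by linarith
  have hc := cc_le n
  have hc0 := cc_pos n
  refine ⟨by linarith, le_rfl, by norm_num, ?_, ?_, by linarith, ?_, ?_⟩
  · obtain ⟨d, hd⟩ : ∃ d : ℝ, d = 3 / 2 * (3 * (n : ℝ) + 9) / ((n : ℝ) - 1) := ⟨_, rfl⟩
    rw [← hd]
    have hd0 : 0 ≤ d := by rw [hd]; positivity
    have h2 : 16 ≤ (4 * ((n : ℝ) + 1) / 5 - 4) * (d - 4) := by
      have : d - 4 = (n + 35) / (2 * (n - 1)) := by rw [hd]; field_simp; ring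
      rw [this, ← mul_div_assoc, le_div_iff₀ (by positivity)]
      nlinarith
    have h3 : 0 ≤ (4 - cc n) * (4 * ((n : ℝ) + 1) / 5 + d) := by
      have := sub_nonneg.2 hc
      positivity
    nlinarith
  · rw [zero_pow two_ne_zero]
    positivity
  · intro G hG h
    have hG' : G ≤ 1 / 16 := by nlinarith
    have h2 : 0 ≤ (((n : ℝ) + 1) / 2 - n * G / 3) * G ^ 2 :=
      mul_nonneg (by linarith) (sq_nonneg G)
    linarith
  · intro G hG h
    have hG' : G ≤ 1 / 16 := by nlinarith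
    have h2 : 0 ≤ (((n : ℝ) + 1) / 2 - n * G / 3) * G ^ 2 :=
      mul_nonneg (by linarith) (sq_nonneg G)
    have h3 : 4 * ((n : ℝ) + 1) / 5 - 3 / 2 * (1 + G) * (((n : ℝ) + 1) / 2 - n * G / 3) ≤
        (n + 1) * (1 / 20 - G / 4) := by
      nlinarith [mul_nonneg hG (sub_nonneg.2 h)]
    have h4 : 0 ≤ 1 - (2 * (n : ℝ) + 1) / 3 * G := by linarith
    have h5 : 1 - (2 * (n : ℝ) + 1) / 3 * G ≤ 1 := by
      have : 0 ≤ (2 * (n : ℝ) + 1) / 3 * G := by positivity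
      linarith
    have h6 : 0 ≤ ((n : ℝ) + 1) * (1 / 20 - G / 4) := mul_nonneg (by linarith) (by linarith)
    refine (mul_le_mul_of_nonneg_right h3 h4).trans ((mul_le_of_le_one_right h6 h5).trans ?_)
    have h7 : ((n : ℝ) + 1) * (1 / 20 - G / 4) = ((n : ℝ) + 1) / 2 * (1 / 10 - G / 2) := by ring
    rw [h7]
    exact mul_le_mul_of_nonneg_left (by linarith) (by linarith)

theorem prod {L A a a' Y Y' : ℝ} (hLA : (L ≤ 1 ∧ A < 2) ∨ (L ≤ 5 / 3 ∧ A ≤ 5 / 3))
    (ha : 1 ≤ a) (ha' : 1 < a') (hY0 : 0 ≤ Y) (hY0' : 0 ≤ Y')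
    (hY : Y ≤ A * (a - 1) + L * (a - 1) ^ 2) (hY' : Y' ≤ A * (a' - 1) + L * (a' - 1) ^ 2)
    (hL : Y' ≤ a' ^ 2 / 2) : Y * Y' < (a * a' - 1) ^ 2 := by
  have hp : 0 ≤ a - 1 := sub_nonneg.2 ha
  have hp' : 0 < a' - 1 := sub_pos.2 ha'
  have hpos : 0 < a * a' - 1 := by nlinarith
  rcases hY0.eq_or_lt with rfl | hYpos
  · rw [zero_mul]
    positivity
  rcases hLA with ⟨hL1, hA⟩ | ⟨hL1, hA⟩
  · have h1 : Y ≤ a ^ 2 - 1 := by
      nlinarith [mul_nonneg (sub_nonneg.2 hL1) (sq_nonneg (a - 1)),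
        mul_nonneg (sub_nonneg.2 hA.le) hp]
    have h2 : Y' < a' ^ 2 - 1 := by
      nlinarith [mul_nonneg (sub_nonneg.2 hL1) (sq_nonneg (a' - 1)),
        mul_pos (sub_pos.2 hA) hp']
    calc Y * Y' < Y * (a' ^ 2 - 1) := mul_lt_mul_of_pos_left h2 hYpos
      _ ≤ (a ^ 2 - 1) * (a' ^ 2 - 1) := mul_le_mul_of_nonneg_right h1 (by linarith)
      _ ≤ _ := by nlinarith [sq_nonneg (a - a')]
  · have h1 : Y ≤ 5 / 3 * (a * (a - 1)) := by
      nlinarith [mul_nonneg (sub_nonneg.2 hL1) (sq_nonneg (a - 1)),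
        mul_nonneg (sub_nonneg.2 hA) hp]
    have hp0 : 0 < a - 1 := by
      rcases hp.eq_or_lt with h | h
      · rw [← h] at h1
        linarith
      · exact h
    rcases le_total a' (10 / 7) with h | h
    · have h2 : Y' ≤ 5 / 3 * (a' * (a' - 1)) := by
        nlinarith [mul_nonneg (sub_nonneg.2 hL1) (sq_nonneg (a' - 1)),
          mul_nonneg (sub_nonneg.2 hA) hp'.le]
      refine (mul_le_mul h1 h2 hY0' (by positivity)).trans_lt ?_
      have h3 : 0 < (a - 1) ^ 2 * a' * (25 / 9 - 625 / 324 * a') :=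
        mul_pos (by positivity) (by linarith)
      nlinarith [sq_nonneg ((a' - 1) - 7 / 18 * (a - 1) * a')]
    · refine (mul_le_mul h1 hL hY0' (by positivity)).trans_lt ?_
      have h3 : a' * (a - 7 / 10) ≤ a * a' - 1 := by nlinarith
      have h4 : 0 ≤ a' * (a - 7 / 10) := mul_nonneg (by linarith) (by linarith)
      refine lt_of_lt_of_le ?_ (pow_le_pow_left₀ h4 h3 2)
      have h5 : 5 / 6 * (a * (a - 1)) < (a - 7 / 10) ^ 2 := by
        nlinarith [sq_nonneg (a - 17 / 10)]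
      have h6 := mul_lt_mul_of_pos_left h5 (by positivity : 0 < a' ^ 2)
      nlinarith

end ParamAux

theorem exists_par (hn : 4 ≤ n) : ∃ a b L A : ℝ, Par n a b L A ∧
    ((L ≤ 1 ∧ A < 2) ∨ (L ≤ 5 / 3 ∧ A ≤ 5 / 3)) := by
  rcases le_or_gt n 15 with h | h
  · exact ⟨_, _, _, _, ParamAux.small hn h, Or.inl ⟨le_rfl, by norm_num⟩⟩
  · exact ⟨_, _, _, _, ParamAux.large h, Or.inr ⟨by norm_num, le_rfl⟩⟩

theorem final_alg {L A a a' Y Y' : ℝ} (hLA : (L ≤ 1 ∧ A < 2) ∨ (L ≤ 5 / 3 ∧ A ≤ 5 / 3))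
    (ha : 1 ≤ a) (ha' : 1 ≤ a') (hY0 : 0 ≤ Y) (hY0' : 0 ≤ Y')
    (hY : Y ≤ A * (a - 1) + L * (a - 1) ^ 2) (hY' : Y' ≤ A * (a' - 1) + L * (a' - 1) ^ 2)
    (hL : Y' ≤ a' ^ 2 / 2) :
    1 ≤ a * a' - Real.sqrt Y * Real.sqrt Y' ∧
      (1 < a' → 1 < a * a' - Real.sqrt Y * Real.sqrt Y') := by
  have key : 1 < a' → 1 < a * a' - Real.sqrt Y * Real.sqrt Y' := fun h => by
    have h1 := ParamAux.prod hLA ha h hY0 hY0' hY hY' hL
    have h2 : 0 < a * a' - 1 := by nlinarith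
    rw [← Real.sqrt_mul hY0]
    have := (Real.sqrt_lt' h2).2 h1
    linarith
  refine ⟨?_, key⟩
  rcases ha'.eq_or_lt with h | h
  · subst h
    have : Y' = 0 := le_antisymm (by simpa using hY') hY0'
    rw [this, Real.sqrt_zero]
    linarith
  · exact (key h).le

end Crest.Agent.R230
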