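import Crest.Agent.R230.Dirichlet
import Crest.Agent.R230.Conv
import Crest.Agent.R230.OneD
import Crest.Agent.R230.Param

set_option autoImplicit false
open MeasureTheory Filter Topology
open scoped ENNReal RealInnerProductSpace Pointwise

namespace Crest.Agent.R230

variable {n : ℕ}

/-! The stability inequality for Jensen's inequality `(∫ N⁻ⁿ)^(-1/n) ≤ ∫ N`. -/

namespace DiamondAux

lemma continuousOn_inv_pow {N : Seminorm ℝ (E n)} (hN : Pos N) (r : ℕ) :
    ContinuousOn (fun p => (N p)⁻¹ ^ r) {0}ᶜ :=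
  ((nrm_continuous N).continuousOn.inv₀ fun _ hp => (hN.pos hp).ne').pow r

lemma continuousOn_psi {N : Seminorm ℝ (E n)} (hN : Pos N) (r : ℕ) :
    ContinuousOn (fun p => psi r (N p)) {0}ᶜ :=
  ((nrm_continuous N).continuousOn.sub continuousOn_const).sub
    ((continuousOn_const.sub (continuousOn_inv_pow hN r)).div_const _)

lemma ae_pos {N : Seminorm ℝ (E n)} (hN : Pos N) : ∀ᵐ p ∂sph n, 0 < N p := by
  filter_upwards [ae_norm (n := n)] with p hp
  refine hN.pos ?_
  rintro rfl
  simp at hp

lemma psd {α β δ x y z : ℝ} (hα : 0 < α) (h : β ^ 2 ≤ α * δ) (hx : 0 ≤ x) (hz : 0 ≤ z)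
    (hy : y ^ 2 ≤ x * z) : 0 ≤ α * x + 2 * β * y + δ * z := by
  have hδ : 0 ≤ δ := by
    by_contra hd
    have : α * δ < 0 := mul_neg_of_pos_of_neg hα (not_le.1 hd)
    nlinarith [sq_nonneg β]
  have h1 : (β * y) ^ 2 ≤ ((α * x + δ * z) / 2) ^ 2 := by
    calc (β * y) ^ 2 = β ^ 2 * y ^ 2 := by ring
      _ ≤ (α * δ) * (x * z) := mul_le_mul h hy (sq_nonneg _) (by positivity)
      _ ≤ _ := by nlinarith [sq_nonneg (α * x - δ * z)]
  have h2 := abs_le_of_sq_le_sq' h1 (by positivity)
  linarith [h2.1]

lemma ip_expand (hn : 2 ≤ n) {k : ℕ} (hk : k ≠ 0) {g h : E n → ℝ} (hg : Continuous g)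
    (hh : Continuous h) :
    ip k (fun p => 1 + (g p + h p)) (fun p => 1 + (g p + h p)) =
      ip k g g + 2 * ip k g h + ip k h h := by
  have e : ∀ w : E n → ℝ, ip k (fun p => 1 + (g p + h p)) w = ip k g w + ip k h w := fun w => by
    rw [ip_add_left (f := fun _ => 1) (g := fun p => g p + h p) continuous_const (hg.add hh),
      ip_const_left hn hk, ip_add_left hg hh, zero_add]
  rw [e, ip_comm k g, ip_comm k h, e, e, ip_comm k h g]
  ring

end DiamondAux

open DiamondAux

theorem integral_psi (hn : 1 ≤ n) {N : Seminorm ℝ (E n)} (hN : Pos N) (h1 : vr N = 1) :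
    ∫ p, psi n (N p) ∂sph n = mean N - 1 := by
  have := sph_prob hn
  have i1 : Integrable (fun p => N p) (sph n) := integrable_of_continuous (nrm_continuous N)
  have i2 : Integrable (fun p => (N p)⁻¹ ^ n) (sph n) :=
    integrable_of_continuousOn (continuousOn_inv_pow hN n)
  have i3 : Integrable (fun p => N p - 1) (sph n) := i1.sub (integrable_const 1)
  have i4 : Integrable (fun p => 1 - (N p)⁻¹ ^ n) (sph n) := (integrable_const 1).sub i2
  unfold vr at h1
  unfold psi mean
  rw [integral_sub i3 (i4.div_const _), integral_sub i1 (integrable_const 1), integral_div,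
    integral_sub (integrable_const 1) i2, h1]
  simp

theorem one_le_mean (hn : 1 ≤ n) {N : Seminorm ℝ (E n)} (hN : Pos N) (h1 : vr N = 1) :
    1 ≤ mean N := by
  have h : 0 ≤ ∫ p, psi n (N p) ∂sph n := by
    refine integral_nonneg_of_ae ?_
    filter_upwards [ae_pos hN] with p hp
    exact psi_nonneg hn hp
  rw [integral_psi hn hN h1] at h
  linarith

theorem eq_norm_of_mean (hn : 1 ≤ n) {N : Seminorm ℝ (E n)} (hN : Pos N) (h1 : vr N = 1)
    (hm : mean N ≤ 1) (x : E n) : N x = ‖x‖ := by
  have h0 : ∫ p, psi n (N p) ∂sph n = 0 := by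
    rw [integral_psi hn hN h1]
    linarith [one_le_mean hn hN h1]
  have hnn : 0 ≤ᵐ[sph n] fun p => psi n (N p) := by
    filter_upwards [ae_pos hN] with p hp
    exact psi_nonneg hn hp
  rw [integral_eq_zero_iff_of_nonneg_ae hnn
    (integrable_of_continuousOn (continuousOn_psi hN n))] at h0
  have h2 : ∀ᵐ p ∂sph n, N p = 1 := by
    filter_upwards [ae_pos hN, h0] with p hp hp0
    exact eq_one_of_psi hn hp hp0
  by_cases hx : x = 0
  · simp [hx]
  have hx' : ‖x‖ ≠ 0 := norm_ne_zero_iff.2 hx
  have h3 : N (‖x‖⁻¹ • x) = 1 :=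
    eq_on_sphere (f := fun p => N p) (nrm_continuous N).continuousOn h2 (norm_smul_inv_norm hx)
  rw [map_smul_eq_mul, norm_inv, norm_norm] at h3
  field_simp at h3
  exact h3

theorem diamond (hn : 4 ≤ n) {N : Seminorm ℝ (E n)} (hN : Pos N) (h1 : vr N = 1) {a b L A : ℝ}
    (hP : Par n a b L A) :
    cc n * tail (fun x => N x) ≤ A * (mean N - 1) + L * (mean N - 1) ^ 2 := by
  have hn2 : 2 ≤ n := by omega
  have hn1 : 1 ≤ n := by omega
  have := sph_prob hn1
  have hnR : (4 : ℝ) ≤ n := by exact_mod_cast hn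
  have hn1' : (0 : ℝ) < n - 1 := by linarith
  obtain ⟨H, H', u, u', hH, hH', hu, hu', hu0, hHu, hHψ, hpt⟩ := oneD hn2
  have hNc := nrm_continuous N
  have hHc : Continuous H := continuous_iff_continuousAt.2 fun s => (hH s).continuousAt
  have huc : Continuous u := continuous_iff_continuousAt.2 fun s => (hu s).continuousAt
  set h : E n → ℝ := fun p => H (N p) with hh
  set g : E n → ℝ := fun p => N p - 1 - H (N p) with hg
  have hgood : Good h := (nrm_good N).comp hH hH'
  have hhc : Continuous h := hgood.continuous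
  have hgc : Continuous g := (hNc.sub continuous_const).sub hhc
  have hNe : (fun x => N x) = fun p => 1 + (g p + h p) := by
    funext p
    simp only [hg, hh]
    ring
  set P := mean N - 1 with hPdef
  set U := ∫ p, N p * u (N p) ∂sph n with hU
  -- the Dirichlet estimate
  have hD : ∀ J, ∑ k ∈ Finset.range J, lam n k * ip k h h ≤ (n - 1) * U := by
    intro J
    refine (dirichlet_bessel hn2 hgood J).trans (le_trans ?_ (conv_ineq N hu hu' hu0))
    have i1 : Integrable (fun p => ‖tg (fun x => N x) p‖ ^ 2) (sph n) :=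
      ((nrm_good N).memLp_tg 2).integrable_norm_pow two_ne_zero
    have i2 : Integrable (fun p => u' (N p) * ‖tg (fun x => N x) p‖ ^ 2) (sph n) := by
      have m1 : MemLp (fun p => u' (N p)) ⊤ (sph n) := memLp_of_continuous (hu'.comp hNc) ⊤
      exact i1.mul_of_top_right m1
    refine integral_mono_of_nonneg (Eventually.of_forall fun p => by positivity) i2 ?_
    filter_upwards [(nrm_good N).diff] with p hp
    rw [hh, tg_comp hp (hH (N p)), norm_smul, mul_pow, Real.norm_eq_abs, sq_abs]
    exact mul_le_mul_of_nonneg_right (hHu _) (sq_nonneg _)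
  set Q : ℕ → ℝ := fun k => a * ip k g g + 2 * b * ip k g h - L * ip k h h +
    L / (n - 1) * (lam n k * ip k h h) with hQ
  have hcc := cc_pos n
  have ha := hP.ha
  have hb := hP.hb
  have hL := hP.hL
  have hQ4 : ∀ k, 4 ≤ k → cc n * ip k (fun x => N x) (fun x => N x) ≤ Q k := by
    intro k hk
    rw [hNe, ip_expand hn2 (by omega) hgc hhc]
    have h2 := psd (sub_pos.2 ha) hP.hq (ip_self_nonneg k g) (ip_self_nonneg k h) (ip_sq_le k g h)
    have h3 : lam n 4 * ip k h h ≤ lam n k * ip k h h :=
      mul_le_mul_of_nonneg_right (lam_mono hn2 hk) (ip_self_nonneg k h)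
    have h4 := mul_le_mul_of_nonneg_left h3 (div_nonneg hL hn1'.le)
    have h5 : L / (n - 1) * (lam n 4 * ip k h h) =
        L * (3 * (n : ℝ) + 9) / ((n : ℝ) - 1) * ip k h h + L * ip k h h := by
      unfold lam
      field_simp
      push_cast
      ring
    simp only [hQ]
    linarith
  have hQ2 : 0 ≤ Q 2 := by
    have h2 := psd (hcc.trans ha) hP.h2 (ip_self_nonneg 2 g) (ip_self_nonneg 2 h) (ip_sq_le 2 g h)
    have h5 : L / (n - 1) * (lam n 2 * ip 2 h h) =
        L * ((n : ℝ) + 1) / ((n : ℝ) - 1) * ip 2 h h + L * ip 2 h h := by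
      unfold lam
      field_simp
      push_cast
      ring
    simp only [hQ]
    linarith
  have hQodd : ∀ k, Odd k → Q k = 0 := by
    intro k hk
    have e1 : ∀ w, ip k g w = 0 := ip_odd hk hgc fun p => by simp only [hg, map_neg_eq_map]
    have e2 : ∀ w, ip k h w = 0 := ip_odd hk hhc fun p => by simp only [hh, map_neg_eq_map]
    simp only [hQ, e1, e2]
    ring
  have iψ : Integrable (fun p => psi n (N p)) (sph n) :=
    integrable_of_continuousOn (continuousOn_psi hN n)
  have hψ := integral_psi hn1 hN h1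
  have hQ0 : -(L * P ^ 2) ≤ Q 0 := by
    have e0 : 0 ≤ ∫ p, h p ∂sph n := by
      refine integral_nonneg_of_ae ?_
      filter_upwards [ae_pos hN] with p hp
      exact (hHψ _ hp).1
    have e1 : ∫ p, h p ∂sph n ≤ P := by
      rw [hPdef, ← hψ]
      refine integral_mono_ae (integrable_of_continuous hhc) iψ ?_
      filter_upwards [ae_pos hN] with p hp
      exact (hHψ _ hp).2
    have e2 : ∫ p, g p ∂sph n = P - ∫ p, h p ∂sph n := by
      have i1 : Integrable (fun p => N p) (sph n) := integrable_of_continuous hNc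
      have i3 : Integrable (fun p => N p - 1) (sph n) := i1.sub (integrable_const 1)
      rw [hg, integral_sub i3 (integrable_of_continuous hhc), integral_sub i1 (integrable_const 1)]
      simp [hPdef, mean]
    have e3 : 0 ≤ ∫ p, g p ∂sph n := by linarith
    simp only [hQ, ip_zero hn2 hgc hgc, ip_zero hn2 hgc hhc, ip_zero hn2 hhc hhc, lam]
    have f1 : 0 ≤ a * ((∫ p, g p ∂sph n) * ∫ p, g p ∂sph n) :=
      mul_nonneg (hcc.trans ha).le (mul_nonneg e3 e3)
    have f2 : 0 ≤ 2 * b * ((∫ p, g p ∂sph n) * ∫ p, h p ∂sph n) := by positivity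
    have f3 : L * ((∫ p, h p ∂sph n) * ∫ p, h p ∂sph n) ≤ L * P ^ 2 := by
      refine mul_le_mul_of_nonneg_left ?_ hL
      rw [sq]
      exact mul_le_mul e1 e1 e0 (e0.trans e1)
    push_cast
    linarith
  have hJ : ∀ᶠ J in atTop, cc n * ∑ k ∈ Finset.Ico 4 J, ip k (fun x => N x) (fun x => N x) ≤
      a * ∑ k ∈ Finset.range J, ip k g g + 2 * b * ∑ k ∈ Finset.range J, ip k g h -
        L * ∑ k ∈ Finset.range J, ip k h h + L * U + L * P ^ 2 := by
    filter_upwards [eventually_ge_atTop 4] with J hJ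
    have e1 : ∑ k ∈ Finset.range J, Q k = a * ∑ k ∈ Finset.range J, ip k g g +
        2 * b * ∑ k ∈ Finset.range J, ip k g h - L * ∑ k ∈ Finset.range J, ip k h h +
        L / (n - 1) * ∑ k ∈ Finset.range J, lam n k * ip k h h := by
      simp only [hQ, Finset.sum_add_distrib, Finset.sum_sub_distrib, Finset.mul_sum]
    have e2 := Finset.sum_range_add_sum_Ico Q hJ
    have e3 : cc n * ∑ k ∈ Finset.Ico 4 J, ip k (fun x => N x) (fun x => N x) ≤
        ∑ k ∈ Finset.Ico 4 J, Q k := by
      rw [Finset.mul_sum]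
      exact Finset.sum_le_sum fun k hk => hQ4 k (Finset.mem_Ico.1 hk).1
    have e4 := mul_le_mul_of_nonneg_left (hD J) (div_nonneg hL hn1'.le)
    have e5 : L / (n - 1) * ((n - 1) * U) = L * U := by field_simp
    simp only [Finset.sum_range_succ, Finset.sum_range_zero, hQodd 1 (by decide),
      hQodd 3 (by decide)] at e2
    linarith
  have hlim := le_of_tendsto_of_tendsto ((tendsto_tail hn2 hNc).const_mul (cc n))
    ((((((parseval hn2 hgc hgc).const_mul a).add ((parseval hn2 hgc hhc).const_mul (2 * b))).sub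
      ((parseval hn2 hhc hhc).const_mul L)).add_const (L * U)).add_const (L * P ^ 2)) hJ
  refine hlim.trans (add_le_add ?_ le_rfl)
  have j1 : Integrable (fun p => a * (g p * g p)) (sph n) :=
    (integrable_of_continuous (hgc.mul hgc)).const_mul _
  have j2 : Integrable (fun p => 2 * b * (g p * h p)) (sph n) :=
    (integrable_of_continuous (hgc.mul hhc)).const_mul _
  have j3 : Integrable (fun p => L * (h p * h p)) (sph n) :=
    (integrable_of_continuous (hhc.mul hhc)).const_mul _
  have j4 : Integrable (fun p => L * (N p * u (N p))) (sph n) :=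
    (integrable_of_continuous (hNc.mul (huc.comp hNc))).const_mul _
  have j5 : Integrable (fun p => a * (g p * g p) + 2 * b * (g p * h p)) (sph n) := j1.add j2
  have j6 : Integrable (fun p => a * (g p * g p) + 2 * b * (g p * h p) - L * (h p * h p))
      (sph n) := j5.sub j3
  rw [hU, hPdef, ← hψ, ← integral_const_mul, ← integral_const_mul, ← integral_const_mul,
    ← integral_const_mul, ← integral_const_mul, ← integral_add j1 j2, ← integral_sub j5 j3,
    ← integral_add j6 j4]
  refine integral_mono_ae (j6.add j4) (iψ.const_mul _) ?_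
  filter_upwards [ae_pos hN] with p hp
  have := hpt a b L A hP _ hp
  simp only [hg, hh]
  linarith

end Crest.Agent.R230
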