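import Crest.Agent.R230.Sphere

set_option autoImplicit false
open MeasureTheory Filter Topology
open scoped ENNReal RealInnerProductSpace Pointwise

namespace Crest.Agent.R230

variable {n : ℕ}

/-! The first absolute moment of the uniform measure on the sphere. -/

namespace SOneAux

theorem moment (k : ℕ) :
    ∫ r in Set.Ioi (0 : ℝ), r ^ k * Real.exp (-r ^ 2) = 1 / 2 * Real.Gamma (((k : ℝ) + 1) / 2) := by
  have h := integral_rpow_mul_exp_neg_rpow (p := 2) (q := (k : ℝ)) two_pos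
    (by have := Nat.cast_nonneg (α := ℝ) k; linarith)
  simpa only [Real.rpow_natCast, Real.rpow_two] using h

theorem abs_moment : ∫ t : ℝ, |t| * Real.exp (-t ^ 2) = 1 := by
  have h := integral_comp_abs (f := fun t : ℝ => t ^ 1 * Real.exp (-t ^ 2))
  rw [moment 1] at h
  simp only [pow_one, sq_abs] at h
  rw [h]
  norm_num

theorem gauss : ∫ t : ℝ, Real.exp (-t ^ 2) = √Real.pi := by
  simpa using integral_gaussian 1

theorem cart (m : ℕ) :
    ∫ x : E (m + 1), |x 0| * Real.exp (-‖x‖ ^ 2) = √Real.pi ^ m := by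
  rw [← (PiLp.volume_preserving_toLp (Fin (m + 1))).integral_comp
    (MeasurableEquiv.toLp 2 _).measurableEmbedding]
  have h := integral_fintype_prod_volume_eq_prod (ι := Fin (m + 1)) (𝕜 := ℝ) (E := fun _ => ℝ)
    (Fin.cons (fun t => |t| * Real.exp (-t ^ 2)) fun _ t => Real.exp (-t ^ 2))
  rw [Fin.prod_univ_succ] at h
  simp only [Fin.cons_zero, Fin.cons_succ, abs_moment, gauss, Finset.prod_const, Finset.card_univ,
    Fintype.card_fin, one_mul] at h
  rw [← h]
  refine integral_congr_ae (Eventually.of_forall fun x => ?_)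
  simp only [Fin.prod_univ_succ, Fin.cons_zero, Fin.cons_succ]
  rw [EuclideanSpace.real_norm_sq_eq, Fin.sum_univ_succ, neg_add, Real.exp_add,
    ← Finset.sum_neg_distrib, Real.exp_sum, mul_assoc]

theorem kap_eq {m : ℕ} (hm : 1 ≤ m) : kap m = √Real.pi ^ m / Real.Gamma ((m : ℝ) / 2 + 1) := by
  haveI : Nonempty (Fin m) := ⟨⟨0, hm⟩⟩
  have hG : 0 < Real.Gamma ((m : ℝ) / 2 + 1) := Real.Gamma_pos_of_pos (by positivity)
  rw [kap, EuclideanSpace.volume_ball, ENNReal.ofReal_one, one_pow, one_mul, Fintype.card_fin,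
    ENNReal.toReal_ofReal (by positivity)]

theorem polar (m : ℕ) :
    √Real.pi ^ m = ((m + 1 : ℕ) : ℝ) * kap (m + 1) *
      ((∫ p, |p 0| ∂sph (m + 1)) * (1 / 2 * Real.Gamma ((m : ℝ) / 2 + 1))) := by
  have hpi : 0 < √Real.pi ^ m := pow_pos (Real.sqrt_pos.2 Real.pi_pos) m
  have hG : 0 < Real.Gamma ((m : ℝ) / 2 + 1) := Real.Gamma_pos_of_pos (by positivity)
  have hc : Continuous fun x : E (m + 1) => |x 0| * Real.exp (-‖x‖ ^ 2) := by fun_prop
  have hi : Integrable fun x : E (m + 1) => |x 0| * Real.exp (-‖x‖ ^ 2) :=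
    Integrable.of_integral_ne_zero (by rw [cart]; exact hpi.ne')
  have h1 := ofReal_integral_eq_lintegral_ofReal hi
    (Eventually.of_forall fun x => mul_nonneg (abs_nonneg _) (Real.exp_pos _).le)
  rw [cart, lintegral_polar (Nat.le_add_left 1 m) hc.measurable.ennreal_ofReal] at h1
  have hA : ∫ r in Set.Ioi (0 : ℝ), r ^ (m + 1) * Real.exp (-r ^ 2)
      = 1 / 2 * Real.Gamma ((m : ℝ) / 2 + 1) := by
    rw [moment]
    congr 2
    push_cast
    ring
  have hAi : Integrable (fun r : ℝ => r ^ (m + 1) * Real.exp (-r ^ 2))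
      (volume.restrict (Set.Ioi 0)) :=
    Integrable.of_integral_ne_zero (by rw [hA]; positivity)
  have h2 := ofReal_integral_eq_lintegral_ofReal hAi (by
    filter_upwards [ae_restrict_mem measurableSet_Ioi] with r hr
    exact mul_nonneg (pow_nonneg (le_of_lt hr) _) (Real.exp_pos _).le)
  rw [hA] at h2
  have h3 : ∫⁻ p, (∫⁻ r in Set.Ioi (0 : ℝ), ENNReal.ofReal (r ^ (m + 1 - 1)) *
        ENNReal.ofReal (|(r • p) 0| * Real.exp (-‖r • p‖ ^ 2))) ∂sph (m + 1)
      = ∫⁻ p, ENNReal.ofReal |p 0| * ENNReal.ofReal (1 / 2 * Real.Gamma ((m : ℝ) / 2 + 1))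
          ∂sph (m + 1) := by
    refine lintegral_congr_ae ?_
    filter_upwards [ae_norm] with p hp
    rw [h2, ← lintegral_const_mul' _ _ ENNReal.ofReal_ne_top]
    refine setLIntegral_congr_fun measurableSet_Ioi fun r hr => ?_
    have hr0 : 0 < r := hr
    rw [← ENNReal.ofReal_mul (pow_nonneg hr0.le _), ← ENNReal.ofReal_mul (abs_nonneg _), norm_smul,
      hp, mul_one, Real.norm_eq_abs, sq_abs, PiLp.smul_apply, smul_eq_mul, abs_mul, abs_of_pos hr0,
      Nat.add_sub_cancel]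
    congr 1
    ring
  have hi0 : Integrable (fun p : E (m + 1) => |p 0|) (sph (m + 1)) :=
    integrable_of_continuous (by fun_prop)
  have h4 := ofReal_integral_eq_lintegral_ofReal hi0 (Eventually.of_forall fun _ => abs_nonneg _)
  have hS : 0 ≤ ∫ p, |p 0| ∂sph (m + 1) := integral_nonneg fun _ => abs_nonneg _
  have hk := kap_pos (m + 1)
  rw [h3, lintegral_mul_const' _ _ ENNReal.ofReal_ne_top, ← h4, ← ENNReal.ofReal_mul hS,
    ← ENNReal.ofReal_mul (by positivity)] at h1
  exact (ENNReal.ofReal_eq_ofReal_iff hpi.le (by positivity)).1 h1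

theorem integral_abs_coord {m : ℕ} (hm : 1 ≤ m) : ∫ p, |p 0| ∂sph (m + 1) = s1 (m + 1) := by
  have hG : 0 < Real.Gamma ((m : ℝ) / 2 + 1) := Real.Gamma_pos_of_pos (by positivity)
  have hk := kap_pos (m + 1)
  rw [s1, Nat.add_sub_cancel, kap_eq hm, polar m]
  field_simp

end SOneAux

theorem s1_pos (hn : 1 ≤ n) : 0 < s1 n := by
  have h1 := kap_pos n
  have h2 := kap_pos (n - 1)
  have h3 : (0 : ℝ) < n := Nat.cast_pos.2 hn
  unfold s1
  positivity

theorem integral_abs_inner (hn : 2 ≤ n) (u : E n) : ∫ p, |⟪p, u⟫| ∂sph n = s1 n * ‖u‖ := by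
  obtain ⟨m, rfl⟩ : ∃ m, n = m + 1 := ⟨n - 1, by omega⟩
  obtain ⟨R, hR⟩ := exists_iso_map (u := EuclideanSpace.single (0 : Fin (m + 1)) ‖u‖) (v := u)
    (by simp)
  rw [← integral_comp_iso R fun p => |⟪p, u⟫|, ← SOneAux.integral_abs_coord (by omega),
    ← integral_mul_const]
  refine integral_congr_ae (Eventually.of_forall fun p => ?_)
  have h : ⟪R p, u⟫ = p 0 * ‖u‖ := by
    conv_lhs => rw [← hR]
    rw [R.inner_map_map, EuclideanSpace.inner_single_right]
    simp [mul_comm]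
  dsimp only
  rw [h, abs_mul, abs_norm]

end Crest.Agent.R230
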