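import Crest.Agent.R230.Dirichlet
import Crest.Agent.R230.Nrm
import Crest.Agent.R230.SOne
import Crest.Agent.R230.Param

set_option autoImplicit false
open MeasureTheory Filter Topology
open scoped ENNReal RealInnerProductSpace Pointwise

namespace Crest.Agent.R230

variable {n : ℕ}

/-! The crude bound for isotropic norms. -/

namespace LipBAux

theorem hasDerivAt_mul_abs (s : ℝ) : HasDerivAt (fun s : ℝ => s * |s|) (2 * |s|) s := by
  rcases lt_trichotomy s 0 with h | rfl | h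
  · have h1 : HasDerivAt (fun s : ℝ => s * -s) (2 * |s|) s := by
      refine ((hasDerivAt_id' s).fun_mul (hasDerivAt_id' s).fun_neg).congr_deriv ?_
      rw [abs_of_neg h]
      ring
    refine h1.congr_of_eventuallyEq ?_
    filter_upwards [Iio_mem_nhds h] with t ht
    rw [abs_of_neg ht]
  · rw [hasDerivAt_iff_tendsto_slope_zero]
    simp only [zero_add, abs_zero, mul_zero, sub_zero, smul_eq_mul]
    have h1 : Tendsto (fun t : ℝ => |t|) (𝓝[≠] 0) (𝓝 0) := by
      have := (continuous_abs.tendsto (0 : ℝ)).mono_left (nhdsWithin_le_nhds (s := {0}ᶜ))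
      simpa using this
    refine h1.congr' ?_
    filter_upwards [self_mem_nhdsWithin] with t ht
    have : t ≠ 0 := ht
    field_simp
  · have h1 : HasDerivAt (fun s : ℝ => s * s) (2 * |s|) s := by
      refine ((hasDerivAt_id' s).fun_mul (hasDerivAt_id' s)).congr_deriv ?_
      rw [abs_of_pos h]
      ring
    refine h1.congr_of_eventuallyEq ?_
    filter_upwards [Ioi_mem_nhds h] with t ht
    rw [abs_of_pos ht]

theorem gradient_mul_abs (u p : E n) :
    gradient (fun x : E n => ⟪x, u⟫ * |⟪x, u⟫|) p = (2 * |⟪p, u⟫|) • u := by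
  have h1 : DifferentiableAt ℝ (fun x : E n => ⟪x, u⟫) p :=
    differentiableAt_id.inner ℝ (differentiableAt_const u)
  rw [gradient_comp' (φ := fun s : ℝ => s * |s|) h1 (hasDerivAt_mul_abs _), gradient_inner]

end LipBAux

open LipBAux

theorem integral_abs_inner_cube (hn : 2 ≤ n) {u : E n} (hu : ‖u‖ = 1) :
    ∫ p, |⟪p, u⟫| ^ 3 ∂sph n = 2 * s1 n / ((n : ℝ) + 1) := by
  have hg : Good fun x : E n => ⟪x, u⟫ * |⟪x, u⟫| :=
    (SteinAux.good_inner u).comp (φ := fun s : ℝ => s * |s|) hasDerivAt_mul_abs (by fun_prop)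
  have h1 := stein_hom hg (d := 2) (Eventually.of_forall fun p => by
    rw [gradient_mul_abs, real_inner_smul_left, real_inner_comm p u]
    ring) u
  have h2 : ∫ p, ⟪gradient (fun x : E n => ⟪x, u⟫ * |⟪x, u⟫|) p, u⟫ ∂sph n = 2 * s1 n := by
    simp only [gradient_mul_abs, real_inner_smul_left, real_inner_self_eq_norm_sq, hu, one_pow,
      mul_one]
    rw [integral_const_mul, integral_abs_inner hn, hu, mul_one]
  have h3 : ∫ p, ⟪p, u⟫ * (⟪p, u⟫ * |⟪p, u⟫|) ∂sph n = ∫ p, |⟪p, u⟫| ^ 3 ∂sph n := by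
    refine integral_congr_ae (Eventually.of_forall fun p => ?_)
    simp only
    rw [← mul_assoc, ← sq, ← sq_abs, ← pow_succ]
  rw [h2, h3] at h1
  rw [h1]
  field_simp
  ring

theorem lip_bound (hn : 2 ≤ n) {N : Seminorm ℝ (E n)} (hI : Iso N) :
    cc n * tail (fun x => N x) ≤ mean N ^ 2 / 2 := by
  have hn1 : 1 ≤ n := by omega
  have hn' : (2 : ℝ) ≤ n := by exact_mod_cast hn
  have := sph_prob hn1
  obtain ⟨M, e, hM, he, h1, h2⟩ := nrm_exists_max hn1 N
  have hc := nrm_continuous N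
  -- the Dirichlet bound
  have hD : ∫ p, ‖tg (fun x => N x) p‖ ^ 2 ∂sph n ≤ M ^ 2 := by
    calc ∫ p, ‖tg (fun x => N x) p‖ ^ 2 ∂sph n ≤ ∫ _, M ^ 2 ∂sph n := by
          refine integral_mono_of_nonneg (Eventually.of_forall fun p => by positivity)
            (integrable_const _) ?_
          filter_upwards [ae_norm] with p hp
          exact pow_le_pow_left₀ (norm_nonneg _) ((norm_tg_le _ hp).trans (h2 p)) 2
      _ = M ^ 2 := by simp
  have hT : lam n 4 * tail (fun x => N x) ≤ M ^ 2 := by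
    refine le_of_tendsto' ((tendsto_tail hn hc).const_mul (lam n 4)) fun J => ?_
    refine le_trans ?_ ((dirichlet_bessel hn (nrm_good N) J).trans hD)
    rw [Finset.mul_sum]
    calc _ ≤ ∑ k ∈ Finset.Ico 4 J, lam n k * ip k (fun x => N x) (fun x => N x) :=
          Finset.sum_le_sum fun k hk => mul_le_mul_of_nonneg_right
            (lam_mono hn (Finset.mem_Ico.1 hk).1) (ip_self_nonneg _ _)
      _ ≤ _ := Finset.sum_le_sum_of_subset_of_nonneg
          (fun k hk => Finset.mem_range.2 (Finset.mem_Ico.1 hk).2)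
          fun k _ _ => mul_nonneg (lam_nonneg hn k) (ip_self_nonneg _ _)
  have hlam : lam n 4 = 4 * ((n : ℝ) + 2) := by
    unfold lam
    push_cast
    ring
  -- the third moment
  have hct : Continuous fun p : E n => ⟪p, e⟫ := by fun_prop
  have h3 : M * ∫ p, |⟪p, e⟫| ^ 3 ∂sph n ≤ mean N / n := by
    rw [← hI e he, ← integral_const_mul]
    refine integral_mono (integrable_of_continuous (by fun_prop))
      (integrable_of_continuous (by fun_prop)) fun p => ?_
    simp only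
    rw [pow_succ', sq_abs, ← mul_assoc]
    exact mul_le_mul_of_nonneg_right (h1 p) (sq_nonneg _)
  have h4 := DenseAux.cauchy (n := n) (a := fun p => √|⟪p, e⟫|)
    (b := fun p => √|⟪p, e⟫| * |⟪p, e⟫|) (by fun_prop) (by fun_prop)
  have e1 : ∀ p : E n, √|⟪p, e⟫| * (√|⟪p, e⟫| * |⟪p, e⟫|) = ⟪p, e⟫ ^ 2 := fun p => by
    rw [← mul_assoc, Real.mul_self_sqrt (abs_nonneg _), ← sq, sq_abs]
  have e2 : ∀ p : E n, √|⟪p, e⟫| ^ 2 = |⟪p, e⟫| := fun p => Real.sq_sqrt (abs_nonneg _)
  have e3 : ∀ p : E n, (√|⟪p, e⟫| * |⟪p, e⟫|) ^ 2 = |⟪p, e⟫| ^ 3 := fun p => by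
    rw [mul_pow, e2, ← pow_succ']
  simp only [e1, e2, e3] at h4
  rw [integral_inner_sq hn1 he, integral_abs_inner hn, he, mul_one] at h4
  have h5 := integral_abs_inner_cube hn he
  have hs := s1_pos hn1
  generalize ∫ p, |⟪p, e⟫| ^ 3 ∂sph n = m at *
  have hm : 0 < m := by rw [h5]; positivity
  have h6 : s1 n = ((n : ℝ) + 1) * m / 2 := by
    rw [h5]; field_simp
  rw [h6] at h4
  have h7 : (M * m) ^ 2 ≤ (mean N / n) ^ 2 := pow_le_pow_left₀ (by positivity) h3 2
  have h8 : M ^ 2 ≤ ((n : ℝ) + 1) * mean N ^ 2 / 2 := by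
    refine le_of_mul_le_mul_right ?_ (by positivity : 0 < m ^ 2)
    calc M ^ 2 * m ^ 2 = (M * m) ^ 2 := by ring
      _ ≤ (mean N / n) ^ 2 := h7
      _ = mean N ^ 2 * (1 / n) ^ 2 := by ring
      _ ≤ mean N ^ 2 * (((n : ℝ) + 1) * m / 2 * m) :=
          mul_le_mul_of_nonneg_left h4 (sq_nonneg _)
      _ = _ := by ring
  have h9 := tail_nonneg hn hc
  have h10 := mul_le_mul_of_nonneg_right (cc_le n) h9
  rw [hlam] at hT
  refine h10.trans (le_of_mul_le_mul_left ?_ (by positivity : 0 < (n : ℝ) + 2))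
  nlinarith [sq_nonneg (mean N)]

end Crest.Agent.R230
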