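import Crest.Agent.R230.Bilin
import Crest.Agent.R230.Diamond
import Crest.Agent.R230.LipB

set_option autoImplicit false
open MeasureTheory Filter Topology
open scoped ENNReal RealInnerProductSpace Pointwise

namespace Crest.Agent.R230

variable {n : ℕ}

/-! The analytic core. -/

namespace CoreAux

theorem exists_scale (hn : 1 ≤ n) {N : Seminorm ℝ (E n)} (hN : Pos N) :
    ∃ (t : ℝ) (N₁ : Seminorm ℝ (E n)), 0 < t ∧ t ^ n = vr N ∧ (∀ x, N₁ x = t * N x) ∧
      Pos N₁ ∧ vr N₁ = 1 := by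
  have hv := vr_pos hn hN
  obtain ⟨t, ht, htn⟩ : ∃ t : ℝ, 0 < t ∧ t ^ n = vr N :=
    ⟨vr N ^ (n⁻¹ : ℝ), Real.rpow_pos_of_pos hv _, Real.rpow_inv_natCast_pow hv.le (by omega)⟩
  have h : ∀ x, (NNReal.mk t ht.le • N) x = t * N x := fun _ => rfl
  refine ⟨t, _, ht, htn, h, fun x hx => hN x ?_, ?_⟩
  · exact (mul_eq_zero.1 ((h x).symm.trans hx)).resolve_left ht.ne'
  · show ∫ p, (t * N p)⁻¹ ^ n ∂sph n = 1
    simp only [mul_inv, mul_pow, integral_const_mul]
    rw [inv_pow, htn]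
    exact inv_mul_cancel₀ hv.ne'

theorem iso_scale {N N₁ : Seminorm ℝ (E n)} {t : ℝ} (h : ∀ x, N₁ x = t * N x) (hI : Iso N) :
    Iso N₁ := by
  intro u hu
  show _ = (∫ p, N₁ p ∂sph n) / n
  simp only [h, mul_assoc, integral_const_mul]
  rw [hI u hu, mul_div_assoc]
  rfl

theorem zv_scale {N N₁ : Seminorm ℝ (E n)} {t : ℝ} (h : ∀ x, N₁ x = t * N x) (q : E n) :
    zv N₁ q = t • zv N q := by
  refine Eq.trans (integral_congr_ae ?_) (integral_smul t _)
  filter_upwards [(nrm_good N).diff] with p hp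
  have e : gradient (fun x => N₁ x) p = t • gradient (fun x => N x) p := by
    simp only [h]
    exact (congrArg (InnerProductSpace.toDual ℝ (E n)).symm (fderiv_const_mul hp t)).trans
      (map_smul _ _ _)
  rw [e, smul_comm]

end CoreAux

open CoreAux in

theorem core (hn : 4 ≤ n) {N N' : Seminorm ℝ (E n)} (hN : Pos N) (hN' : Pos N') (hI : Iso N')
    (hz : ∀ q, N (zv N' q) ≤ 1) :
    s1 n ^ n ≤ vr N * vr N' ∧
      (vr N * vr N' ≤ s1 n ^ n → ∃ c : ℝ, 0 < c ∧ ∀ x, N' x = c * ‖x‖) := by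
  obtain ⟨t, N₁, ht, htn, h, hP, hv⟩ := exists_scale (by omega) hN
  obtain ⟨t', N₁', ht', htn', h', hP', hv'⟩ := exists_scale (by omega) hN'
  have hI' := iso_scale h' hI
  have hb := bilin (by omega) N₁ N₁' hI' (C := t * t') fun q => by
    rw [zv_scale h', h, map_smul_eq_mul, Real.norm_of_nonneg ht'.le, ← mul_assoc]
    exact mul_le_of_le_one_right (by positivity) (hz q)
  obtain ⟨a, b, L, A, hp, hLA⟩ := exists_par hn
  have hc := (cc_pos n).le
  obtain ⟨h1, h2⟩ := final_alg hLA (one_le_mean (by omega) hP hv) (one_le_mean (by omega) hP' hv')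
    (mul_nonneg hc (tail_nonneg (by omega) (nrm_continuous N₁)))
    (mul_nonneg hc (tail_nonneg (by omega) (nrm_continuous N₁')))
    (diamond hn hP hv hp) (diamond hn hP' hv' hp) (lip_bound (by omega) hI')
  rw [Real.sqrt_mul hc, Real.sqrt_mul hc, mul_mul_mul_comm, Real.mul_self_sqrt hc] at h1 h2
  have hs := s1_pos (n := n) (by omega)
  rw [← htn, ← htn', ← mul_pow]
  refine ⟨pow_le_pow_left₀ hs.le ((le_mul_of_one_le_right hs.le h1).trans hb) n, fun hle => ?_⟩
  have h3 : t * t' ≤ s1 n := (pow_le_pow_iff_left₀ (by positivity) hs.le (by omega)).1 hle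
  have h4 : mean N₁' ≤ 1 := not_lt.1 fun h5 =>
    ((lt_mul_of_one_lt_right hs (h2 h5)).trans_le (hb.trans h3)).false
  refine ⟨t'⁻¹, inv_pos.2 ht', fun x => ?_⟩
  rw [← eq_norm_of_mean (by omega) hP' hv' h4 x, h', inv_mul_cancel_left₀ ht'.ne']

end Crest.Agent.R230
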