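import Crest.Agent.R230.Defs

set_option autoImplicit false
open MeasureTheory Filter Topology
open scoped ENNReal RealInnerProductSpace Pointwise

namespace Crest.Agent.R230

variable {n : ℕ}

/-! The gauge of `Sup h`. -/

namespace DualAux

theorem unit_of_ne {x : E n} (hx : x ≠ 0) : ‖‖x‖⁻¹ • x‖ = 1 ∧ ⟪x, ‖x‖⁻¹ • x⟫ = ‖x‖ := by
  have h : ‖x‖ ≠ 0 := norm_ne_zero_iff.2 hx
  refine ⟨norm_smul_inv_norm (𝕜 := ℝ) hx, ?_⟩
  rw [inner_smul_right, real_inner_self_eq_norm_sq]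
  field_simp

/-- the support function of a compact symmetric set -/
theorem exists_support {Y : Set (E n)} (hY : IsCompact Y) (hne : Y.Nonempty)
    (hs : ∀ y ∈ Y, -y ∈ Y) :
    ∃ N : Seminorm ℝ (E n), (∀ x, ∀ y ∈ Y, ⟪x, y⟫ ≤ N x) ∧ ∀ x, ∃ y ∈ Y, N x = ⟪x, y⟫ := by
  have h : ∀ x : E n, ∃ y ∈ Y, ∀ y' ∈ Y, ⟪x, y'⟫ ≤ ⟪x, y⟫ := fun x =>
    hY.exists_isMaxOn hne (f := fun y => ⟪x, y⟫) (by fun_prop)
  choose g hg hmax using h
  refine ⟨Seminorm.ofSMulLE (fun x => ⟪x, g x⟫) (inner_zero_left _) (fun x x' => ?_)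
    fun r x => ?_, hmax, fun x => ⟨g x, hg x, rfl⟩⟩
  · rw [inner_add_left]
    exact add_le_add (hmax x _ (hg _)) (hmax x' _ (hg _))
  · rw [real_inner_smul_left]
    refine (le_abs_self _).trans ?_
    rw [abs_mul]
    refine mul_le_mul_of_nonneg_left (abs_le.2 ⟨?_, hmax x _ (hg _)⟩) (abs_nonneg r)
    have := hmax x _ (hs _ (hg (r • x)))
    rw [inner_neg_right] at this
    linarith

end DualAux

open DualAux

theorem convex_Sup (h : E n → ℝ) : Convex ℝ (Sup h) := by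
  intro x hx y hy a b ha hb hab
  rw [mem_Sup] at hx hy ⊢
  intro u hu
  rw [inner_add_left, real_inner_smul_left, real_inner_smul_left]
  calc _ ≤ a * h u + b * h u := add_le_add (mul_le_mul_of_nonneg_left (hx u hu) ha)
        (mul_le_mul_of_nonneg_left (hy u hu) hb)
    _ = h u := by rw [← add_mul, hab, one_mul]

theorem isCompact_Sup {h : E n → ℝ} {C : ℝ} (hC : ∀ u : E n, ‖u‖ = 1 → h u ≤ C) :
    IsCompact (Sup h) := by
  refine (isCompact_closedBall (0 : E n) (max C 0)).of_isClosed_subset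
    (isClosed_biInter fun u _ => isClosed_le (by fun_prop) continuous_const) fun x hx => ?_
  rw [mem_closedBall_zero_iff]
  by_cases h0 : x = 0
  · rw [h0, norm_zero]; exact le_max_right _ _
  · obtain ⟨h1, h2⟩ := unit_of_ne h0
    exact (h2.symm.trans_le ((mem_Sup.1 hx _ h1).trans (hC _ h1))).trans (le_max_left _ _)

theorem exists_gauge (hn : 1 ≤ n) {h : E n → ℝ} {c C : ℝ} (hc : 0 < c)
    (hlo : ∀ u : E n, ‖u‖ = 1 → c ≤ h u) (hC : ∀ u : E n, ‖u‖ = 1 → h u ≤ C)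
    (he : ∀ u : E n, ‖u‖ = 1 → h (-u) = h u) :
    ∃ N : Seminorm ℝ (E n), Pos N ∧ {x | N x ≤ 1} = Sup h ∧
      ∀ p : E n, DifferentiableAt ℝ (fun x => N x) p →
        gradient (fun x => N x) p ∈ closure {y : E n | ∃ u : E n, ‖u‖ = 1 ∧ y = (h u)⁻¹ • u} := by
  set S : Set (E n) := {y : E n | ∃ u : E n, ‖u‖ = 1 ∧ y = (h u)⁻¹ • u} with hS
  have hp : ∀ u : E n, ‖u‖ = 1 → 0 < h u := fun u hu => hc.trans_le (hlo u hu)
  have hb : S ⊆ Metric.closedBall 0 c⁻¹ := by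
    rintro _ ⟨u, hu, rfl⟩
    rw [mem_closedBall_zero_iff, norm_smul, hu, mul_one, Real.norm_of_nonneg (inv_pos.2 (hp u hu)).le]
    exact inv_anti₀ hc (hlo u hu)
  have hneg : Set.MapsTo (fun y : E n => -y) S S := by
    rintro _ ⟨u, hu, rfl⟩
    exact ⟨-u, by rw [norm_neg, hu], by rw [he u hu, smul_neg]⟩
  obtain ⟨N, hle, hex⟩ := exists_support (Y := closure S)
    (Metric.isBounded_closedBall.subset hb).isCompact_closure
    (Set.Nonempty.closure ⟨_, EuclideanSpace.single ⟨0, hn⟩ 1, by simp, rfl⟩)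
    (hneg.closure continuous_neg)
  have hle' : ∀ x u : E n, ‖u‖ = 1 → (h u)⁻¹ * ⟪x, u⟫ ≤ N x := fun x u hu => by
    rw [← real_inner_smul_right]
    exact hle x _ (subset_closure ⟨u, hu, rfl⟩)
  refine ⟨N, fun x hx => by_contra fun h0 => ?_, Set.ext fun x => ?_, fun p hd => ?_⟩
  · obtain ⟨h1, h2⟩ := unit_of_ne h0
    have h3 := hle' x _ h1
    rw [h2, hx] at h3
    exact h3.not_gt (mul_pos (inv_pos.2 (hp _ h1)) (norm_pos_iff.2 h0))
  · rw [mem_Sup]
    refine ⟨fun hx u hu => ?_, fun hx => ?_⟩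
    · have h1 := (hle' x u hu).trans hx
      rwa [inv_mul_le_iff₀ (hp u hu), mul_one] at h1
    · obtain ⟨y, hy, e⟩ := hex x
      refine e.trans_le (closure_minimal (t := {y | ⟪x, y⟫ ≤ 1}) ?_
        (isClosed_le (by fun_prop) continuous_const) hy)
      rintro _ ⟨u, hu, rfl⟩
      rw [Set.mem_ofPred_eq, real_inner_smul_right, inv_mul_le_iff₀ (hp u hu), mul_one]
      exact hx u hu
  · obtain ⟨y, hy, e⟩ := hex p
    have h1 : IsLocalMin (fun x => N x - innerSL ℝ y x) p := Eventually.of_forall fun x => by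
      have := hle x y hy
      simp only [innerSL_apply_apply, real_inner_comm x y, real_inner_comm p y] at *
      linarith
    have h2 := h1.hasFDerivAt_eq_zero (hd.hasFDerivAt.sub (innerSL ℝ y).hasFDerivAt)
    have h3 : gradient (fun x => N x) p = y := by
      rw [gradient, sub_eq_zero.1 h2]
      exact (InnerProductSpace.toDual ℝ (E n)).symm_apply_apply y
    rwa [h3]

end Crest.Agent.R230
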