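import Crest.Agent.R230.Green
import Crest.Agent.R230.SOne

set_option autoImplicit false
open MeasureTheory Filter Topology
open scoped ENNReal RealInnerProductSpace Pointwise

namespace Crest.Agent.R230

variable {n : ℕ}

/-! Funk-Hecke formula for the kernel `sg ⟪p, q⟫`. -/

namespace FunkAux

lemma hasDerivAt_abs_sg {t : ℝ} (ht : t ≠ 0) : HasDerivAt (fun s : ℝ => |s|) (sg t) t := by
  rcases lt_or_gt_of_ne ht with h | h
  · rw [sg_of_neg h]; exact hasDerivAt_abs_neg h
  · rw [sg_of_pos h]; exact hasDerivAt_abs_pos h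

lemma differentiableAt_inner' (q p : E n) : DifferentiableAt ℝ (fun x : E n => ⟪x, q⟫) p :=
  (differentiableAt_id.inner ℝ (differentiableAt_const q))

lemma good_inner (q : E n) : Good (fun x : E n => ⟪x, q⟫) :=
  good_of_contDiff (contDiff_id.inner ℝ contDiff_const)

lemma differentiableAt_abs_inner {q p : E n} (h : ⟪p, q⟫ ≠ 0) :
    DifferentiableAt ℝ (fun x : E n => |⟪x, q⟫|) p :=
  DifferentiableAt.comp (g := fun s : ℝ => |s|) p (hasDerivAt_abs_sg h).differentiableAt
    (differentiableAt_inner' q p)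

lemma gradient_abs_inner {q p : E n} (h : ⟪p, q⟫ ≠ 0) :
    gradient (fun x : E n => |⟪x, q⟫|) p = sg ⟪p, q⟫ • q := by
  rw [gradient_comp' (f := fun x : E n => ⟪x, q⟫) (differentiableAt_inner' q p)
    (hasDerivAt_abs_sg h), gradient_inner]

lemma gradient_mul_abs_inner {q p : E n} (h : ⟪p, q⟫ ≠ 0) :
    gradient (fun x : E n => ⟪x, q⟫ * |⟪x, q⟫|) p = (2 * |⟪p, q⟫|) • q := by
  rw [gradient_mul' (differentiableAt_inner' q p) (differentiableAt_abs_inner h),
    gradient_abs_inner h, gradient_inner, smul_smul, ← add_smul, mul_comm, sg_mul_self]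
  congr 1
  ring

/-- Green's formula for a function with gradient `ψ • q` and radial derivative `a * f` -/
lemma green_hom {f ψ : E n → ℝ} (hf : Good f) {q : E n} {a : ℝ}
    (hg : ∀ᵐ p ∂sph n, gradient f p = ψ p • q ∧ ψ p * ⟪p, q⟫ = a * f p)
    {k : ℕ} {Y : MP n} (hY : Y ∈ Harm n k) :
    ∫ p, ψ p * ev (dd q Y) p ∂sph n = k * (k + n - 2 + a) * ∫ p, f p * ev Y p ∂sph n := by
  have hfY : Integrable (fun p => f p * ev Y p) (sph n) :=
    integrable_of_continuous (hf.continuous.mul (continuous_ev Y))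
  have hT : Integrable (fun p => ⟪tg f p, tg (ev Y) p⟫) (sph n) := by
    have h1 : MemLp (tg f) 2 (sph n) := hf.memLp_tg 2
    have h2 : MemLp (tg (ev Y)) 2 (sph n) := (good_ev Y).memLp_tg 2
    refine ((h1.norm.integrable_mul h2.norm).mono'
      (h1.1.inner h2.1) (Eventually.of_forall fun p => ?_))
    exact norm_inner_le_norm _ _
  have e : ∀ᵐ p ∂sph n, ψ p * ev (dd q Y) p =
      ⟪tg f p, tg (ev Y) p⟫ + a * k * (f p * ev Y p) := by
    filter_upwards [hg, ae_norm] with p hp hp1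
    obtain ⟨h1, h2⟩ := hp
    have h3 := inner_gradient_ev_self hY.1 p
    have h4 := inner_gradient_ev Y p q
    have h5 : ⟪p, p⟫ = (1 : ℝ) := by rw [real_inner_self_eq_norm_sq, hp1]; norm_num
    simp only [tg, h1, inner_sub_left, inner_sub_right, real_inner_smul_left,
      real_inner_smul_right, h3, h5]
    rw [real_inner_comm (gradient (ev Y) p) q, h4, real_inner_comm (gradient (ev Y) p) p, h3,
      real_inner_comm p q]
    linear_combination (k * ev Y p) * h2
  rw [integral_congr_ae e, integral_add hT (hfY.const_mul _), integral_const_mul, green hf hY, lam]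
  ring

lemma A1 {q : E n} (hq : q ≠ 0) {k : ℕ} {Y : MP n} (hY : Y ∈ Harm n k) :
    ∫ p, sg ⟪p, q⟫ * ev (dd q Y) p ∂sph n =
      k * (k + n - 2 + 1) * ∫ p, |⟪p, q⟫| * ev Y p ∂sph n := by
  refine green_hom (good_abs_inner hq) ?_ hY
  filter_upwards [ae_inner_ne hq] with p hp
  exact ⟨gradient_abs_inner hp, by rw [sg_mul_self, one_mul]⟩

lemma A2 {q : E n} (hq : q ≠ 0) {k : ℕ} {Y : MP n} (hY : Y ∈ Harm n k) :
    2 * ∫ p, |⟪p, q⟫| * ev (dd q Y) p ∂sph n =
      k * (k + n - 2 + 2) * ∫ p, ⟪p, q⟫ * |⟪p, q⟫| * ev Y p ∂sph n := by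
  rw [← green_hom (ψ := fun p => 2 * |⟪p, q⟫|) (q := q) ((good_inner q).mul (good_abs_inner hq))
    ?_ hY, ← integral_const_mul]
  · simp only [mul_assoc]
  · filter_upwards [ae_inner_ne hq] with p hp
    exact ⟨gradient_mul_abs_inner hp, by ring⟩

lemma integrable_sg (q : E n) (Y : MP n) :
    Integrable (fun p => sg ⟪p, q⟫ * ev Y p) (sph n) := by
  refine (integrable_of_continuous (continuous_ev Y)).bdd_mul (c := 1) ?_
    (Eventually.of_forall fun p => abs_sg_le _)
  exact (measurable_sg.comp (by fun_prop)).aestronglyMeasurable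

lemma B {q : E n} (hq : ‖q‖ = 1) {k : ℕ} {Y : MP n} (hY : Y ∈ Harm n k) :
    ∫ p, sg ⟪p, q⟫ * ev Y p ∂sph n + ∫ p, |⟪p, q⟫| * ev (dd q Y) p ∂sph n =
      (n + k) * ∫ p, ⟪p, q⟫ * |⟪p, q⟫| * ev Y p ∂sph n := by
  have hq0 : q ≠ 0 := by rintro rfl; simp at hq
  have h5 : ⟪q, q⟫ = (1 : ℝ) := by rw [real_inner_self_eq_norm_sq, hq]; norm_num
  have hg : ∀ᵐ p ∂sph n, gradient (fun x : E n => |⟪x, q⟫| * ev Y x) p =
      |⟪p, q⟫| • gradient (ev Y) p + ev Y p • (sg ⟪p, q⟫ • q) := by
    filter_upwards [ae_inner_ne hq0] with p hp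
    rw [gradient_mul' (differentiableAt_abs_inner hp) (differentiableAt_ev Y p),
      gradient_abs_inner hp]
  have h := stein_hom ((good_abs_inner hq0).mul (good_ev Y)) (d := k + 1) (by
    filter_upwards [hg] with p hp
    rw [hp, inner_add_left, real_inner_smul_left, real_inner_smul_left, real_inner_smul_left,
      inner_gradient_ev_self hY.1, real_inner_comm p q, sg_mul_self]
    ring) q
  have hi : Integrable (fun p => |⟪p, q⟫| * ev (dd q Y) p) (sph n) := integrable_of_continuous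
    ((good_abs_inner hq0).continuous.mul (continuous_ev _))
  rw [← integral_add (integrable_sg q Y) hi]
  have e : ∀ᵐ p ∂sph n, sg ⟪p, q⟫ * ev Y p + |⟪p, q⟫| * ev (dd q Y) p =
      ⟪gradient (fun x : E n => |⟪x, q⟫| * ev Y x) p, q⟫ := by
    filter_upwards [hg] with p hp
    rw [hp, inner_add_left, real_inner_smul_left, real_inner_smul_left, real_inner_smul_left,
      inner_gradient_ev, h5]
    ring
  rw [integral_congr_ae e, h]
  simp only [mul_assoc]
  ring

lemma step {q : E n} (hq : ‖q‖ = 1) {k : ℕ} {Y : MP n} (hY : Y ∈ Harm n k) :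
    k * ∫ p, sg ⟪p, q⟫ * ev Y p ∂sph n = (2 - k) * ∫ p, |⟪p, q⟫| * ev (dd q Y) p ∂sph n := by
  have hq0 : q ≠ 0 := by rintro rfl; simp at hq
  linear_combination k * B hq hY - A2 hq0 hY

lemma integral_sg (q : E n) : ∫ p, sg ⟪p, q⟫ ∂sph n = 0 := by
  have h := integral_comp_neg (n := n) (fun p => sg ⟪p, q⟫)
  simp only [inner_neg_left, sg_neg, integral_neg] at h
  linarith

end FunkAux

open FunkAux in
theorem funk (hn : 2 ≤ n) {j : ℕ} {Z : MP n} (hZ : Z ∈ Harm n j) {q : E n} (hq : ‖q‖ = 1) :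
    ∫ p, sg ⟪p, q⟫ * ev Z p ∂sph n = sm n j * ev Z q := by
  have hq0 : q ≠ 0 := by rintro rfl; simp at hq
  induction j using Nat.twoStepInduction generalizing Z with
  | zero =>
    obtain ⟨c, rfl⟩ := eq_C_of_mem_Harm hZ
    simp only [ev_C, integral_mul_const, integral_sg, sm]
  | one =>
    have h := step hq hZ
    have h1 := ev_dd_self hZ.1 q
    obtain ⟨c, hc⟩ := eq_C_of_mem_Harm (dd_mem_Harm hZ q)
    rw [hc] at h h1
    simp only [ev_C, integral_mul_const, integral_abs_inner hn, hq] at h h1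
    simp only [sm]
    push_cast at h h1
    rw [h1] at h
    linarith
  | more k ih _ =>
    have hZ1 : dd q Z ∈ Harm n (k + 1) := dd_mem_Harm hZ q
    have hZ2 : dd q (dd q Z) ∈ Harm n k := dd_mem_Harm hZ1 q
    have h := step hq hZ
    have h1 := A1 hq0 hZ1
    rw [ih hZ2, ev_dd_self hZ1.1, ev_dd_self hZ.1] at h1
    push_cast at h h1
    have hn' : (2 : ℝ) ≤ n := by exact_mod_cast hn
    have hk : (0 : ℝ) ≤ k := k.cast_nonneg
    have h2 : sm n k * ((k + 2) * ev Z q) = (n + k) * ∫ p, |⟪p, q⟫| * ev (dd q Z) p ∂sph n := by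
      apply mul_left_cancel₀ (show (k : ℝ) + 1 ≠ 0 by positivity)
      linear_combination h1
    simp only [sm]
    apply mul_left_cancel₀ (show (k : ℝ) + 2 ≠ 0 by positivity)
    rw [h]
    have hnk : (n : ℝ) + k ≠ 0 := by positivity
    field_simp
    linear_combination k * h2

end Crest.Agent.R230
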