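import Crest.Agent.R230.Bright
import Crest.Agent.Lib.PrekopaLeindler.Basic

set_option autoImplicit false
open MeasureTheory Filter Topology
open scoped ENNReal RealInnerProductSpace Pointwise

namespace Crest.Agent.R230

variable {n : ℕ}

/-! Brunn-Minkowski at the midpoint, and Minkowski's first inequality. -/

namespace MinkAux

theorem real_smul {r : ℝ} (hr : 0 ≤ r) (A : Set (E n)) :
    volume.real (r • A) = r ^ n * volume.real A := by
  rw [measureReal_def, Measure.addHaar_smul_of_nonneg _ hr, ENNReal.toReal_mul,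
    ENNReal.toReal_ofReal (by positivity), finrank_euclideanSpace_fin, measureReal_def]

theorem seq_ge {V : ℝ} (hV : 0 < V) {a : ℕ → ℝ} (ha : ∀ m, 0 ≤ a m) (h0 : a 0 = V)
    (hs : ∀ m, V * a m ≤ a (m + 1) ^ 2) (m : ℕ) : V ≤ a m := by
  induction m with
  | zero => exact h0.ge
  | succ m ih =>
    refine le_of_pow_le_pow_left₀ two_ne_zero (ha _) ?_
    have := hs m
    nlinarith

theorem seq_pow {V : ℝ} (hV : 0 < V) {a : ℕ → ℝ} (ha : ∀ m, 0 ≤ a m)
    (hs : ∀ m, V * a m ≤ a (m + 1) ^ 2) (m : ℕ) : a 1 / V ≤ (a (m + 1) / V) ^ (2 ^ m) := by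
  induction m with
  | zero => simp
  | succ m ih =>
    refine ih.trans ?_
    rw [pow_succ' 2 m, pow_mul]
    refine pow_le_pow_left₀ (div_nonneg (ha _) hV.le) ?_ _
    rw [div_pow, div_le_div_iff₀ hV (by positivity)]
    have := hs (m + 1)
    nlinarith

end MinkAux

open MinkAux

theorem bm_mid {A B : Set (E n)} (hA : IsCompact A) (hB : IsCompact B) :
    4 ^ n * (volume.real A * volume.real B) ≤ volume.real (A + B) ^ 2 := by
  have hC : IsCompact ((2 : ℝ)⁻¹ • (A + B)) := (hA.add hB).smul _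
  have H := Lib.PrekopaLeindler.prekopa_leindler (f := A.indicator 1) (g := B.indicator 1)
    (h := ((2 : ℝ)⁻¹ • (A + B)).indicator 1) (measurable_one.indicator hA.measurableSet)
    (measurable_one.indicator hB.measurableSet) (measurable_one.indicator hC.measurableSet)
    (fun x y => by
      by_cases hx : x ∈ A
      · by_cases hy : y ∈ B
        · rw [Set.indicator_of_mem hx, Set.indicator_of_mem hy,
            Set.indicator_of_mem (Set.smul_mem_smul_set (Set.add_mem_add hx hy))]
          simp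
        · simp [Set.indicator_of_notMem hy]
      · simp [Set.indicator_of_notMem hx])
  rw [lintegral_indicator_one hA.measurableSet, lintegral_indicator_one hB.measurableSet,
    lintegral_indicator_one hC.measurableSet] at H
  have H2 := ENNReal.toReal_mono (ENNReal.pow_ne_top hC.measure_lt_top.ne) H
  rw [ENNReal.toReal_mul, ENNReal.toReal_pow, ← measureReal_def, ← measureReal_def,
    ← measureReal_def, real_smul (by norm_num)] at H2
  have e : (4 : ℝ) ^ n * ((2 : ℝ)⁻¹ ^ n) ^ 2 = 1 := by
    rw [← pow_mul, mul_comm n 2, pow_mul, ← mul_pow]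
    norm_num
  calc 4 ^ n * (volume.real A * volume.real B)
      ≤ 4 ^ n * ((2 : ℝ)⁻¹ ^ n * volume.real (A + B)) ^ 2 :=
        mul_le_mul_of_nonneg_left H2 (by positivity)
    _ = volume.real (A + B) ^ 2 := by rw [mul_pow, ← mul_assoc, e, one_mul]

theorem minkowski (hn : 1 ≤ n) {K Z : Set (E n)} (hK : Body K) (hZ : Body Z)
    (h : ∀ ε : ℝ, 0 < ε → ∀ᶠ t in 𝓝[>] (0 : ℝ),
      volume.real (K + t • Z) ≤ volume.real K + (2 + ε) * t) :
    (n : ℝ) ^ n * volume.real K ^ (n - 1) * volume.real Z ≤ 2 ^ n ∧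
      (2 ^ n ≤ (n : ℝ) ^ n * volume.real K ^ (n - 1) * volume.real Z →
        ∃ R : ℝ, 0 < R ∧ volume.real (R • Z) = volume.real K ∧
          volume.real (K + R • Z) ≤ 2 ^ n * volume.real K) := by
  have hV := hK.real_pos
  have hW := hZ.real_pos
  set V := volume.real K with hVdef
  set W := volume.real Z with hWdef
  have hn0 : n ≠ 0 := by omega
  obtain ⟨R, hR, hRn⟩ : ∃ R : ℝ, 0 < R ∧ R ^ n * W = V := by
    refine ⟨(V / W) ^ ((n : ℝ)⁻¹), Real.rpow_pos_of_pos (div_pos hV hW) _, ?_⟩
    rw [Real.rpow_inv_natCast_pow (div_pos hV hW).le hn0]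
    field_simp
  have hZ1 : volume.real (R • Z) = V := by rw [real_smul hR.le, hRn]
  have hZ1c : IsCompact (R • Z) := hZ.cpt.smul R
  have hKne : K.Nonempty := hK.int.mono interior_subset
  let φ : ℝ → ℝ := fun l => volume.real ((1 - l) • K + l • (R • Z))
  have hφ : ∀ l : ℝ, 0 ≤ l → 2 * l ≤ 1 → V * φ (2 * l) ≤ φ l ^ 2 := by
    intro l h0 h1
    have H := bm_mid hK.cpt ((hK.cpt.smul (1 - 2 * l)).add (hZ1c.smul (2 * l)))
    have e : K + ((1 - 2 * l) • K + (2 * l) • (R • Z))
        = (2 : ℝ) • ((1 - l) • K + l • (R • Z)) := by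
      rw [smul_add, smul_smul 2 (1 - l), smul_smul 2 l, ← add_assoc,
        show 2 * (1 - l) = 1 + (1 - 2 * l) by ring,
        hK.cvx.add_smul zero_le_one (by linarith), one_smul]
    rw [e, real_smul zero_le_two, mul_pow, ← pow_mul, mul_comm n 2, pow_mul] at H
    have h4 : (0 : ℝ) < 4 ^ n := by positivity
    rw [show (2 : ℝ) ^ 2 = 4 by norm_num] at H
    exact le_of_mul_le_mul_left H h4
  let a : ℕ → ℝ := fun m => φ ((1 / 2) ^ m)
  have ha : ∀ m, 0 ≤ a m := fun m => measureReal_nonneg
  have ha0 : a 0 = V := by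
    simp only [a, φ, pow_zero, sub_self, one_smul]
    rw [Set.zero_smul_set hKne, zero_add, hZ1]
  have hl1 : ∀ m : ℕ, ((1 : ℝ) / 2) ^ m ≤ 1 := fun m => pow_le_one₀ (by norm_num) (by norm_num)
  have hs : ∀ m, V * a m ≤ a (m + 1) ^ 2 := by
    intro m
    have e : ((1 : ℝ) / 2) ^ m = 2 * (1 / 2) ^ (m + 1) := by ring
    have := hφ ((1 / 2) ^ (m + 1)) (by positivity) (by rw [← e]; exact hl1 m)
    rw [← e] at this
    exact this
  -- the key consequence of the hypothesis
  have key : ∀ ε : ℝ, 0 < ε → ∃ (m : ℕ) (t : ℝ), 0 < t ∧ t * 2 ^ m ≤ 1 ∧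
      (1 + n * t) * a (m + 1) ≤ V + (2 + ε) * (t * R) := by
    intro ε hε
    let t : ℕ → ℝ := fun m => (1 / 2) ^ (m + 1) / (1 - (1 / 2) ^ (m + 1))
    have hl : ∀ m : ℕ, ((1 : ℝ) / 2) ^ (m + 1) ≤ 1 / 2 := fun m => by
      have := hl1 m
      rw [pow_succ]
      linarith
    have ht : ∀ m, 0 < t m := fun m => div_pos (by positivity) (by linarith [hl m])
    have hlim : Tendsto (fun m => t m * R) atTop (𝓝[>] 0) := by
      refine tendsto_nhdsWithin_iff.2 ⟨?_, Eventually.of_forall fun m => mul_pos (ht m) hR⟩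
      have h1 : Tendsto (fun m : ℕ => ((1 : ℝ) / 2) ^ (m + 1)) atTop (𝓝 0) :=
        (tendsto_pow_atTop_nhds_zero_of_lt_one (by norm_num) (by norm_num)).comp
          (tendsto_add_atTop_nat 1)
      have h2 := (h1.div (tendsto_const_nhds.sub h1) (by norm_num : (1 : ℝ) - 0 ≠ 0)).mul_const R
      rw [zero_div, zero_mul] at h2
      exact h2
    obtain ⟨m, hm⟩ := (hlim.eventually (h ε hε)).exists
    have hlm := hl m
    have hd : (0 : ℝ) < 1 - (1 / 2) ^ (m + 1) := by linarith
    refine ⟨m, t m, ht m, ?_, le_trans ?_ hm⟩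
    · simp only [t]
      rw [div_mul_eq_mul_div, div_le_one hd]
      have : ((1 : ℝ) / 2) ^ (m + 1) * 2 ^ m = 1 / 2 := by
        rw [pow_succ, mul_right_comm, ← mul_pow]
        norm_num
      linarith
    · have e : K + (t m * R) • Z
          = (1 + t m) • ((1 - (1 / 2 : ℝ) ^ (m + 1)) • K + (1 / 2 : ℝ) ^ (m + 1) • (R • Z)) := by
        have e1 : (1 + t m) * (1 - (1 / 2 : ℝ) ^ (m + 1)) = 1 := by
          simp only [t]
          generalize (1 / 2 : ℝ) ^ (m + 1) = l at hd
          field_simp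
          ring
        have e2 : (1 + t m) * (1 / 2 : ℝ) ^ (m + 1) = t m := by
          simp only [t]
          generalize (1 / 2 : ℝ) ^ (m + 1) = l at hd
          field_simp
          ring
        rw [smul_add, smul_smul, smul_smul (1 + t m), e1, e2, one_smul, smul_smul]
      rw [e, real_smul (by linarith [ht m])]
      exact mul_le_mul_of_nonneg_right (one_add_mul_le_pow (by linarith [ht m]) n) (ha _)
  have hpow : V ^ n = V ^ (n - 1) * V := by
    rw [← pow_succ, Nat.sub_add_cancel hn]
  constructor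
  · have h1 : n * V ≤ 2 * R := by
      refine le_of_forall_pos_le_add fun δ hδ => ?_
      obtain ⟨m, t, ht, -, hm⟩ := key (δ / R) (div_pos hδ hR)
      have h2 := seq_ge hV ha ha0 hs (m + 1)
      have h3 : (1 + n * t) * V ≤ (1 + n * t) * a (m + 1) :=
        mul_le_mul_of_nonneg_left h2 (by positivity)
      have h4 : (2 + δ / R) * (t * R) = t * (2 * R + δ) := by field_simp
      rw [h4] at hm
      have h5 : t * (n * V) ≤ t * (2 * R + δ) := by nlinarith
      exact le_of_mul_le_mul_left h5 ht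
    have h2 := pow_le_pow_left₀ (by positivity) h1 n
    rw [mul_pow, mul_pow, hpow] at h2
    have h3 := mul_le_mul_of_nonneg_right h2 hW.le
    rw [mul_assoc (2 ^ n), hRn] at h3
    refine le_of_mul_le_mul_right ?_ hV
    linarith
  · intro h1
    have h2 : 2 * R ≤ n * V := by
      refine le_of_pow_le_pow_left₀ hn0 (by positivity) ?_
      rw [mul_pow, mul_pow, hpow]
      refine le_of_mul_le_mul_right ?_ hW
      rw [mul_assoc (2 ^ n), hRn]
      have := mul_le_mul_of_nonneg_right h1 hV.le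
      linarith
    refine ⟨R, hR, hZ1, ?_⟩
    have h3 : a 1 / V ≤ 1 := by
      have h4 : ∀ δ : ℝ, 0 < δ → a 1 / V ≤ Real.exp δ := by
        intro δ hδ
        obtain ⟨m, t, ht, ht1, hm⟩ := key (δ * V / R) (by positivity)
        have h5 : (2 + δ * V / R) * (t * R) = t * (2 * R) + δ * t * V := by field_simp
        rw [h5] at hm
        have h6 : a (m + 1) ≤ V * (1 + δ * t) := by
          refine le_of_mul_le_mul_left (hm.trans ?_) (by positivity : (0 : ℝ) < 1 + n * t)
          have h7 := mul_le_mul_of_nonneg_left h2 ht.le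
          have h8 : 0 ≤ n * t * V * (δ * t) := by positivity
          nlinarith
        have h9 : a (m + 1) / V ≤ Real.exp (δ * t) := by
          rw [div_le_iff₀ hV]
          have := Real.add_one_le_exp (δ * t)
          nlinarith
        refine (seq_pow hV ha hs m).trans
          ((pow_le_pow_left₀ (div_nonneg (ha _) hV.le) h9 _).trans ?_)
        rw [← Real.exp_nat_mul]
        apply Real.exp_le_exp.2
        push_cast
        nlinarith
      have h5 : Tendsto (fun δ : ℝ => Real.exp δ) (𝓝[>] 0) (𝓝 1) := by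
        have := Real.continuous_exp.tendsto 0
        rw [Real.exp_zero] at this
        exact this.mono_left nhdsWithin_le_nhds
      exact ge_of_tendsto h5 (eventually_nhdsWithin_of_forall h4)
    rw [div_le_one hV] at h3
    have e : K + R • Z = (2 : ℝ) • ((1 - (1 / 2 : ℝ) ^ 1) • K + (1 / 2 : ℝ) ^ 1 • (R • Z)) := by
      rw [smul_add, smul_smul, smul_smul 2]
      norm_num
    rw [e, real_smul zero_le_two]
    exact mul_le_mul_of_nonneg_left h3 (by positivity)

end Crest.Agent.R230
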