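import Crest.Agent.R230.Funk

set_option autoImplicit false
open MeasureTheory Filter Topology
open scoped ENNReal RealInnerProductSpace Pointwise

namespace Crest.Agent.R230

variable {n : ℕ}

/-! The multipliers of the bilinear form `∬ sg ⟪p, q⟫ ⟪D f q, D g p⟫`. -/

namespace MultAux

open MvPolynomial

theorem meas_sg (q : E n) : AEStronglyMeasurable (fun p : E n => sg ⟪p, q⟫) (sph n) :=
  (measurable_sg.comp (continuous_id.inner continuous_const).measurable).aestronglyMeasurable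

theorem int_smul {F : Type*} [NormedAddCommGroup F] [NormedSpace ℝ F] [SecondCountableTopology F]
    (q : E n) {V : E n → F} (hV : Continuous V) :
    Integrable (fun p : E n => sg ⟪p, q⟫ • V p) (sph n) :=
  (integrable_of_continuous hV).norm.mono' ((meas_sg q).smul hV.aestronglyMeasurable)
    (Eventually.of_forall fun p => by
      rw [norm_smul, Real.norm_eq_abs]
      exact mul_le_of_le_one_left (norm_nonneg _) (abs_sg_le _))

theorem int_mul (q : E n) (Y : MP n) : Integrable (fun p : E n => sg ⟪p, q⟫ * ev Y p) (sph n) :=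
  int_smul q (continuous_ev Y)

theorem coord (q : E n) {V : E n → E n} (hV : Continuous V) (i : Fin n) :
    (∫ p, sg ⟪p, q⟫ • V p ∂sph n) i = ∫ p, sg ⟪p, q⟫ * V p i ∂sph n :=
  ((EuclideanSpace.proj i : E n →L[ℝ] ℝ).integral_comp_comm (int_smul q hV)).symm

theorem X_mem (i : Fin n) : (X i : MP n) ∈ Harm n 1 := by
  classical
  refine ⟨isHomogeneous_X _ _, Finset.sum_eq_zero fun j _ => ?_⟩
  rw [pderiv_X, Pi.single_apply]
  split_ifs <;> simp

theorem cont_D (Y : MP n) : Continuous (fun p : E n => tg (ev Y) p + ev Y p • p) :=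
  (continuous_tg_ev Y).add ((continuous_ev Y).smul continuous_id)

theorem tg_apply {Y : MP n} {k : ℕ} (hY : Y.IsHomogeneous k) (p : E n) (i : Fin n) :
    tg (ev Y) p i = ev (pderiv i Y) p - k * ev Y p * p i := by
  rw [tg, inner_gradient_ev_self hY, PiLp.sub_apply, PiLp.smul_apply, gradient_ev_apply,
    smul_eq_mul]

theorem inner_zero (hn : 2 ≤ n) (c : ℝ) {q : E n} (hq : ‖q‖ = 1) :
    ∫ p, sg ⟪p, q⟫ • (tg (ev (C c)) p + ev (C c) p • p) ∂sph n = (s1 n * c) • q := by
  ext i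
  rw [coord q (cont_D _)]
  have h1 := funk hn ((Harm n 1).smul_mem c (X_mem i)) hq
  have h2 : sm n 1 = s1 n := rfl
  rw [h2, ev_smul, ev_X] at h1
  rw [PiLp.smul_apply, smul_eq_mul, mul_assoc, ← h1]
  refine integral_congr_ae (Eventually.of_forall fun p => ?_)
  simp only [PiLp.add_apply, tg_apply (isHomogeneous_C _ c), PiLp.smul_apply, ev_smul, ev_X,
    smul_eq_mul]
  simp

theorem inner_succ (hn : 2 ≤ n) {m : ℕ} {Y : MP n} (hY : Y ∈ Harm n (m + 1)) {q : E n}
    (hq : ‖q‖ = 1) :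
    ∫ p, sg ⟪p, q⟫ • (tg (ev Y) p + ev Y p • p) ∂sph n =
      (sm n m * n / (n + m)) • tg (ev Y) q +
        ((sm n m * (n * (m + 1) + m ^ 2) / (n + m)) * ev Y q) • q := by
  ext i
  have hn' : (2 : ℝ) ≤ n := by exact_mod_cast hn
  have hm : (0 : ℝ) ≤ m := Nat.cast_nonneg m
  have h1 := funk hn (pderiv_mem_Harm hY i) hq
  have h2 := funk hn (raise_mem_Harm (by omega) hY i) hq
  have h3 : sm n (m + 2) = -(m : ℝ) / ((n : ℝ) + m) * sm n m := rfl
  rw [Nat.add_sub_cancel] at h1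
  rw [coord q (cont_D _)]
  have h4 : ∫ p, sg ⟪p, q⟫ * (tg (ev Y) p + ev Y p • p) i ∂sph n =
      (1 - m * ((n : ℝ) + 2 * m)⁻¹) * ∫ p, sg ⟪p, q⟫ * ev (pderiv i Y) p ∂sph n -
        m * ∫ p, sg ⟪p, q⟫ *
          ev (X i * Y - C ((n : ℝ) + 2 * m)⁻¹ * (r2 n * pderiv i Y)) p ∂sph n := by
    rw [← integral_const_mul, ← integral_const_mul,
      ← integral_sub ((int_mul q _).const_mul _) ((int_mul q _).const_mul _)]
    refine integral_congr_ae (ae_norm.mono fun p hp => ?_)
    simp only [PiLp.add_apply, tg_apply hY.1, PiLp.smul_apply, smul_eq_mul, ev_sub, ev_mul, ev_X,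
      ev_C, ev_r2, hp]
    push_cast
    ring
  rw [h4, h1, h2, h3]
  simp only [PiLp.add_apply, tg_apply hY.1, PiLp.smul_apply, smul_eq_mul, ev_sub, ev_mul, ev_X,
    ev_C, ev_r2, hq]
  have h5 : (n : ℝ) + m ≠ 0 := by positivity
  have h6 : (n : ℝ) + 2 * m ≠ 0 := by positivity
  push_cast
  field_simp
  ring

theorem step (hn : 2 ≤ n) (j : ℕ) : |tm n (j + 3)| ≤ |tm n (j + 1)| := by
  have hn' : (2 : ℝ) ≤ n := by exact_mod_cast hn
  have hj : (0 : ℝ) ≤ j := Nat.cast_nonneg j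
  have h1 : tm n (j + 3) = -(j : ℝ) / ((n : ℝ) + j) * sm n j *
      ((n : ℝ) * (((j + 2 : ℕ) : ℝ) + 1) + ((j + 2 : ℕ) : ℝ) ^ 2 / ((n : ℝ) + (j + 2 : ℕ))) := rfl
  have h2 : tm n (j + 1) = sm n j * ((n : ℝ) * ((j : ℝ) + 1) + (j : ℝ) ^ 2 / ((n : ℝ) + j)) := rfl
  rw [h1, h2, mul_comm (-(j : ℝ) / _), mul_assoc, abs_mul, abs_mul (sm n j)]
  refine mul_le_mul_of_nonneg_left ?_ (abs_nonneg _)
  push_cast
  rw [neg_div, neg_mul, abs_neg, abs_of_nonneg (by positivity), abs_of_nonneg (by positivity)]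
  obtain ⟨a, ha, hna⟩ : ∃ a : ℝ, 0 ≤ a ∧ (n : ℝ) = 2 + a := ⟨n - 2, by linarith, by ring⟩
  rw [hna, ← sub_nonneg]
  have : (2 + a) * ((j : ℝ) + 1) + j ^ 2 / (2 + a + j) -
      j / (2 + a + j) * ((2 + a) * (j + 2 + 1) + (j + 2) ^ 2 / (2 + a + (j + 2))) =
      (16 + a * (j ^ 2 + 4) + (a + j + 4) * (4 * a + 2 * a * j + a ^ 2 * (j + 1))) /
        ((2 + a + j) * (2 + a + (j + 2))) := by
    field_simp
    ring
  rw [this]
  positivity

end MultAux

theorem mult (hn : 2 ≤ n) {f : E n → ℝ} (hf : Good f) {k : ℕ} {Y : MP n} (hY : Y ∈ Harm n k) :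
    ∫ q, ⟪tg f q + f q • q, ∫ p, sg ⟪p, q⟫ • (tg (ev Y) p + ev Y p • p) ∂sph n⟫ ∂sph n =
      tm n k * ∫ q, f q * ev Y q ∂sph n := by
  cases k with
  | zero =>
    obtain ⟨c, rfl⟩ := eq_C_of_mem_Harm hY
    rw [← integral_const_mul]
    refine integral_congr_ae (ae_norm.mono fun q hq => ?_)
    have h1 : tm n 0 = s1 n := rfl
    simp only [MultAux.inner_zero hn c hq]
    rw [inner_smul_right, inner_add_left, inner_tg_self f hq, real_inner_smul_left,
      real_inner_self_eq_norm_sq, hq, ev_C, h1]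
    ring
  | succ m =>
    have hn' : (2 : ℝ) ≤ n := by exact_mod_cast hn
    have hm : (0 : ℝ) ≤ m := Nat.cast_nonneg m
    have h1 : ∫ q, ⟪tg f q + f q • q, ∫ p, sg ⟪p, q⟫ • (tg (ev Y) p + ev Y p • p) ∂sph n⟫ ∂sph n =
        (sm n m * n / (n + m)) * ∫ q, ⟪tg f q, tg (ev Y) q⟫ ∂sph n +
          (sm n m * (n * (m + 1) + m ^ 2) / (n + m)) * ∫ q, f q * ev Y q ∂sph n := by
      have i1 : Integrable (fun q => ⟪tg f q, tg (ev Y) q⟫) (sph n) := by
        have a1 : MemLp (fun q => ‖tg f q‖ * ‖tg (ev Y) q‖) 1 (sph n) :=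
          MemLp.mul' (p := 2) (q := 2) ((good_ev Y).memLp_tg 2).norm (hf.memLp_tg 2).norm
        exact (memLp_one_iff_integrable.1 a1).mono'
          ((measurable_tg f).inner (measurable_tg _)).aestronglyMeasurable
          (Eventually.of_forall fun q => norm_inner_le_norm _ _)
      have i2 : Integrable (fun q => f q * ev Y q) (sph n) :=
        integrable_of_continuous (hf.continuous.mul (continuous_ev Y))
      rw [← integral_const_mul, ← integral_const_mul,
        ← integral_add (i1.const_mul _) (i2.const_mul _)]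
      refine integral_congr_ae (ae_norm.mono fun q hq => ?_)
      simp only [MultAux.inner_succ hn hY hq]
      rw [inner_add_left, inner_add_right, inner_add_right, inner_smul_right, inner_smul_right,
        inner_smul_right, inner_smul_right, inner_tg_self f hq, real_inner_smul_left,
        real_inner_smul_left, real_inner_comm (tg (ev Y) q) q, inner_tg_self _ hq,
        real_inner_self_eq_norm_sq, hq]
      ring
    have h2 : tm n (m + 1) = sm n m * ((n : ℝ) * ((m : ℝ) + 1) + (m : ℝ) ^ 2 / ((n : ℝ) + m)) :=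
      rfl
    have h5 : (n : ℝ) + m ≠ 0 := by positivity
    rw [h1, green hf hY, h2, lam]
    push_cast
    field_simp
    ring

theorem tm_one : tm n 1 = 0 := by
  simp [tm, sm]

theorem tm_three : tm n 3 = 0 := by
  simp [tm, sm]

theorem abs_tm_le (hn : 2 ≤ n) {k : ℕ} (hk : 4 ≤ k) : |tm n k| ≤ cc n * s1 n := by
  have hn' : (2 : ℝ) ≤ n := by exact_mod_cast hn
  have hs := s1_pos (n := n) (by omega)
  have hc : 0 ≤ cc n := by unfold cc; positivity
  have key : ∀ j : ℕ, |tm n (j + 3)| ≤ cc n * s1 n ∧ |tm n (j + 4)| ≤ cc n * s1 n := by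
    intro j
    induction j with
    | zero =>
      refine ⟨by rw [zero_add, tm_three, abs_zero]; positivity, ?_⟩
      have h1 : tm n (0 + 4) = -(cc n * s1 n) := by
        simp only [tm, sm, cc]
        push_cast
        field_simp
        ring
      rw [h1, abs_neg, abs_of_nonneg (by positivity)]
    | succ j ih => exact ⟨ih.2, (MultAux.step hn (j + 2)).trans ih.1⟩
  obtain ⟨j, rfl⟩ : ∃ j, k = j + 4 := ⟨k - 4, by omega⟩
  exact (key j).2

end Crest.Agent.R230
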