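import Crest.Agent.R230.Nrm

set_option autoImplicit false
open MeasureTheory Filter Topology
open scoped ENNReal RealInnerProductSpace Pointwise

namespace Crest.Agent.R230

variable {n : ℕ}

namespace PositionAux

/-- the functional that is minimised -/
noncomputable def FF (N : Seminorm ℝ (E n)) (A : E n →L[ℝ] E n) : ℝ := ∫ p, N (A p) ∂sph n

theorem cont_comp (N : Seminorm ℝ (E n)) (A : E n →L[ℝ] E n) : Continuous fun p => N (A p) :=
  (nrm_continuous N).comp A.continuous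

theorem FF_smul (N : Seminorm ℝ (E n)) (A : E n →L[ℝ] E n) {c : ℝ} (hc : 0 ≤ c) :
    FF N (c • A) = c * FF N A := by
  rw [FF, FF, ← integral_const_mul]
  refine integral_congr_ae (Eventually.of_forall fun p => ?_)
  exact NrmAux.smul_pos N hc _

theorem FF_nonneg (N : Seminorm ℝ (E n)) (A : E n →L[ℝ] E n) : 0 ≤ FF N A :=
  integral_nonneg fun _ => apply_nonneg N _

theorem FF_continuous (hn : 1 ≤ n) (N : Seminorm ℝ (E n)) : Continuous (FF N) := by
  obtain ⟨C, hC, h⟩ := NrmAux.exists_upper N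
  have := sph_prob hn
  refine (LipschitzWith.of_dist_le_mul (K := ⟨C, hC.le⟩) fun A B => ?_).continuous
  rw [dist_eq_norm, dist_eq_norm, FF, FF, ← integral_sub (integrable_of_continuous (cont_comp N A))
    (integrable_of_continuous (cont_comp N B))]
  have h1 : ∀ᵐ p ∂sph n, ‖N (A p) - N (B p)‖ ≤ C * ‖A - B‖ := by
    filter_upwards [ae_norm] with p hp
    refine (N.norm_sub_map_le_sub _ _).trans ((h _).trans ?_)
    refine mul_le_mul_of_nonneg_left ?_ hC.le
    have := (A - B).le_opNorm p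
    rwa [hp, mul_one] at this
  have h2 := norm_integral_le_of_norm_le_const h1
  rw [probReal_univ, mul_one] at h2
  exact h2

theorem FF_pos {N : Seminorm ℝ (E n)} (hN : Pos N) {A : E n →L[ℝ] E n} (hA : A ≠ 0) :
    0 < FF N A := by
  refine lt_of_le_of_ne (FF_nonneg N A) fun h => hA ?_
  have h1 := (integral_eq_zero_iff_of_nonneg (fun p => apply_nonneg N (A p))
    (integrable_of_continuous (cont_comp N A))).1 h.symm
  have h2 : ∀ p : E n, ‖p‖ = 1 → A p = 0 := fun p hp =>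
    hN _ (eq_on_sphere (c := 0) (cont_comp N A).continuousOn h1 hp)
  refine ContinuousLinearMap.ext fun x => ?_
  rcases eq_or_ne x 0 with rfl | hx
  · simp
  have hx' : ‖x‖ ≠ 0 := norm_ne_zero_iff.2 hx
  have h3 := h2 (‖x‖⁻¹ • x) (by rw [norm_smul, norm_inv, norm_norm, inv_mul_cancel₀ hx'])
  rw [map_smul, smul_eq_zero] at h3
  rcases h3 with h3 | h3
  · exact absurd h3 (inv_ne_zero hx')
  · simpa using h3

theorem FF_lower (hn : 1 ≤ n) {N : Seminorm ℝ (E n)} (hN : Pos N) :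
    ∃ c : ℝ, 0 < c ∧ ∀ A : E n →L[ℝ] E n, c * ‖A‖ ≤ FF N A := by
  have := SphereAux.nontriv hn
  obtain ⟨B, hB, hmin⟩ := (isCompact_sphere (0 : E n →L[ℝ] E n) 1).exists_isMinOn
    ⟨ContinuousLinearMap.id ℝ (E n), by simp⟩ (FF_continuous hn N).continuousOn
  have hB1 : ‖B‖ = 1 := by simpa using hB
  have hB0 : B ≠ 0 := by
    rintro rfl
    simp at hB1
  refine ⟨FF N B, FF_pos hN hB0, fun A => ?_⟩
  rcases eq_or_ne A 0 with rfl | hA
  · rw [norm_zero, mul_zero]
    exact FF_nonneg N 0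
  have hA' : 0 < ‖A‖ := norm_pos_iff.2 hA
  have h1 : FF N B ≤ FF N (‖A‖⁻¹ • A) := hmin (show ‖A‖⁻¹ • A ∈ Metric.sphere _ 1 by
    rw [mem_sphere_zero_iff_norm, norm_smul, norm_inv, norm_norm, inv_mul_cancel₀ hA'.ne'])
  rw [FF_smul N A (inv_nonneg.2 hA'.le), le_inv_mul_iff₀ hA'] at h1
  linarith

theorem exists_min (hn : 1 ≤ n) {N : Seminorm ℝ (E n)} (hN : Pos N) :
    ∃ A : E n →L[ℝ] E n, A.det = 1 ∧ ∀ B : E n →L[ℝ] E n, B.det = 1 → FF N A ≤ FF N B := by
  obtain ⟨c, hc, hlow⟩ := FF_lower hn hN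
  have hcl : IsClosed {A : E n →L[ℝ] E n | A.det = 1} :=
    isClosed_eq ContinuousLinearMap.continuous_det continuous_const
  have h0 : ContinuousLinearMap.id ℝ (E n) ∈ {A : E n →L[ℝ] E n | A.det = 1} := by
    simp [ContinuousLinearMap.det]
  obtain ⟨A, hA, hmin⟩ := (FF_continuous hn N).continuousOn.exists_isMinOn' hcl h0 (by
    refine Eventually.filter_mono inf_le_left ?_
    have h1 := (tendsto_norm_cocompact_atTop (E := E n →L[ℝ] E n)).eventually_ge_atTop
      (FF N (ContinuousLinearMap.id ℝ (E n)) / c)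
    filter_upwards [h1] with B hB
    rw [div_le_iff₀ hc] at hB
    linarith [hlow B])
  exact ⟨A, hA, fun B hB => hmin hB⟩

theorem pow_le {N : Seminorm ℝ (E n)} (hn : 1 ≤ n) {A : E n →L[ℝ] E n}
    (hmin : ∀ B : E n →L[ℝ] E n, B.det = 1 → FF N A ≤ FF N B) {B : E n →L[ℝ] E n}
    (hB : 0 < B.det) : B.det * FF N A ^ n ≤ FF N B ^ n := by
  have hn0 : n ≠ 0 := by omega
  obtain ⟨c, hc, hcn⟩ : ∃ c : ℝ, 0 < c ∧ c ^ n = B.det :=
    ⟨B.det ^ ((n : ℝ)⁻¹), Real.rpow_pos_of_pos hB _, Real.rpow_inv_natCast_pow hB.le hn0⟩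
  have h1 : (c⁻¹ • B).det = 1 := by
    have : (c⁻¹ • B).det = c⁻¹ ^ n * B.det := by
      simp [ContinuousLinearMap.det, LinearMap.det_smul]
    rw [this, ← hcn, inv_pow, inv_mul_cancel₀ (pow_pos hc n).ne']
  have h2 := hmin _ h1
  rw [FF_smul N B (inv_nonneg.2 hc.le), le_inv_mul_iff₀ hc] at h2
  rw [← hcn, ← mul_pow]
  exact pow_le_pow_left₀ (mul_nonneg hc.le (FF_nonneg N A)) h2 n

theorem hasDerivAt_int (M : Seminorm ℝ (E n)) {u : E n} (hu : ‖u‖ = 1) :
    HasDerivAt (fun t : ℝ => ∫ p, M (p + t • (⟪p, u⟫ • u)) ∂sph n)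
      (∫ p, ⟪p, u⟫ * ⟪gradient (fun x => M x) p, u⟫ ∂sph n) 0 := by
  obtain ⟨C, hC, h⟩ := NrmAux.exists_upper M
  have hc : ∀ t : ℝ, Continuous fun p : E n => M (p + t • (⟪p, u⟫ • u)) := fun t =>
    (nrm_continuous M).comp (by fun_prop)
  have hm : Measurable fun p : E n => ⟪p, u⟫ * ⟪gradient (fun x => M x) p, u⟫ :=
    (measurable_id.inner measurable_const).mul ((measurable_gradient _).inner measurable_const)
  have key := hasDerivAt_integral_of_dominated_loc_of_lip (μ := sph n) (𝕜 := ℝ)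
    (F := fun t p => M (p + t • (⟪p, u⟫ • u))) (x₀ := 0) (s := Set.univ) (bound := fun _ => C)
    (F' := fun p => ⟪p, u⟫ * ⟪gradient (fun x => M x) p, u⟫) univ_mem
    (Eventually.of_forall fun t => (hc t).aestronglyMeasurable) (integrable_of_continuous (hc 0))
    hm.aestronglyMeasurable (ae_norm.mono fun p hp => ?_) (integrable_const _)
    ((nrm_good M).diff.mono fun p hp => ?_)
  · exact key.2
  · refine LipschitzOnWith.of_dist_le_mul fun t _ s _ => ?_
    rw [Real.coe_nnabs, abs_of_pos hC, dist_eq_norm, dist_eq_norm]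
    refine (M.norm_sub_map_le_sub _ _).trans ((h _).trans ?_)
    refine mul_le_mul_of_nonneg_left ?_ hC.le
    have h1 : p + t • (⟪p, u⟫ • u) - (p + s • (⟪p, u⟫ • u)) = (t - s) • (⟪p, u⟫ • u) := by
      module
    have h2 := abs_real_inner_le_norm p u
    rw [hp, hu, mul_one] at h2
    rw [h1, norm_smul, norm_smul, hu, mul_one]
    exact mul_le_of_le_one_right (norm_nonneg _) h2
  · have := NrmAux.hasDerivAt_line M hp (⟪p, u⟫ • u)
    rwa [real_inner_smul_right] at this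

/-- the rank one perturbation of the identity -/
noncomputable def BB (u : E n) (t : ℝ) : E n →L[ℝ] E n :=
  ContinuousLinearMap.id ℝ (E n) + t • (innerSL ℝ u).smulRight u

theorem BB_apply (u : E n) (t : ℝ) (p : E n) : BB u t p = p + t • (⟪p, u⟫ • u) := by
  simp [BB, real_inner_comm]

theorem BB_det {u : E n} (hu : ‖u‖ = 1) (t : ℝ) : (BB u t).det = 1 + t := by
  have h : (BB u t : E n →ₗ[ℝ] E n) =
      LinearMap.transvection (t • (innerSL ℝ u : E n →ₗ[ℝ] ℝ)) u := by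
    refine LinearMap.ext fun p => ?_
    simp [BB_apply, LinearMap.transvection, real_inner_comm, mul_smul]
  rw [ContinuousLinearMap.det, h, LinearMap.transvection.det]
  simp [hu]

end PositionAux

open PositionAux

/-! Every norm has an isotropic position. -/

theorem exists_iso (hn : 1 ≤ n) {N : Seminorm ℝ (E n)} (hN : Pos N) :
    ∃ A : E n ≃ₗ[ℝ] E n, LinearMap.det (A : E n →ₗ[ℝ] E n) = 1 ∧
      Iso (N.comp (A : E n →ₗ[ℝ] E n)) := by
  obtain ⟨A, hA, hmin⟩ := exists_min hn hN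
  have hA0 : LinearMap.det (A : E n →ₗ[ℝ] E n) ≠ 0 := by
    have : LinearMap.det (A : E n →ₗ[ℝ] E n) = 1 := hA
    rw [this]
    exact one_ne_zero
  have hco : ((A : E n →ₗ[ℝ] E n).equivOfDetNeZero hA0 : E n →ₗ[ℝ] E n) = A :=
    LinearEquiv.coe_ofIsUnitDet _
  refine ⟨(A : E n →ₗ[ℝ] E n).equivOfDetNeZero hA0, by rw [hco]; exact hA, ?_⟩
  rw [hco]
  set M := N.comp (A : E n →ₗ[ℝ] E n) with hM
  intro u hu
  have hAne : A ≠ 0 := by
    rintro rfl
    have := SphereAux.nontriv hn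
    simp at hA0
  have hmean : mean M = FF N A := rfl
  have hpos : 0 < mean M := FF_pos hN hAne
  set g : ℝ → ℝ := fun t => ∫ p, M (p + t • (⟪p, u⟫ • u)) ∂sph n with hg
  have hg0 : g 0 = mean M := by simp [hg, mean]
  have hgt : ∀ t, g t = FF N (A.comp (BB u t)) := fun t => by
    simp only [hg, FF, ContinuousLinearMap.comp_apply, BB_apply]
    rfl
  have hd := hasDerivAt_int M hu
  set D := ∫ p, ⟪p, u⟫ * ⟪gradient (fun x => M x) p, u⟫ ∂sph n with hD
  have hloc : IsLocalMin (fun t => g t ^ n - (1 + t) * mean M ^ n) 0 := by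
    have h1 : ∀ᶠ t : ℝ in 𝓝 0, -1 < t := lt_mem_nhds (by norm_num)
    filter_upwards [h1] with t ht
    have hdet : (A.comp (BB u t)).det = 1 + t := by
      have : (A.comp (BB u t)).det = A.det * (BB u t).det := LinearMap.det_comp _ _
      rw [this, hA, BB_det hu, one_mul]
    have h2 := pow_le hn hmin (B := A.comp (BB u t)) (by rw [hdet]; linarith)
    rw [hdet, ← hgt, ← hmean] at h2
    simp only [hg0, add_zero, one_mul, sub_self]
    linarith
  have hd2 : HasDerivAt (fun t => g t ^ n - (1 + t) * mean M ^ n)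
      (n * g 0 ^ (n - 1) * D - 1 * mean M ^ n) 0 :=
    (hd.fun_pow n).fun_sub (((hasDerivAt_id' (0 : ℝ)).const_add 1).mul_const _)
  have h3 := hloc.hasDerivAt_eq_zero hd2
  rw [hg0] at h3
  have h4 : (n : ℝ) * D = mean M := by
    obtain ⟨m, rfl⟩ : ∃ m, n = m + 1 := ⟨n - 1, by omega⟩
    rw [Nat.add_sub_cancel, pow_succ] at h3
    have h5 : mean M ^ m * (((m + 1 : ℕ) : ℝ) * D - mean M) = 0 := by linarith
    rcases mul_eq_zero.1 h5 with h6 | h6
    · exact absurd h6 (pow_pos hpos m).ne'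
    · linarith
  have h7 := integral_inner_mul_gradient M hu
  rw [← hD] at h7
  have hn' : (0 : ℝ) < n := Nat.cast_pos.2 hn
  rw [eq_div_iff hn'.ne']
  have h8 : ((n : ℝ) + 1) * ((∫ p, M p * ⟪p, u⟫ ^ 2 ∂sph n) * n - mean M) = 0 := by
    rw [h7] at h4
    linarith
  rcases mul_eq_zero.1 h8 with h9 | h9
  · linarith
  · linarith

end Crest.Agent.R230
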