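import Crest.Agent.R230.Bright

set_option autoImplicit false
open MeasureTheory Filter Topology
open scoped ENNReal RealInnerProductSpace Pointwise

namespace Crest.Agent.R230

variable {n : ℕ}

/-! First variation of the volume in the direction of a zonoid. -/

namespace ZonAux

lemma Pt_def (K : Set (E n)) (v : E n) : Pt K v = ‖v‖ * br K (‖v‖⁻¹ • v) := rfl

lemma Pt_zero (K : Set (E n)) : Pt K 0 = 0 := by rw [Pt_def, norm_zero, zero_mul]

lemma Pt_mono (hn : 1 ≤ n) {K L : Set (E n)} (hL : IsCompact L) (h : K ⊆ L) (v : E n) :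
    Pt K v ≤ Pt L v := by
  by_cases hv : v = 0
  · rw [hv, Pt_zero, Pt_zero]
  · exact mul_le_mul_of_nonneg_left (br_mono hn hL h (norm_smul_inv_norm hv)) (norm_nonneg _)

lemma Pt_homothety (K : Set (E n)) (a : E n) {t : ℝ} (ht : 0 < t) (v : E n) :
    Pt ((fun x => a + t • (x - a)) '' K) v = t ^ (n - 1) * Pt K v := by
  rw [Pt_def, Pt_def, br_homothety K a ht]; ring

lemma vol_seg (hn : 1 ≤ n) {K : Set (E n)} (hK : IsCompact K) (hc : Convex ℝ K) (v : E n) :
    volume.real (K + segment ℝ (-v) v) = volume.real K + 2 * Pt K v := by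
  have h1 : K + segment ℝ (-v) v = (fun x => v + x) ⁻¹' (K + segment ℝ 0 ((2 : ℝ) • v)) := by
    ext x
    simp only [Set.mem_preimage, Set.mem_add]
    constructor
    · rintro ⟨k, hk, _, ⟨a, b, ha, hb, hab, rfl⟩, rfl⟩
      refine ⟨k, hk, _, ⟨a, b, ha, hb, hab, rfl⟩, ?_⟩
      obtain rfl : a = 1 - b := by linarith
      module
    · rintro ⟨k, hk, _, ⟨a, b, ha, hb, hab, rfl⟩, h⟩
      refine ⟨k, hk, _, ⟨a, b, ha, hb, hab, rfl⟩, ?_⟩
      obtain rfl : a = 1 - b := by linarith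
      rw [← sub_eq_iff_eq_add'] at h
      rw [← h]
      module
  rw [h1, Measure.real, measure_preimage_add, ← Measure.real, volume_add_segment hn hK hc, Pt_smul]
  norm_num

variable {ι : Type*}

/-- zonotope -/
def zon (s : Finset ι) (v : ι → E n) : Set (E n) := ∑ i ∈ s, segment ℝ (-v i) (v i)

lemma zon_convex (s : Finset ι) (v : ι → E n) : Convex ℝ (zon s v) :=
  convex_sum _ fun _ _ => convex_segment _ _

lemma zon_compact (s : Finset ι) (v : ι → E n) : IsCompact (zon s v) := by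
  classical
  unfold zon
  induction s using Finset.induction_on with
  | empty => rw [Finset.sum_empty]; exact isCompact_singleton
  | insert a s ha ih => rw [Finset.sum_insert ha]; exact (BrightAux.isCompact_segment _ _).add ih

lemma zon_norm {s : Finset ι} {v : ι → E n} {x : E n} (hx : x ∈ zon s v) :
    ‖x‖ ≤ ∑ i ∈ s, ‖v i‖ := by
  obtain ⟨g, hg, rfl⟩ := (Set.mem_finsetSum _ _ _).1 hx
  refine norm_sum_le_of_le _ fun i hi => ?_
  exact mem_closedBall_zero_iff.1 ((convex_closedBall (0 : E n) ‖v i‖).segment_subset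
    (by simp) (by simp) (hg hi))

lemma vol_zon (hn : 1 ≤ n) {K L : Set (E n)} (hK : IsCompact K) (hc : Convex ℝ K)
    (hL : IsCompact L) (v : ι → E n) (s : Finset ι) (h : K + zon s v ⊆ L) :
    volume.real (K + zon s v) ≤ volume.real K + 2 * ∑ i ∈ s, Pt L (v i) := by
  classical
  induction s using Finset.induction_on with
  | empty =>
    unfold zon
    simp
  | insert a s ha ih =>
    have e1 : K + zon (insert a s) v = K + zon s v + segment ℝ (-v a) (v a) := by
      unfold zon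
      rw [Finset.sum_insert ha, add_assoc, add_comm (segment ℝ _ _)]
    have h0 : (0 : E n) ∈ segment ℝ (-v a) (v a) :=
      ⟨1 / 2, 1 / 2, by norm_num, by norm_num, by norm_num, by module⟩
    have hs : K + zon s v ⊆ L := fun x hx => h (e1 ▸ ⟨x, hx, 0, h0, add_zero x⟩)
    rw [e1, vol_seg hn (hK.add (zon_compact s v)) (hc.add (zon_convex s v)), Finset.sum_insert ha]
    have := Pt_mono hn hL hs (v a)
    have := ih hs
    linarith

lemma mem_zon {s : Finset ι} {v : ι → E n} {z : E n}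
    (h : ∀ u : E n, ‖u‖ = 1 → ⟪z, u⟫ ≤ ∑ i ∈ s, |⟪v i, u⟫|) : z ∈ zon s v := by
  by_contra hz
  obtain ⟨f, c, h1, h2⟩ := geometric_hahn_banach_closed_point (zon_convex s v)
    (zon_compact s v).isClosed hz
  obtain ⟨u, rfl⟩ := (InnerProductSpace.toDual ℝ (E n)).surjective f
  simp only [InnerProductSpace.toDual_apply_apply] at h1 h2
  have h3 : ∑ i ∈ s, |⟪v i, u⟫| < c := by
    have := h1 (∑ i ∈ s, if 0 ≤ ⟪v i, u⟫ then v i else -v i) ((Set.mem_finsetSum _ _ _).2
      ⟨_, fun {i} _ => by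
        split_ifs
        · exact right_mem_segment _ _ _
        · exact left_mem_segment _ _ _, rfl⟩)
    rw [inner_sum] at this
    refine lt_of_eq_of_lt (Finset.sum_congr rfl fun i _ => ?_) this
    split_ifs with hi
    · rw [abs_of_nonneg hi, real_inner_comm]
    · rw [abs_of_neg (not_le.1 hi), inner_neg_right, real_inner_comm]
  have hu : u ≠ 0 := by
    rintro rfl
    simp only [inner_zero_left, inner_zero_right, abs_zero, Finset.sum_const_zero] at h2 h3
    linarith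
  have h4 := h _ (norm_smul_inv_norm (𝕜 := ℝ) hu)
  have hp : 0 < ‖u‖⁻¹ := inv_pos.2 (norm_pos_iff.2 hu)
  simp only [real_inner_smul_right, abs_mul, RCLike.ofReal_real_eq_id, id, abs_of_pos hp,
    ← Finset.mul_sum] at h4
  have h5 := le_of_mul_le_mul_left h4 hp
  rw [real_inner_comm] at h5
  linarith

lemma add_ball_subset {K : Set (E n)} (hc : Convex ℝ K) {a : E n} {ρ : ℝ} (hρ : 0 < ρ)
    (ha : Metric.closedBall a ρ ⊆ K) {r : ℝ} (hr : 0 < r) {x y : E n} (hx : x ∈ K)
    (hy : ‖y‖ ≤ r) : x + y ∈ (fun x => a + (1 + r / ρ) • (x - a)) '' K := by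
  have hb : a + (ρ / r) • y ∈ K := by
    refine ha ?_
    rw [mem_closedBall_iff_norm, add_sub_cancel_left, norm_smul, Real.norm_of_nonneg (by positivity),
      div_mul_eq_mul_div, div_le_iff₀ hr]
    exact mul_le_mul_of_nonneg_left hy hρ.le
  refine ⟨_, hc hx hb (a := ρ / (ρ + r)) (b := r / (ρ + r)) (by positivity) (by positivity)
    (by field_simp), ?_⟩
  match_scalars <;> field_simp <;> ring

lemma one_le_sum_abs {u : E n} (hu : ‖u‖ = 1) : 1 ≤ ∑ i, |u i| := by
  have h1 : ‖u‖ ^ 2 = ∑ i, |u i| ^ 2 := by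
    rw [EuclideanSpace.norm_sq_eq]; simp
  have h2 := Finset.sum_sq_le_sq_sum_of_nonneg (s := Finset.univ) (f := fun i => |u i|)
    fun i _ => abs_nonneg _
  rw [← h1, hu] at h2
  exact (pow_le_pow_iff_left₀ zero_le_one (Finset.sum_nonneg fun i _ => abs_nonneg _)
    two_ne_zero).1 h2

lemma simple_integral {μ : Measure (E n)} [IsFiniteMeasure μ] (g : SimpleFunc (E n) (E n))
    (φ : E n → ℝ) (h0 : φ 0 = 0) :
    ∫ p, φ (g p) ∂μ = ∑ c ∈ g.range, μ.real (g ⁻¹' {c}) * φ c := by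
  have := SimpleFunc.map_integral (μ := μ) g φ (g.integrable_of_isFiniteMeasure) h0
  rw [SimpleFunc.integral_eq_integral _ (g.map φ).integrable_of_isFiniteMeasure] at this
  exact this

/-- a zonoid lies in a zonotope of almost the same brightness -/
lemma approx {K : Set (E n)} (μ : Measure (E n))
    [IsProbabilityMeasure μ] {w : E n → E n} (hw : Measurable w) {C : ℝ}
    (hwK : ∀ᵐ p ∂μ, w p ∈ closure {v : E n | Pt K v ≤ 1 ∧ ‖v‖ ≤ C}) {δ : ℝ} (hδ : 0 < δ) :
    ∃ (s : Finset (E n)) (v : E n → E n), ∑ i ∈ s, Pt K (v i) ≤ 1 ∧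
      ∀ u : E n, ‖u‖ = 1 → ∫ p, |⟪w p, u⟫| ∂μ ≤ ∑ i ∈ s, |⟪v i, u⟫| + δ := by
  set S := {v : E n | Pt K v ≤ 1 ∧ ‖v‖ ≤ C} with hS
  have hwC : ∀ᵐ p ∂μ, ‖w p‖ ≤ C := hwK.mono fun p hp =>
    closure_minimal (t := {v : E n | ‖v‖ ≤ C}) (fun v hv => hv.2)
      (isClosed_le continuous_norm continuous_const) hp
  have hC : 0 ≤ C := by
    obtain ⟨p, hp⟩ := hwC.exists
    exact (norm_nonneg _).trans hp
  have h0 : (0 : E n) ∈ S := ⟨by rw [Pt_zero]; exact zero_le_one, by simpa using hC⟩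
  have hwi : Integrable w μ := (integrable_const C).mono' hw.aestronglyMeasurable hwC
  have ht := SimpleFunc.tendsto_approxOn_L1_enorm hw h0 hwK (by simpa using hwi.2)
  obtain ⟨m, hm⟩ := (ht.eventually (gt_mem_nhds (ENNReal.ofReal_pos.2 hδ))).exists
  set g := SimpleFunc.approxOn w hw S 0 h0 m with hg
  have hgS : ∀ p, g p ∈ S := SimpleFunc.approxOn_mem hw h0 m
  have hgi : Integrable g μ := g.integrable_of_isFiniteMeasure
  have hd : ∫ p, ‖g p - w p‖ ∂μ ≤ δ := by
    rw [integral_norm_eq_lintegral_enorm (f := fun p => g p - w p) (hgi.sub hwi).1]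
    exact ENNReal.toReal_le_of_le_ofReal hδ.le hm.le
  refine ⟨g.range, fun c => μ.real (g ⁻¹' {c}) • c, ?_, fun u hu => ?_⟩
  · simp only [Pt_smul, abs_of_nonneg measureReal_nonneg]
    rw [← simple_integral g (Pt K) (Pt_zero K)]
    refine (integral_mono_of_nonneg (.of_forall fun p => Pt_nonneg _ _) (integrable_const (1 : ℝ))
      (.of_forall fun p => (hgS p).1)).trans ?_
    simp
  · simp only [real_inner_smul_left, abs_mul, abs_of_nonneg measureReal_nonneg]
    rw [← simple_integral g (fun c => |⟪c, u⟫|) (by simp)]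
    have hi : Integrable (fun p => |⟪g p, u⟫|) μ := (hgi.inner_const u).abs
    refine le_trans (integral_mono_of_nonneg (.of_forall fun p => abs_nonneg _)
      (hi.add (hgi.sub hwi).norm) (.of_forall fun p => ?_)) ?_
    · have h1 : |⟪g p - w p, u⟫| ≤ ‖g p - w p‖ := by
        simpa [hu] using abs_real_inner_le_norm (g p - w p) u
      rw [inner_sub_left] at h1
      have h2 := abs_sub_abs_le_abs_sub ⟪w p, u⟫ ⟪g p, u⟫
      rw [abs_sub_comm] at h2
      show |⟪w p, u⟫| ≤ |⟪g p, u⟫| + ‖g p - w p‖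
      linarith
    · rw [integral_add' hi (hgi.sub hwi).norm]
      exact add_le_add_right hd _

end ZonAux

open ZonAux

theorem zonoid_bound (hn : 1 ≤ n) {K : Set (E n)} (hK : Body K) (μ : Measure (E n))
    [IsProbabilityMeasure μ] {w : E n → E n} (hw : Measurable w) {C : ℝ}
    (hwK : ∀ᵐ p ∂μ, w p ∈ closure {v : E n | Pt K v ≤ 1 ∧ ‖v‖ ≤ C}) {ε : ℝ} (hε : 0 < ε) :
    ∀ᶠ t in 𝓝[>] (0 : ℝ),
      volume.real (K + t • Sup (fun u => ∫ p, |⟪w p, u⟫| ∂μ)) ≤ volume.real K + (2 + ε) * t := by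
  obtain ⟨a, ha⟩ := hK.int
  obtain ⟨ρ, hρ, hball⟩ := Metric.nhds_basis_closedBall.mem_iff.1 (mem_interior_iff_mem_nhds.1 ha)
  obtain ⟨c, C0, hc, hb⟩ := hK.br_bounds hn
  set D : ℝ := n * |C0| + 1 with hD
  have hD0 : 0 < D := by positivity
  set δ : ℝ := ε / (4 * D) with hδ
  have hδ0 : 0 < δ := by positivity
  obtain ⟨s, v, hv1, hv2⟩ := approx μ hw hwK hδ0
  set V : E n ⊕ Fin n → E n := Sum.elim v fun i => δ • EuclideanSpace.single i (1 : ℝ) with hV
  set s' : Finset (E n ⊕ Fin n) := s.disjSum Finset.univ with hs'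
  have hP : ∑ i ∈ s', Pt K (V i) ≤ 1 + ε / 4 := by
    rw [hs', Finset.sum_disjSum]
    refine add_le_add hv1 ?_
    have : ∀ i : Fin n, Pt K (V (Sum.inr i)) ≤ δ * |C0| := fun i => by
      have hu : ‖(EuclideanSpace.single i (1 : ℝ) : E n)‖ = 1 := by simp
      simp only [hV, Sum.elim_inr, Pt_smul, abs_of_pos hδ0, Pt_unit K hu]
      exact mul_le_mul_of_nonneg_left ((hb _ hu).2.trans (le_abs_self _)) hδ0.le
    refine (Finset.sum_le_sum fun i _ => this i).trans ?_
    rw [Finset.sum_const, Finset.card_univ, Fintype.card_fin, nsmul_eq_mul]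
    have e1 : δ * D = ε / 4 := by rw [hδ]; field_simp
    nlinarith
  have hU : ∀ u : E n, ‖u‖ = 1 → ∫ p, |⟪w p, u⟫| ∂μ ≤ ∑ i ∈ s', |⟪V i, u⟫| := fun u hu => by
    rw [hs', Finset.sum_disjSum]
    refine (hv2 u hu).trans (add_le_add le_rfl ?_)
    simp only [hV, Sum.elim_inr, real_inner_smul_left, abs_mul, abs_of_pos hδ0,
      EuclideanSpace.inner_single_left, ← Finset.mul_sum]
    have := one_le_sum_abs hu
    simp only [map_one, abs_one, one_mul]
    nlinarith
  set S : ℝ := ∑ i ∈ s', ‖V i‖ + 1 with hS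
  have hS0 : 0 < S := add_pos_of_nonneg_of_pos (Finset.sum_nonneg fun _ _ => norm_nonneg _) one_pos
  have hlim : ∀ᶠ t in 𝓝 (0 : ℝ), 2 * ((1 + t * S / ρ) ^ (n - 1) * (1 + ε / 4)) < 2 + ε := by
    refine ContinuousAt.eventually_lt (by fun_prop) continuousAt_const ?_
    simp only [zero_mul, zero_div, add_zero, one_pow]
    linarith
  filter_upwards [nhdsWithin_le_nhds hlim, self_mem_nhdsWithin] with t h1 (ht : 0 < t)
  have hlam : 0 < 1 + t * S / ρ := by positivity
  have hL : IsCompact ((fun x => a + (1 + t * S / ρ) • (x - a)) '' K) :=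
    hK.cpt.image (by fun_prop)
  have hsub : K + zon s' (fun i => t • V i) ⊆ (fun x => a + (1 + t * S / ρ) • (x - a)) '' K := by
    rintro _ ⟨x, hx, y, hy, rfl⟩
    refine add_ball_subset hK.cvx hρ hball (by positivity) hx ((zon_norm hy).trans ?_)
    simp only [norm_smul, Real.norm_of_nonneg ht.le, ← Finset.mul_sum]
    nlinarith
  have hZ : K + t • Sup (fun u => ∫ p, |⟪w p, u⟫| ∂μ) ⊆ K + zon s' (fun i => t • V i) := by
    refine Set.add_subset_add_left ?_
    rintro _ ⟨z, hz, rfl⟩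
    refine mem_zon fun u hu => ?_
    simp only [real_inner_smul_left, abs_mul, abs_of_pos ht, ← Finset.mul_sum]
    exact mul_le_mul_of_nonneg_left ((mem_Sup.1 hz u hu).trans (hU u hu)) ht.le
  refine (measureReal_mono hZ (hK.cpt.add (zon_compact _ _)).measure_lt_top.ne).trans
    ((vol_zon hn hK.cpt hK.cvx hL _ _ hsub).trans (add_le_add le_rfl ?_))
  simp only [Pt_homothety K a hlam, Pt_smul, abs_of_pos ht, ← Finset.mul_sum]
  have h2 : (1 + t * S / ρ) ^ (n - 1) * ∑ i ∈ s', Pt K (V i) ≤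
      (1 + t * S / ρ) ^ (n - 1) * (1 + ε / 4) := mul_le_mul_of_nonneg_left hP (by positivity)
  nlinarith

end Crest.Agent.R230
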