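import Crest.Agent.R230.Core
import Crest.Agent.R230.Position
import Crest.Agent.R230.Dual
import Crest.Agent.R230.Affine
import Crest.Agent.R230.Zon
import Crest.Agent.R230.BMEqA
import Crest.Agent.R230.BMEqB

set_option autoImplicit false
open MeasureTheory Filter Topology
open scoped ENNReal RealInnerProductSpace Pointwise

namespace Crest.Agent.R230

variable {n : ℕ}

namespace PettyAux

lemma alg_ineq {m : ℕ} {k k' V a a' nn s : ℝ} (hk : 0 < k) (hk' : 0 < k') (hnn : 0 < nn)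
    (ha : 0 < a) (hs : s = 2 * k' / (nn * k))
    (h1 : s ^ (m + 2) ≤ a * a') (h2 : nn ^ (m + 2) * V ^ (m + 1) * (k * a) ≤ 2 ^ (m + 2)) :
    k' ^ (m + 2) * V ^ (m + 1) ≤ (k * a') * k ^ m ∧
      ((k * a') * k ^ m ≤ k' ^ (m + 2) * V ^ (m + 1) →
        a * a' ≤ s ^ (m + 2) ∧ 2 ^ (m + 2) ≤ nn ^ (m + 2) * V ^ (m + 1) * (k * a)) := by
  have hs' : s ^ (m + 2) * (nn ^ (m + 2) * k ^ (m + 2)) = 2 ^ (m + 2) * k' ^ (m + 2) := by
    rw [hs, div_pow, mul_pow, mul_pow]
    field_simp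
  set X := nn ^ (m + 2) * V ^ (m + 1) * (k * a) with hX
  have hpos : 0 < nn ^ (m + 2) * k ^ (m + 2) := by positivity
  have hc : 0 < nn ^ (m + 2) * (k * a) := by positivity
  have e1 : k' ^ (m + 2) * V ^ (m + 1) * (nn ^ (m + 2) * (k * a)) = k' ^ (m + 2) * X := by
    rw [hX]; ring
  have e2 : (k * a') * k ^ m * (nn ^ (m + 2) * (k * a)) =
      (a * a') * (nn ^ (m + 2) * k ^ (m + 2)) := by ring
  have hk2 : 0 < k' ^ (m + 2) := by positivity
  have h3 : k' ^ (m + 2) * X ≤ k' ^ (m + 2) * 2 ^ (m + 2) := mul_le_mul_of_nonneg_left h2 hk2.le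
  have h4 : s ^ (m + 2) * (nn ^ (m + 2) * k ^ (m + 2)) ≤
      (a * a') * (nn ^ (m + 2) * k ^ (m + 2)) := mul_le_mul_of_nonneg_right h1 hpos.le
  refine ⟨?_, fun h => ?_⟩
  · refine le_of_mul_le_mul_right ?_ hc
    rw [e1, e2]; linarith
  · have h5 := mul_le_mul_of_nonneg_right h hc.le
    rw [e1, e2] at h5
    refine ⟨le_of_mul_le_mul_right ?_ hpos, le_of_mul_le_mul_left ?_ hk2⟩ <;> linarith

lemma seminorm_eq {N M : Seminorm ℝ (E n)} (h : {x | N x ≤ 1} = {x | M x ≤ 1}) : N = M := by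
  have key : ∀ {N M : Seminorm ℝ (E n)}, {x | N x ≤ 1} = {x | M x ≤ 1} → ∀ x, M x ≤ N x := by
    intro N M h x
    refine le_of_forall_gt_imp_ge_of_dense fun t ht => ?_
    have ht0 : 0 < t := lt_of_le_of_lt (apply_nonneg N x) ht
    have h1 : t⁻¹ • x ∈ {x | N x ≤ 1} := by
      show N (t⁻¹ • x) ≤ 1
      rw [map_smul_eq_mul, Real.norm_eq_abs, abs_of_pos (inv_pos.2 ht0), inv_mul_le_iff₀ ht0]
      linarith
    rw [h] at h1
    have h2 : M (t⁻¹ • x) ≤ 1 := h1
    rw [map_smul_eq_mul, Real.norm_eq_abs, abs_of_pos (inv_pos.2 ht0), inv_mul_le_iff₀ ht0] at h2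
    linarith
  ext x
  exact le_antisymm (key h.symm x) (key h x)

lemma det_adjoint (A : E n →ₗ[ℝ] E n) :
    LinearMap.det (LinearMap.adjoint A) = LinearMap.det A := by
  let b := EuclideanSpace.basisFun (Fin n) ℝ
  rw [← LinearMap.det_toMatrix b.toBasis, ← LinearMap.det_toMatrix b.toBasis A,
    LinearMap.toMatrix_adjoint, Matrix.det_conjTranspose]
  simp

lemma gradient_of_norm {N : Seminorm ℝ (E n)} {c : ℝ} (hc : 0 < c) (h : ∀ x, N x = c * ‖x‖) :
    ∀ᵐ p ∂sph n, gradient (fun x => N x) p = c • p := by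
  filter_upwards [(nrm_good N).diff, ae_norm (n := n)] with p hp h1
  set w := gradient (fun x => N x) p with hw
  have e1 : ⟪w, p⟫ = c := by rw [hw, nrm_euler N hp, h, h1, mul_one]
  have e2 : ‖w‖ ^ 2 ≤ c * ‖w‖ := by
    have := nrm_sub N p w
    rwa [← hw, real_inner_self_eq_norm_sq, h] at this
  have e3 : ‖w‖ ≤ c := by
    by_contra hh
    push Not at hh
    nlinarith [norm_nonneg w]
  have e4 : ‖w - c • p‖ ^ 2 ≤ 0 := by
    rw [norm_sub_sq_real, inner_smul_right, e1, norm_smul, h1, Real.norm_eq_abs, abs_of_pos hc]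
    nlinarith [norm_nonneg w]
  have e5 : ‖w - c • p‖ = 0 := by nlinarith [norm_nonneg (w - c • p)]
  exact sub_eq_zero.1 (norm_eq_zero.1 e5)

end PettyAux

open PettyAux

theorem petty_iso (hn : 4 ≤ n) {K : Set (E n)} (hK : Body K) {N' : Seminorm ℝ (E n)}
    (hN' : Pos N') (hL : {x | N' x ≤ 1} = PiB K)
    (hg : ∀ p : E n, DifferentiableAt ℝ (fun x => N' x) p → gradient (fun x => N' x) p ∈
      closure {y : E n | ∃ u : E n, ‖u‖ = 1 ∧ y = (br K u)⁻¹ • u})
    (hI : Iso N') :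
    kap (n - 1) ^ n * volume.real K ^ (n - 1) ≤ volume.real (PiB K) * kap n ^ (n - 2) ∧
      (volume.real (PiB K) * kap n ^ (n - 2) ≤ kap (n - 1) ^ n * volume.real K ^ (n - 1) →
        ∃ (a : E n) (ρ : ℝ), 0 < ρ ∧ K = Metric.closedBall a ρ) := by
  have hn1 : 1 ≤ n := by omega
  have hn2 : 2 ≤ n := by omega
  have hnR : (0 : ℝ) < n := by exact_mod_cast (by omega : 0 < n)
  have := sph_prob hn1
  set w : E n → E n := gradient (fun x => N' x) with hw
  have hwm : Measurable w := measurable_gradient _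
  obtain ⟨M, e, hM0, -, -, hM⟩ := nrm_exists_max hn1 N'
  set h : E n → ℝ := fun u => ∫ p, |⟪w p, u⟫| ∂sph n with hh
  have hint : ∀ u : E n, Integrable (fun p => ⟪w p, u⟫) (sph n) := fun u =>
    (memLp_one_iff_integrable.1 ((nrm_good N').memLp_gradient 1)).inner_const u
  have hup : ∀ u : E n, ‖u‖ = 1 → h u ≤ M := by
    intro u hu
    have : ∫ p, |⟪w p, u⟫| ∂sph n ≤ ∫ _p, M ∂sph n := by
      refine integral_mono (hint u).abs (integrable_const M) fun p => ?_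
      calc |⟪w p, u⟫| ≤ ‖w p‖ * ‖u‖ := abs_real_inner_le_norm _ _
        _ ≤ M := by rw [hu, mul_one]; exact hM p
    simpa using this
  have hm' := mean_pos hn1 hN'
  have hlo : ∀ u : E n, ‖u‖ = 1 → mean N' / n ≤ h u := by
    intro u hu
    have e1 := integral_inner_mul_gradient N' hu
    rw [hI u hu] at e1
    have e2 : ∫ p, ⟪p, u⟫ * ⟪w p, u⟫ ∂sph n ≤ ∫ p, |⟪w p, u⟫| ∂sph n := by
      refine integral_mono_ae ?_ (hint u).abs ?_
      · refine (hint u).bdd_mul (c := 1) (by fun_prop) ?_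
        filter_upwards [ae_norm (n := n)] with p hp
        calc ‖⟪p, u⟫‖ ≤ ‖p‖ * ‖u‖ := norm_inner_le_norm _ _
          _ = 1 := by rw [hp, hu, mul_one]
      · filter_upwards [ae_norm (n := n)] with p hp
        have : |⟪p, u⟫| ≤ 1 := by
          calc |⟪p, u⟫| ≤ ‖p‖ * ‖u‖ := abs_real_inner_le_norm _ _
            _ = 1 := by rw [hp, hu, mul_one]
        calc ⟪p, u⟫ * ⟪w p, u⟫ ≤ |⟪p, u⟫ * ⟪w p, u⟫| := le_abs_self _
          _ = |⟪p, u⟫| * |⟪w p, u⟫| := abs_mul _ _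
          _ ≤ 1 * |⟪w p, u⟫| := mul_le_mul_of_nonneg_right this (abs_nonneg _)
          _ = |⟪w p, u⟫| := one_mul _
    have e3 : ((n : ℝ) + 1) * (mean N' / n) - mean N' = mean N' / n := by field_simp; ring
    rw [e3] at e1
    rw [← e1]; exact e2
  have hev : ∀ u : E n, ‖u‖ = 1 → h (-u) = h u := by
    intro u _
    simp only [hh, inner_neg_right, abs_neg]
  have hc0 : 0 < mean N' / n := div_pos hm' hnR
  obtain ⟨N, hN, hZ, -⟩ := exists_gauge hn1 hc0 hlo hup hev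
  have hZb : Body (Sup h) := by
    refine ⟨isCompact_Sup hup, convex_Sup h, ⟨0, ?_⟩⟩
    rw [mem_interior_iff_mem_nhds]
    refine mem_of_superset (Metric.ball_mem_nhds 0 hc0) fun x hx => mem_Sup.2 fun u hu => ?_
    have hx' : ‖x‖ < mean N' / n := by simpa using hx
    calc ⟪x, u⟫ ≤ ‖x‖ * ‖u‖ := real_inner_le_norm _ _
      _ ≤ mean N' / n := by rw [hu, mul_one]; exact hx'.le
      _ ≤ h u := hlo u hu
  have hz : ∀ q, N (zv N' q) ≤ 1 := by
    intro q
    have : zv N' q ∈ Sup h := by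
      refine mem_Sup.2 fun u _ => ?_
      have hi : Integrable (fun p => sg ⟪p, q⟫ • w p) (sph n) := by
        refine (memLp_one_iff_integrable.1 ((nrm_good N').memLp_gradient 1)).bdd_smul 1
          (measurable_sg.comp (by fun_prop)).aestronglyMeasurable ?_
        exact Eventually.of_forall fun p => abs_sg_le _
      have e1 : ⟪zv N' q, u⟫ = ∫ p, ⟪sg ⟪p, q⟫ • w p, u⟫ ∂sph n := by
        rw [real_inner_comm, zv, ← integral_inner hi]
        simp only [real_inner_comm, hw]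
      rw [e1]
      refine integral_mono (hi.inner_const u) (hint u).abs fun p => ?_
      show ⟪sg ⟪p, q⟫ • w p, u⟫ ≤ |⟪w p, u⟫|
      rw [real_inner_smul_left]
      calc sg ⟪p, q⟫ * ⟪w p, u⟫ ≤ |sg ⟪p, q⟫ * ⟪w p, u⟫| := le_abs_self _
        _ = |sg ⟪p, q⟫| * |⟪w p, u⟫| := abs_mul _ _
        _ ≤ 1 * |⟪w p, u⟫| := mul_le_mul_of_nonneg_right (abs_sg_le _) (abs_nonneg _)
        _ = |⟪w p, u⟫| := one_mul _
    rw [← hZ] at this
    exact this
  obtain ⟨hcore, hcoreq⟩ := core hn hN hN' hI hz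
  obtain ⟨c0, C0, hc0', hbr⟩ := hK.br_bounds hn1
  have hwK : ∀ᵐ p ∂sph n, w p ∈ closure {v : E n | Pt K v ≤ 1 ∧ ‖v‖ ≤ c0⁻¹} := by
    filter_upwards [(nrm_good N').diff] with p hp
    refine closure_mono ?_ (hg p hp)
    rintro y ⟨u, hu, rfl⟩
    have hb : 0 < br K u := lt_of_lt_of_le hc0' (hbr u hu).1
    refine ⟨?_, ?_⟩
    · rw [Pt_smul, Pt_unit K hu, abs_of_pos (inv_pos.2 hb), inv_mul_cancel₀ hb.ne']
    · rw [norm_smul, hu, mul_one, Real.norm_eq_abs, abs_of_pos (inv_pos.2 hb)]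
      exact inv_anti₀ hc0' (hbr u hu).1
  obtain ⟨hmk, hmkq⟩ := minkowski hn1 hK hZb fun ε hε => zonoid_bound hn1 hK (sph n) hwm hwK hε
  have hvZ : volume.real (Sup h) = kap n * vr N := by
    rw [← hZ, Measure.real, volume_normBall hn1 N hN,
      ENNReal.toReal_ofReal (mul_pos (kap_pos n) (vr_pos hn1 hN)).le]
  have hvL : volume.real (PiB K) = kap n * vr N' := by
    rw [← hL, Measure.real, volume_normBall hn1 N' hN',
      ENNReal.toReal_ofReal (mul_pos (kap_pos n) (vr_pos hn1 hN')).le]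
  rw [hvZ] at hmk hmkq
  rw [hvL]
  obtain ⟨m, rfl⟩ : ∃ m, n = m + 2 := ⟨n - 2, by omega⟩
  have halg := alg_ineq (m := m) (kap_pos (m + 2)) (kap_pos (m + 1)) hnR (vr_pos hn1 hN)
    (s := s1 (m + 2)) rfl hcore hmk
  refine ⟨halg.1, fun hq => ?_⟩
  obtain ⟨q1, q2⟩ := halg.2 hq
  obtain ⟨c, hc, hNc⟩ := hcoreq q1
  obtain ⟨R, hR, hR1, hR2⟩ := hmkq q2
  have hs := s1_pos hn1
  have hhc : ∀ u : E (m + 2), ‖u‖ = 1 → h u = c * s1 (m + 2) := by
    intro u hu
    have e1 : h u = ∫ p, c * |⟪p, u⟫| ∂sph (m + 2) := by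
      refine integral_congr_ae ?_
      filter_upwards [gradient_of_norm hc hNc] with p hp
      rw [hw, hp, real_inner_smul_left, abs_mul, abs_of_pos hc]
    rw [e1, integral_const_mul, integral_abs_inner hn2, hu, mul_one]
  have hball : Sup h = Metric.closedBall 0 (c * s1 (m + 2)) := by
    ext x
    rw [mem_Sup, mem_closedBall_zero_iff]
    constructor
    · intro hx
      rcases eq_or_ne x 0 with rfl | hx0
      · rw [norm_zero]; positivity
      · have hx1 : 0 < ‖x‖ := norm_pos_iff.2 hx0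
        have hu : ‖‖x‖⁻¹ • x‖ = 1 := by
          rw [norm_smul, norm_inv, norm_norm, inv_mul_cancel₀ hx1.ne']
        have := hx _ hu
        rw [hhc _ hu, real_inner_smul_right, real_inner_self_eq_norm_sq] at this
        have e2 : ‖x‖⁻¹ * ‖x‖ ^ 2 = ‖x‖ := by field_simp
        rwa [e2] at this
    · intro hx u hu
      rw [hhc u hu]
      calc ⟪x, u⟫ ≤ ‖x‖ * ‖u‖ := real_inner_le_norm _ _
        _ ≤ c * s1 (m + 2) := by rw [hu, mul_one]; exact hx
  have hRb : R • Sup h = Metric.closedBall 0 (R * (c * s1 (m + 2))) := by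
    rw [hball, _root_.smul_closedBall' hR.ne', smul_zero, Real.norm_eq_abs, abs_of_pos hR]
  rw [hRb] at hR1 hR2
  exact ball_of_median (by omega) hK fun x v u hx hv hxv huv =>
    support_median hn1 hK (by positivity) hR1 hR2 hx hv hxv huv

theorem petty_real (hn : 4 ≤ n) {K : Set (E n)} (hK : Body K) :
    kap (n - 1) ^ n * volume.real K ^ (n - 1) ≤ volume.real (PiB K) * kap n ^ (n - 2) ∧
      (volume.real (PiB K) * kap n ^ (n - 2) ≤ kap (n - 1) ^ n * volume.real K ^ (n - 1) →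
        ∃ (a : E n) (T : E n ≃ₗ[ℝ] E n), K = (fun x => a + T x) '' Metric.closedBall 0 1) := by
  have hn1 : 1 ≤ n := by omega
  obtain ⟨c0, C0, hc0, hbr⟩ := hK.br_bounds hn1
  obtain ⟨N0, hN0, hL0, -⟩ := exists_gauge hn1 hc0 (fun u hu => (hbr u hu).1)
    (fun u hu => (hbr u hu).2) (fun u _ => br_neg K u)
  obtain ⟨A, hA, hI⟩ := exists_iso hn1 hN0
  have hdet : LinearMap.det (LinearMap.adjoint (A : E n →ₗ[ℝ] E n)) = 1 := by
    rw [det_adjoint, hA]
  let T : E n ≃ₗ[ℝ] E n :=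
    LinearMap.equivOfDetNeZero (LinearMap.adjoint (A : E n →ₗ[ℝ] E n)) (by rw [hdet]; norm_num)
  have hT : (T : E n →ₗ[ℝ] E n) = LinearMap.adjoint (A : E n →ₗ[ℝ] E n) := by
    ext1 x; rfl
  have hTd : LinearMap.det (T : E n →ₗ[ℝ] E n) = 1 := by rw [hT, hdet]
  set K1 := (fun x => (0 : E n) + T x) '' K with hK1
  have hB1 : Body K1 := hK.image 0 T
  obtain ⟨c1, C1, hc1, hbr1⟩ := hB1.br_bounds hn1
  obtain ⟨N1, hN1, hL1, hg1⟩ := exists_gauge hn1 hc1 (fun u hu => (hbr1 u hu).1)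
    (fun u hu => (hbr1 u hu).2) (fun u _ => br_neg K1 u)
  have hN : N1 = N0.comp (A : E n →ₗ[ℝ] E n) := by
    apply seminorm_eq
    rw [hL1]
    ext x
    have := mem_PiB_image hn1 hK.cpt hK.cvx 0 T x
    rw [hTd, abs_one, inv_one, one_smul, hT, LinearMap.adjoint_adjoint] at this
    change x ∈ PiB K1 ↔ _
    rw [this, PiB, ← hL0]
    rfl
  have hI1 : Iso N1 := hN ▸ hI
  obtain ⟨h1, h2⟩ := petty_iso hn hB1 hN1 hL1 hg1 hI1
  have v1 : volume.real K1 = volume.real K := by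
    rw [Measure.real, hK1, volume_image, hTd]; simp [Measure.real]
  have v2 : volume.real (PiB K1) = volume.real (PiB K) := by
    rw [Measure.real, hK1, volume_PiB_image hn1 hK.cpt hK.cvx, hTd]; simp [Measure.real]
  rw [v1, v2] at h1 h2
  refine ⟨h1, fun h => ?_⟩
  obtain ⟨a, ρ, hρ, hb⟩ := h2 h
  refine ⟨T.symm a, (LinearEquiv.smulOfNeZero ℝ (E n) ρ hρ.ne').trans T.symm, ?_⟩
  ext x
  constructor
  · intro hx
    have : T x ∈ K1 := ⟨x, hx, by simp⟩
    rw [hb, Metric.mem_closedBall, dist_eq_norm] at this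
    refine ⟨ρ⁻¹ • (T x - a), ?_, ?_⟩
    · rw [mem_closedBall_zero_iff, norm_smul, norm_inv, Real.norm_eq_abs, abs_of_pos hρ,
        inv_mul_le_iff₀ hρ, mul_one]
      exact this
    · simp [smul_smul, inv_mul_cancel₀ hρ.ne']
  · rintro ⟨y, hy, rfl⟩
    have : a + ρ • y ∈ K1 := by
      rw [hb, Metric.mem_closedBall, dist_eq_norm, add_sub_cancel_left, norm_smul,
        Real.norm_eq_abs, abs_of_pos hρ]
      have := mem_closedBall_zero_iff.1 hy
      nlinarith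
    obtain ⟨z, hz, hz'⟩ := this
    have e : z = T.symm a + T.symm (ρ • y) := by
      rw [← map_add, ← hz']; simp
    simpa [e] using hz

theorem petty_ellipsoid (hn : 4 ≤ n) (a : E n) (T : E n ≃ₗ[ℝ] E n) :
    volume (Metric.ball (0 : E (n - 1)) 1) ^ n *
        volume ((fun x => a + T x) '' Metric.closedBall 0 1) ^ (n - 1) =
      volume (PiB ((fun x => a + T x) '' Metric.closedBall 0 1)) *
        volume (Metric.ball (0 : E n) 1) ^ (n - 2) := by
  have hn1 : 1 ≤ n := by omega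
  rw [volume_image, volume_PiB_image hn1 (isCompact_closedBall _ _) (convex_closedBall _ _),
    PiB_closedBall hn1, Measure.addHaar_closedBall _ _ (kap_pos _).le,
    Measure.addHaar_unitClosedBall_eq_addHaar_unitBall, finrank_euclideanSpace_fin,
    ENNReal.ofReal_pow (kap_pos _).le, kap, ENNReal.ofReal_toReal measure_ball_lt_top.ne]
  obtain ⟨m, rfl⟩ : ∃ m, n = m + 2 := ⟨n - 2, by omega⟩
  simp only [Nat.add_sub_cancel, show m + 2 - 1 = m + 1 from rfl]
  ring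

theorem petty (hn : 4 ≤ n) {K : Set (E n)} (hK : Body K) :
    volume (Metric.ball (0 : E (n - 1)) 1) ^ n * volume K ^ (n - 1) ≤
        volume (PiB K) * volume (Metric.ball (0 : E n) 1) ^ (n - 2) ∧
      (volume (Metric.ball (0 : E (n - 1)) 1) ^ n * volume K ^ (n - 1) =
          volume (PiB K) * volume (Metric.ball (0 : E n) 1) ^ (n - 2) ↔
        ∃ (a : E n) (T : E n ≃ₗ[ℝ] E n), K = (fun x => a + T x) '' Metric.closedBall 0 1) := by
  have hn1 : 1 ≤ n := by omega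
  obtain ⟨c0, C0, -, hbr⟩ := hK.br_bounds hn1
  have f1 : volume (PiB K) ≠ ⊤ :=
    (isCompact_Sup (fun u hu => (hbr u hu).2)).measure_lt_top.ne
  have f2 : volume K ≠ ⊤ := hK.cpt.measure_lt_top.ne
  have f3 : ∀ m : ℕ, volume (Metric.ball (0 : E m) 1) ≠ ⊤ := fun m => measure_ball_lt_top.ne
  have g1 : volume (Metric.ball (0 : E (n - 1)) 1) ^ n * volume K ^ (n - 1) ≠ ⊤ :=
    ENNReal.mul_ne_top (ENNReal.pow_ne_top (f3 _)) (ENNReal.pow_ne_top f2)
  have g2 : volume (PiB K) * volume (Metric.ball (0 : E n) 1) ^ (n - 2) ≠ ⊤ :=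
    ENNReal.mul_ne_top f1 (ENNReal.pow_ne_top (f3 _))
  obtain ⟨h1, h2⟩ := petty_real hn hK
  have e1 : (volume (Metric.ball (0 : E (n - 1)) 1) ^ n * volume K ^ (n - 1)).toReal =
      kap (n - 1) ^ n * volume.real K ^ (n - 1) := by
    rw [ENNReal.toReal_mul, ENNReal.toReal_pow, ENNReal.toReal_pow]; rfl
  have e2 : (volume (PiB K) * volume (Metric.ball (0 : E n) 1) ^ (n - 2)).toReal =
      volume.real (PiB K) * kap n ^ (n - 2) := by
    rw [ENNReal.toReal_mul, ENNReal.toReal_pow]; rfl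
  refine ⟨(ENNReal.toReal_le_toReal g1 g2).1 (by rw [e1, e2]; exact h1), fun h => h2 ?_, ?_⟩
  · rw [← e1, ← e2, h]
  · rintro ⟨a, T, rfl⟩
    exact petty_ellipsoid hn a T

end Crest.Agent.R230
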