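import Crest.Agent.R230.Sphere

set_option autoImplicit false
open MeasureTheory Filter Topology
open scoped ENNReal RealInnerProductSpace Pointwise

namespace Crest.Agent.R230

variable {n : ℕ}

/-! Calculus of `Good` functions and integration by parts on the sphere. -/

theorem SteinAux.norm_proj_le (g : E n) {p : E n} (hp : ‖p‖ = 1) : ‖g - ⟪g, p⟫ • p‖ ≤ ‖g‖ := by
  refine (sq_le_sq₀ (norm_nonneg _) (norm_nonneg _)).1 ?_
  rw [norm_sub_sq_real, real_inner_smul_right, norm_smul, hp, mul_one, Real.norm_eq_abs, sq_abs]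
  nlinarith [sq_nonneg ⟪g, p⟫]

theorem Good.continuous {f : E n → ℝ} (hf : Good f) : Continuous f := hf.lip.continuous

theorem good_of_contDiff {f : E n → ℝ} (hf : ContDiff ℝ 1 f) : Good f := by
  exact ⟨hf.locallyLipschitz, Eventually.of_forall fun p => hf.differentiable (by simp) p⟩

theorem good_const (c : ℝ) : Good (fun _ : E n => c) := good_of_contDiff contDiff_const

theorem Good.add {f g : E n → ℝ} (hf : Good f) (hg : Good g) : Good (fun p => f p + g p) := by
  refine ⟨?_, (hf.diff.and hg.diff).mono fun p h => h.1.add h.2⟩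
  have h : ContDiff ℝ 1 fun z : ℝ × ℝ => z.1 + z.2 := by fun_prop
  exact h.locallyLipschitz.comp (hf.lip.prodMk hg.lip)

theorem Good.mul {f g : E n → ℝ} (hf : Good f) (hg : Good g) : Good (fun p => f p * g p) := by
  refine ⟨?_, (hf.diff.and hg.diff).mono fun p h => h.1.mul h.2⟩
  have h : ContDiff ℝ 1 fun z : ℝ × ℝ => z.1 * z.2 := by fun_prop
  exact h.locallyLipschitz.comp (hf.lip.prodMk hg.lip)

theorem Good.sub {f g : E n → ℝ} (hf : Good f) (hg : Good g) : Good (fun p => f p - g p) := by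
  refine ⟨?_, (hf.diff.and hg.diff).mono fun p h => h.1.sub h.2⟩
  have h : ContDiff ℝ 1 fun z : ℝ × ℝ => z.1 - z.2 := by fun_prop
  exact h.locallyLipschitz.comp (hf.lip.prodMk hg.lip)

theorem Good.comp {f : E n → ℝ} (hf : Good f) {φ φ' : ℝ → ℝ} (hφ : ∀ s, HasDerivAt φ (φ' s) s)
    (hφ' : Continuous φ') : Good (fun p => φ (f p)) := by
  have h : ContDiff ℝ 1 φ := by
    refine contDiff_one_iff_deriv.2 ⟨fun s => (hφ s).differentiableAt, ?_⟩
    have : deriv φ = φ' := funext fun s => (hφ s).deriv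
    rwa [this]
  exact ⟨h.locallyLipschitz.comp hf.lip,
    hf.diff.mono fun p hp => (hφ (f p)).differentiableAt.comp p hp⟩

theorem good_abs_inner {q : E n} (hq : q ≠ 0) : Good (fun p : E n => |⟪p, q⟫|) := by
  have h : ContDiff ℝ 1 fun p : E n => ⟪p, q⟫ := contDiff_id.inner ℝ contDiff_const
  refine ⟨?_, (ae_inner_ne hq).mono fun p hp => (h.differentiable (by simp) p).abs hp⟩
  exact (lipschitzWith_one_norm (E := ℝ)).locallyLipschitz.comp h.locallyLipschitz

theorem measurable_gradient (f : E n → ℝ) : Measurable (gradient f) := by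
  exact (InnerProductSpace.toDual ℝ (E n)).symm.continuous.measurable.comp (measurable_fderiv ℝ f)

theorem measurable_tg (f : E n → ℝ) : Measurable (tg f) := by
  have h1 : Measurable fun p : E n => ⟪gradient f p, p⟫ :=
    (measurable_gradient f).inner measurable_id
  exact (measurable_gradient f).sub (h1.smul measurable_id)

theorem Good.exists_bound {f : E n → ℝ} (hf : Good f) :
    ∃ C : ℝ, ∀ p : E n, ‖p‖ = 1 → ‖gradient f p‖ ≤ C := by
  obtain ⟨K, hK⟩ := LocallyLipschitzOn.exists_lipschitzOnWith_of_compact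
    (isCompact_closedBall (0 : E n) 2) hf.lip.locallyLipschitzOn
  refine ⟨K, fun p hp => ?_⟩
  rw [gradient, LinearIsometryEquiv.norm_map]
  refine norm_fderiv_le_of_lipschitzOn ℝ ?_ hK
  exact Metric.closedBall_mem_nhds_of_mem (by simp [hp])

theorem Good.memLp_gradient {f : E n → ℝ} (hf : Good f) (r : ℝ≥0∞) :
    MemLp (gradient f) r (sph n) := by
  obtain ⟨C, hC⟩ := hf.exists_bound
  exact memLp_of_bdd (measurable_gradient f).aestronglyMeasurable (ae_norm.mono hC) r

theorem Good.memLp_tg {f : E n → ℝ} (hf : Good f) (r : ℝ≥0∞) : MemLp (tg f) r (sph n) := by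
  obtain ⟨C, hC⟩ := hf.exists_bound
  exact memLp_of_bdd (measurable_tg f).aestronglyMeasurable
    (ae_norm.mono fun p hp => (SteinAux.norm_proj_le _ hp).trans (hC p hp)) r

theorem inner_tg_self (f : E n → ℝ) {p : E n} (hp : ‖p‖ = 1) : ⟪tg f p, p⟫ = 0 := by
  rw [tg, inner_sub_left, real_inner_smul_left, real_inner_self_eq_norm_sq, hp]
  ring

theorem norm_tg_le (f : E n → ℝ) {p : E n} (hp : ‖p‖ = 1) : ‖tg f p‖ ≤ ‖gradient f p‖ := by
  exact SteinAux.norm_proj_le _ hp

theorem gradient_mul' {f g : E n → ℝ} {p : E n} (hf : DifferentiableAt ℝ f p)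
    (hg : DifferentiableAt ℝ g p) :
    gradient (fun x => f x * g x) p = f p • gradient g p + g p • gradient f p := by
  refine ext_inner_right ℝ fun v => ?_
  rw [inner_gradient_left, fderiv_fun_mul hf hg, inner_add_left, real_inner_smul_left,
    real_inner_smul_left, inner_gradient_left, inner_gradient_left]
  simp

theorem gradient_comp' {f : E n → ℝ} {p : E n} (hf : DifferentiableAt ℝ f p) {φ : ℝ → ℝ}
    {φ' : ℝ} (hφ : HasDerivAt φ φ' (f p)) :
    gradient (fun x => φ (f x)) p = φ' • gradient f p := by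
  refine ext_inner_right ℝ fun v => ?_
  have h := (hφ.comp_hasFDerivAt p hf.hasFDerivAt).fderiv
  have h' : fderiv ℝ (fun x => φ (f x)) p = φ' • fderiv ℝ f p := h
  rw [inner_gradient_left, h', real_inner_smul_left, inner_gradient_left]
  simp

theorem gradient_inner (q p : E n) : gradient (fun x : E n => ⟪x, q⟫) p = q := by
  refine ext_inner_right ℝ fun v => ?_
  have h : (fun x : E n => ⟪x, q⟫) = innerSL ℝ q := by
    funext x
    simp [real_inner_comm]
  rw [inner_gradient_left, h, ContinuousLinearMap.fderiv]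
  simp

theorem tg_mul {f g : E n → ℝ} {p : E n} (hf : DifferentiableAt ℝ f p)
    (hg : DifferentiableAt ℝ g p) :
    tg (fun x => f x * g x) p = f p • tg g p + g p • tg f p := by
  simp only [tg, gradient_mul' hf hg, inner_add_left, real_inner_smul_left]
  module

theorem tg_comp {f : E n → ℝ} {p : E n} (hf : DifferentiableAt ℝ f p) {φ : ℝ → ℝ}
    {φ' : ℝ} (hφ : HasDerivAt φ φ' (f p)) : tg (fun x => φ (f x)) p = φ' • tg f p := by
  simp only [tg, gradient_comp' hf hφ, real_inner_smul_left]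
  module

/-- infinitesimal rotation invariance -/
theorem integral_rot_deriv {f : E n → ℝ} (hf : Good f) {u v : E n} (hu : ‖u‖ = 1) (hv : ‖v‖ = 1)
    (huv : ⟪u, v⟫ = 0) : ∫ p, ⟪gradient f p, ⟪u, p⟫ • v - ⟪v, p⟫ • u⟫ ∂sph n = 0 := by
  obtain ⟨R, hR⟩ := exists_rot hu hv huv
  obtain ⟨K, hK⟩ := LocallyLipschitzOn.exists_lipschitzOnWith_of_compact
    (isCompact_closedBall (0 : E n) 1) hf.lip.locallyLipschitzOn
  have hc : ∀ θ, Continuous fun p => f (R θ p) := fun θ => hf.continuous.comp (R θ).continuous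
  have hb : ∀ {w p : E n}, ‖w‖ = 1 → ‖p‖ = 1 → ∀ {z : E n}, ‖z‖ = 1 → ‖⟪w, p⟫ • z‖ ≤ 1 := by
    intro w p hw hp z hz
    have := abs_real_inner_le_norm w p
    rw [hw, hp, mul_one] at this
    rw [norm_smul, hz, mul_one]
    exact this
  have key := hasDerivAt_integral_of_dominated_loc_of_lip (μ := sph n) (𝕜 := ℝ)
    (F := fun θ p => f (R θ p)) (x₀ := 0) (s := Set.univ) (bound := fun _ => (K : ℝ) * 4)
    (F' := fun p => ⟪gradient f p, ⟪u, p⟫ • v - ⟪v, p⟫ • u⟫) univ_mem
    (Eventually.of_forall fun θ => (hc θ).aestronglyMeasurable) (integrable_of_continuous (hc 0))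
    (((measurable_gradient f).inner (by fun_prop)).aestronglyMeasurable)
    (ae_norm.mono fun p hp => ?_) (integrable_const _) (hf.diff.mono fun p hp => ?_)
  · have h2 : (fun θ => ∫ p, f (R θ p) ∂sph n) = fun _ => ∫ p, f p ∂sph n :=
      funext fun θ => integral_comp_iso (R θ) f
    rw [h2] at key
    exact key.2.unique (hasDerivAt_const _ _)
  · refine LipschitzOnWith.of_dist_le_mul fun θ _ θ' _ => ?_
    have h1 : ∀ θ, R θ p ∈ Metric.closedBall (0 : E n) 1 := fun θ => by simp [hp]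
    refine (hK.dist_le_mul _ (h1 θ) _ (h1 θ')).trans ?_
    rw [Real.coe_nnabs, abs_of_nonneg (by positivity), mul_assoc]
    refine mul_le_mul_of_nonneg_left ?_ K.2
    have h2 : R θ p - R θ' p = (Real.cos θ - Real.cos θ') • (⟪u, p⟫ • u + ⟪v, p⟫ • v) +
        (Real.sin θ - Real.sin θ') • (⟪u, p⟫ • v - ⟪v, p⟫ • u) := by
      rw [hR, hR]
      module
    have h3 : ‖⟪u, p⟫ • u + ⟪v, p⟫ • v‖ ≤ 2 := by
      linarith [norm_add_le (⟪u, p⟫ • u) (⟪v, p⟫ • v), hb hu hp hu, hb hv hp hv]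
    have h4 : ‖⟪u, p⟫ • v - ⟪v, p⟫ • u‖ ≤ 2 := by
      linarith [norm_sub_le (⟪u, p⟫ • v) (⟪v, p⟫ • u), hb hu hp hv, hb hv hp hu]
    have h5 : ‖Real.cos θ - Real.cos θ'‖ ≤ dist θ θ' := by
      simpa [dist_eq_norm] using Real.lipschitzWith_cos.dist_le_mul θ θ'
    have h6 : ‖Real.sin θ - Real.sin θ'‖ ≤ dist θ θ' := by
      simpa [dist_eq_norm] using Real.lipschitzWith_sin.dist_le_mul θ θ'
    rw [dist_eq_norm, h2]
    refine (norm_add_le _ _).trans ?_
    rw [norm_smul, norm_smul]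
    have h7 := mul_le_mul h5 h3 (norm_nonneg _) dist_nonneg
    have h8 := mul_le_mul h6 h4 (norm_nonneg _) dist_nonneg
    linarith
  · have h1 : HasDerivAt (fun θ => R θ p) (⟪u, p⟫ • v - ⟪v, p⟫ • u) 0 := by
      simp only [hR]
      have := ((((Real.hasDerivAt_cos 0).sub_const 1).smul_const
        (⟪u, p⟫ • u + ⟪v, p⟫ • v)).const_add p).fun_add
        ((Real.hasDerivAt_sin 0).smul_const (⟪u, p⟫ • v - ⟪v, p⟫ • u))
      refine this.congr_deriv ?_
      simp
    have h2 : R 0 p = p := by simp [hR]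
    have h3 : HasFDerivAt f (fderiv ℝ f p) (R 0 p) := by
      rw [h2]
      exact hp.hasFDerivAt
    rw [inner_gradient_left]
    exact HasFDerivAt.comp_hasDerivAt (f := fun θ => R θ p) 0 h3 h1

namespace SteinAux

theorem rot_gen {f : E n → ℝ} (hf : Good f) {u : E n} (hu : ‖u‖ = 1) (v : E n) :
    ∫ p, ⟪gradient f p, ⟪u, p⟫ • v - ⟪v, p⟫ • u⟫ ∂sph n = 0 := by
  obtain ⟨w, hw⟩ : ∃ w, w = v - ⟪u, v⟫ • u := ⟨_, rfl⟩
  have h1 : ∀ p : E n, ⟪u, p⟫ • v - ⟪v, p⟫ • u = ⟪u, p⟫ • w - ⟪w, p⟫ • u := fun p => by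
    rw [hw, inner_sub_left, real_inner_smul_left]
    module
  have h2 : ⟪u, w⟫ = 0 := by
    rw [hw, inner_sub_right, real_inner_smul_right, real_inner_self_eq_norm_sq, hu]
    ring
  simp only [h1]
  by_cases h0 : w = 0
  · simp [h0]
  have h3 : ‖w‖ ≠ 0 := norm_ne_zero_iff.2 h0
  have h4 := integral_rot_deriv hf hu (v := ‖w‖⁻¹ • w) (by rw [norm_smul]; simp [h3])
    (by rw [real_inner_smul_right, h2, mul_zero])
  have h5 : ∀ p : E n, ⟪u, p⟫ • ‖w‖⁻¹ • w - ⟪‖w‖⁻¹ • w, p⟫ • u =
      ‖w‖⁻¹ • (⟪u, p⟫ • w - ⟪w, p⟫ • u) := fun p => by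
    rw [real_inner_smul_left]
    module
  simp only [h5, real_inner_smul_right, integral_const_mul] at h4
  exact (mul_eq_zero.1 h4).resolve_left (inv_ne_zero h3)

theorem integrable_inner {g w : E n → E n} (hg : MemLp g 2 (sph n)) (hw : Continuous w) :
    Integrable (fun p => ⟪g p, w p⟫) (sph n) :=
  (hg.norm.integrable_mul (memLp_of_continuous hw 2).norm).mono'
    (hg.aestronglyMeasurable.inner hw.aestronglyMeasurable)
    (Eventually.of_forall fun _ => norm_inner_le_norm _ _)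

theorem good_inner (q : E n) : Good fun p : E n => ⟪p, q⟫ :=
  good_of_contDiff (contDiff_id.inner ℝ contDiff_const)

end SteinAux

/-- integration by parts on the sphere (divergence theorem) -/
theorem stein {f : E n → ℝ} (hf : Good f) (v : E n) :
    ∫ p, ⟪tg f p, v⟫ ∂sph n = ((n : ℝ) - 1) * ∫ p, ⟪p, v⟫ * f p ∂sph n := by
  set b := EuclideanSpace.basisFun (Fin n) ℝ
  have hg : ∀ j, Good fun p => ⟪p, b j⟫ * f p := fun j => (SteinAux.good_inner _).mul hf
  have h1 : ∫ p, ∑ j, ⟪gradient (fun p => ⟪p, b j⟫ * f p) p, ⟪b j, p⟫ • v - ⟪v, p⟫ • b j⟫ ∂sph n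
      = 0 := by
    rw [integral_finsetSum _ fun j _ =>
      SteinAux.integrable_inner ((hg j).memLp_gradient 2) (by fun_prop)]
    exact Finset.sum_eq_zero fun j _ => SteinAux.rot_gen (hg j) (b.orthonormal.1 j) v
  have h2 : ∀ᵐ p ∂sph n,
      ∑ j, ⟪gradient (fun p => ⟪p, b j⟫ * f p) p, ⟪b j, p⟫ • v - ⟪v, p⟫ • b j⟫
        = ⟪tg f p, v⟫ - ((n : ℝ) - 1) * (⟪p, v⟫ * f p) := by
    filter_upwards [ae_norm, hf.diff] with p hp hd
    have e1 : ∀ j, ⟪gradient (fun p => ⟪p, b j⟫ * f p) p, ⟪b j, p⟫ • v - ⟪v, p⟫ • b j⟫ =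
        ⟪gradient f p, v⟫ * (⟪p, b j⟫ * ⟪b j, p⟫) - ⟪p, v⟫ * (⟪gradient f p, b j⟫ * ⟪b j, p⟫)
          + f p * (⟪p, b j⟫ * ⟪b j, v⟫) - ⟪p, v⟫ * f p := by
      intro j
      have hd' : DifferentiableAt ℝ (fun p : E n => ⟪p, b j⟫) p :=
        differentiableAt_id.inner ℝ (differentiableAt_const _)
      rw [gradient_mul' hd' hd, gradient_inner]
      simp only [inner_add_left, inner_sub_right, real_inner_smul_left, real_inner_smul_right]
      rw [real_inner_self_eq_norm_sq, b.orthonormal.1 j, real_inner_comm p v,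
        real_inner_comm p (b j)]
      ring
    simp only [e1, Finset.sum_sub_distrib, Finset.sum_add_distrib, ← Finset.mul_sum,
      b.sum_inner_mul_inner, Finset.sum_const, Finset.card_univ, Fintype.card_fin, nsmul_eq_mul]
    rw [real_inner_self_eq_norm_sq, hp, tg, inner_sub_left, real_inner_smul_left]
    ring
  have h3 : Integrable (fun p => ⟪p, v⟫ * f p) (sph n) :=
    integrable_of_continuous ((SteinAux.good_inner v).mul hf).continuous
  rw [integral_congr_ae h2, integral_sub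
    (SteinAux.integrable_inner (hf.memLp_tg 2) continuous_const) (h3.const_mul _),
    integral_const_mul] at h1
  linarith

/-- the version for functions with radial derivative `d * f` -/
theorem stein_hom {f : E n → ℝ} (hf : Good f) {d : ℝ}
    (hd : ∀ᵐ p ∂sph n, ⟪gradient f p, p⟫ = d * f p) (v : E n) :
    ∫ p, ⟪gradient f p, v⟫ ∂sph n = ((n : ℝ) - 1 + d) * ∫ p, ⟪p, v⟫ * f p ∂sph n := by
  have h1 := stein hf v
  have h2 : ∀ᵐ p ∂sph n, ⟪tg f p, v⟫ = ⟪gradient f p, v⟫ - d * (⟪p, v⟫ * f p) := by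
    filter_upwards [hd] with p hp
    rw [tg, inner_sub_left, real_inner_smul_left, hp]
    ring
  have h3 : Integrable (fun p => ⟪p, v⟫ * f p) (sph n) :=
    integrable_of_continuous ((SteinAux.good_inner v).mul hf).continuous
  rw [integral_congr_ae h2, integral_sub
    (SteinAux.integrable_inner (hf.memLp_gradient 2) continuous_const) (h3.const_mul _),
    integral_const_mul] at h1
  linarith

theorem integral_inner_sq (hn : 1 ≤ n) {u : E n} (hu : ‖u‖ = 1) :
    ∫ p, ⟪p, u⟫ ^ 2 ∂sph n = 1 / n := by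
  have := sph_prob hn
  have h1 := stein_hom (SteinAux.good_inner u) (d := 1) (Eventually.of_forall fun p => by
    rw [gradient_inner, one_mul, real_inner_comm]) u
  simp only [gradient_inner, real_inner_self_eq_norm_sq, hu, ← sq] at h1
  have h2 : (0 : ℝ) < n := by exact_mod_cast hn
  simp only [one_pow, integral_const, probReal_univ, smul_eq_mul, mul_one, sub_add_cancel] at h1
  rw [eq_div_iff h2.ne']
  linarith

end Crest.Agent.R230
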